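import Crest.Agent.N218.Pc.Gen
import Crest.Agent.N218.Pc.Defs
import Crest.Agent.N218.P.Isop
import Crest.Agent.N218.P.Path
import Crest.Agent.N218.P.Crit
import Crest.Agent.N218.P.Bo
import Crest.Agent.N218.P.Kit

-- ▼ part N218/Pc/Ch
section

/-! Row 218, PIECE (helper69): the abstract steps of the chain. -/

set_option autoImplicit false
set_option linter.unusedSectionVars false
open Set Filter Topology
open scoped RealInnerProductSpace ContDiff

noncomputable section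

namespace Crest.Agent.N218.Pc
open Pm

section c1
variable {B B' : Type} [TopologicalSpace B] [TopologicalSpace B'] {E : Type} [NormedAddCommGroup E]
  [NormedSpace ℝ E]

/-- jointly `C¹` in the fibre variable -/
structure C1 (F : B × E → E) : Prop where
  ct : Continuous F
  d : ∀ p : B × E, DifferentiableAt ℝ (fun y => F (p.1, y)) p.2
  dc : Continuous fun p : B × E => fderiv ℝ (fun y => F (p.1, y)) p.2

theorem C1.pull {F : B × E → E} (h : C1 F) {φ : B' → B} (hφ : Continuous φ) :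
    C1 fun p : B' × E => F (φ p.1, p.2) :=
  have c : Continuous fun p : B' × E => (φ p.1, p.2) := by fun_prop
  ⟨h.ct.comp c, fun p => h.d (φ p.1, p.2), h.dc.comp c⟩

theorem C1.comp {F G : B × E → E} (h : C1 F) (h' : C1 G) : C1 fun p => F (p.1, G p) := by
  have c : Continuous fun p : B × E => (p.1, G p) := continuous_fst.prodMk h'.ct
  refine ⟨h.ct.comp c, fun p => DifferentiableAt.comp (g := fun y => F (p.1, y))
    (f := fun y => G (p.1, y)) p.2 (h.d (p.1, G p)) (h'.d p), ?_⟩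
  refine ((h.dc.comp c).clm_comp h'.dc).congr fun p => ?_
  exact (fderiv_comp (g := fun y => F (p.1, y)) (f := fun y => G (p.1, y)) p.2 (h.d (p.1, G p))
    (h'.d p)).symm

theorem C1.add {F G : B × E → E} (h : C1 F) (h' : C1 G) : C1 fun p => F p + G p :=
  ⟨h.ct.add h'.ct, fun p => (h.d p).add (h'.d p),
    (h.dc.add h'.dc).congr fun p => (fderiv_fun_add (h.d p) (h'.d p)).symm⟩

theorem C1.sub {F G : B × E → E} (h : C1 F) (h' : C1 G) : C1 fun p => F p - G p :=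
  ⟨h.ct.sub h'.ct, fun p => (h.d p).sub (h'.d p),
    (h.dc.sub h'.dc).congr fun p => (fderiv_fun_sub (h.d p) (h'.d p)).symm⟩

theorem fderiv_slice {P : Type} [NormedAddCommGroup P] [NormedSpace ℝ P] {F : P × E → E}
    {p : P × E} (h : DifferentiableAt ℝ F p) : HasFDerivAt (fun y => F (p.1, y))
      ((fderiv ℝ F p).comp (ContinuousLinearMap.inr ℝ P E)) p.2 :=
  h.hasFDerivAt.comp p.2 (hasFDerivAt_prodMk_right p.1 p.2)

/-- smooth maps are `C1` -/
theorem C1.of_smooth {P : Type} [NormedAddCommGroup P] [NormedSpace ℝ P] {F : P × E → E}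
    (h : ContDiff ℝ ∞ F) : C1 F :=
  have d := h.differentiable (by simp)
  ⟨h.continuous, fun p => (fderiv_slice (d p)).differentiableAt,
    ((h.continuous_fderiv (by simp)).clm_comp continuous_const).congr
      fun p => (fderiv_slice (d p)).fderiv.symm⟩


/-- weak retractions onto `{ρ ≤ 0}` with a collar of width `w` -/
structure WR (ρ : B × E → ℝ) (w : ℝ) (r : B × E → E) : Prop where
  ρc : Continuous ρ
  w0 : 0 < w
  ct : Continuous r
  bd : ∃ C, ∀ p, ‖r p‖ ≤ C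
  id : ∀ p, ρ p ≤ 0 → r p = p.2
  lt : ∀ p, 0 < ρ p → ρ p ≤ w → ρ (p.1, r p) < ρ p
  inn : ∀ p, ρ (p.1, r p) ≤ w / 2

/-- `C¹` retractions onto a regular domain -/
structure RT (ρ : B × E → ℝ) (w : ℝ) (r : B × E → E) : Prop extends WR ρ w r where
  c1 : C1 r
  cl : ∀ p, ρ p ≤ 0 → p.2 ∈ closure {y | ρ (p.1, y) < 0}

theorem WR.pull {ρ : B × E → ℝ} {w : ℝ} {r : B × E → E} (h : WR ρ w r) {φ : B' → B}
    (hφ : Continuous φ) : WR (fun p => ρ (φ p.1, p.2)) w fun p => r (φ p.1, p.2) :=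
  have c : Continuous fun p : B' × E => (φ p.1, p.2) := by fun_prop
  ⟨h.ρc.comp c, h.w0, h.ct.comp c, h.bd.imp fun _ a _ => a _, fun _ => h.id _, fun _ => h.lt _,
    fun p => h.inn (φ p.1, p.2)⟩

theorem RT.pull {ρ : B × E → ℝ} {w : ℝ} {r : B × E → E} (h : RT ρ w r) {φ : B' → B}
    (hφ : Continuous φ) : RT (fun p => ρ (φ p.1, p.2)) w fun p => r (φ p.1, p.2) :=
  ⟨h.toWR.pull hφ, h.c1.pull hφ, fun p => h.cl (φ p.1, p.2)⟩

theorem WR.near {ρ : B × E → ℝ} {w : ℝ} {r : B × E → E} (h : WR ρ w r) {p : B × E} (hp : ρ p < 0) :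
    ∀ᶠ q in 𝓝 p, r q = q.2 :=
  (h.ρc.continuousAt.eventually_lt continuousAt_const hp).mono fun q a => h.id q a.le

theorem RT.fd {ρ : B × E → ℝ} {w : ℝ} {r : B × E → E} (h : RT ρ w r) {p : B × E} (hp : ρ p ≤ 0) :
    fderiv ℝ (fun y => r (p.1, y)) p.2 = 1 := by
  have c : Continuous fun y : E => (p.1, y) := by fun_prop
  refine closure_minimal (s := {y | ρ (p.1, y) < 0})
    (t := {y | fderiv ℝ (fun y => r (p.1, y)) y = 1}) (fun y hy => ?_)
    (isClosed_eq (h.c1.dc.comp c) continuous_const) (h.cl p hp)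
  exact ((hasFDerivAt_id y).congr_of_eventuallyEq
    (c.continuousAt.eventually (h.toWR.near (p := (p.1, y)) hy))).fderiv

variable [FiniteDimensional ℝ E]

theorem bd_comp [CompactSpace B] {D r : B × E → E} (hD : Continuous D) (h : ∃ C, ∀ p, ‖r p‖ ≤ C) :
    ∃ C, ∀ p, ‖D (p.1, r p)‖ ≤ C := by
  have : ProperSpace E := FiniteDimensional.proper ℝ _
  obtain ⟨C, h⟩ := h
  obtain ⟨C', h'⟩ := (isCompact_univ.prod (isCompact_closedBall (0 : E) C)).exists_bound_of_continuousOn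
    hD.continuousOn
  exact ⟨C', fun p => h' _ ⟨mem_univ _, mem_closedBall_zero_iff.2 (h p)⟩⟩

theorem WR.conj [CompactSpace B] {ρ : B × E → ℝ} {w : ℝ} {r D D' : B × E → E} (h : WR ρ w r)
    (hD : Continuous D) (hD' : Continuous D') (l : ∀ p : B × E, D' (p.1, D p) = p.2)
    (l' : ∀ p : B × E, D (p.1, D' p) = p.2) :
    WR (fun p => ρ (p.1, D' p)) w fun p => D (p.1, r (p.1, D' p)) :=
  have c : Continuous fun p : B × E => (p.1, D' p) := continuous_fst.prodMk hD'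
  ⟨h.ρc.comp c, h.w0, hD.comp (continuous_fst.prodMk (h.ct.comp c)),
    bd_comp hD (h.bd.imp fun _ a p => a (p.1, D' p)), fun p a => by rw [h.id _ a, l'],
    fun p a b => (congrArg (fun y => ρ (p.1, y)) (l (p.1, _))).trans_lt (h.lt (p.1, D' p) a b),
    fun p => (congrArg (fun y => ρ (p.1, y)) (l (p.1, _))).trans_le (h.inn (p.1, D' p))⟩

theorem RT.conj [CompactSpace B] {ρ : B × E → ℝ} {w : ℝ} {r D D' : B × E → E} (h : RT ρ w r)
    (hD : C1 D) (hD' : C1 D') (l : ∀ p : B × E, D' (p.1, D p) = p.2)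
    (l' : ∀ p : B × E, D (p.1, D' p) = p.2) :
    RT (fun p => ρ (p.1, D' p)) w fun p => D (p.1, r (p.1, D' p)) := by
  refine ⟨h.toWR.conj hD.ct hD'.ct l l', hD.comp (h.c1.comp hD'), fun p a => ?_⟩
  have := map_mem_closure (f := fun y => D (p.1, y)) (hD.ct.comp (by fun_prop)) (h.cl _ a)
    (t := {y | ρ (p.1, D' (p.1, y)) < 0}) fun y hy => by
      show ρ (p.1, D' (p.1, D (p.1, y))) < 0
      rw [l (p.1, y)]; exact hy
  rwa [l'] at this

/-- compose a weak retraction with an inward push of the collar -/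
theorem WR.push [CompactSpace B] {ρ : B × E → ℝ} {w : ℝ} {r κ : B × E → E} (h : WR ρ w r)
    (hc : Continuous κ) (h0 : ∀ p, ρ p ≤ 0 → κ p = p.2)
    (h1 : ∀ p, ρ p ≤ w → ρ (p.1, κ p) ≤ ρ p) : WR ρ w fun p => κ (p.1, r p) :=
  have a : ∀ p, ρ (p.1, κ (p.1, r p)) ≤ ρ (p.1, r p) := fun p =>
    h1 (p.1, r p) (by linarith [h.inn p, h.w0])
  ⟨h.ρc, h.w0, hc.comp (continuous_fst.prodMk h.ct), bd_comp hc h.bd,
    fun p b => by rw [h.id p b]; exact h0 p b, fun p b c => (a p).trans_lt (h.lt p b c),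
    fun p => (a p).trans (h.inn p)⟩
end c1

section inner
variable {B : Type} [TopologicalSpace B] [CompactSpace B] {k : ℕ} {E : Type} [NormedAddCommGroup E]
  [InnerProductSpace ℝ E] [FiniteDimensional ℝ E]

theorem cyc_le {a : Ix k → ℝ} (h : ∀ i, a i ≤ a (i - 1)) (i : Ix k) : a i = a (i - 1) := by
  have := C.cyc_eq (Equiv.addRight (1 : Ix k)) (a := a) (b := fun i => a i - a (i + 1))
    (fun i => by simpa using h (i + 1)) (fun i => by simp) (i - 1)
  rw [sub_add_cancel] at this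
  linarith

theorem eqn_zero {f : E → E} {z : V k E} (h : ∀ i, z i = f (z (i - 1))) : Eqn f 0 z :=
  fun i => by simpa using h i


theorem cm_id : CM k fun y : E => y := CM.clm (L := 1) (fun _ _ => rfl) fun _ => real_inner_self_nonneg



theorem CM.conj {G : E → E} (h : CM k G) {L : E →L[ℝ] E} (hL : ∀ x y, ⟪L x, y⟫ = ⟪x, L y⟫) :
    CM k fun y => L (G (L y)) := fun z => by
  simpa only [hL, map_sub] using h fun i => L (z i)

/-- scale the complement of `p` by `1 - t θ` -/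
def kl (p : E →L[ℝ] E) (θ : ℝ → ℝ) (t : ℝ) (y : E) : E := y - (t * θ ‖p y‖) • (y - p y)

theorem kl_cont (p : E →L[ℝ] E) {θ : ℝ → ℝ} (hθ : Continuous θ) {T : Type} [TopologicalSpace T]
    {t : T → ℝ} {y : T → E} (ht : Continuous t) (hy : Continuous y) :
    Continuous fun x => kl p θ (t x) (y x) := by unfold kl; fun_prop

theorem kl_fix {p : E →L[ℝ] E} {θ : ℝ → ℝ} {t : ℝ} {y : E} (h : p y = y) : kl p θ t y = y := by
  simp [kl, h]

/-- a gradient step on `K = {g ≤ 0}` whose fixed points are `0` and a rim in the range of `p` -/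
structure GK (p : E →L[ℝ] E) (θ : ℝ → ℝ) (a₀ a₁ : ℝ) (g : B × E → ℝ) (G : B × E → E) : Prop where
  sy : ∀ x y, ⟪p x, y⟫ = ⟪x, p y⟫
  θc : Continuous θ
  a0 : 0 < a₀
  θ0 : ∀ t, t ≤ a₀ → θ t = 0
  θ1 : ∀ t, a₁ ≤ t → θ t = 1
  gc : Continuous g
  Gc : Continuous G
  cm : ∀ k b, CM k fun y => G (b, y)
  le : ∀ q, g q ≤ 0 → g (q.1, G q) ≤ g q
  eq : ∀ q, g q ≤ 0 → g (q.1, G q) = g q → G q = q.2
  fx : ∀ q, g q ≤ 0 → G q = q.2 → g q < 0 ∧ p q.2 = q.2 ∧ (q.2 = 0 ∨ a₁ < ‖q.2‖)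
  kl : ∀ t ∈ Icc (0 : ℝ) 1, ∀ q, g q ≤ 0 → g (q.1, kl p θ t q.2) ≤ g q

theorem GK.pull {B' : Type} [TopologicalSpace B'] {p : E →L[ℝ] E} {θ : ℝ → ℝ} {a₀ a₁ : ℝ}
    {g : B × E → ℝ} {G : B × E → E} (h : GK p θ a₀ a₁ g G) {φ : B' → B} (hφ : Continuous φ) :
    GK p θ a₀ a₁ (fun q => g (φ q.1, q.2)) fun q => G (φ q.1, q.2) :=
  have c : Continuous fun q : B' × E => (φ q.1, q.2) := by fun_prop
  ⟨h.sy, h.θc, h.a0, h.θ0, h.θ1, h.gc.comp c, h.Gc.comp c, fun k b => h.cm k (φ b),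
    fun q => h.le (φ q.1, q.2), fun q => h.eq (φ q.1, q.2), fun q => h.fx (φ q.1, q.2),
    fun t a q => h.kl t a (φ q.1, q.2)⟩

/-- periodic orbits of `A G R A` -/
theorem GK.per {p : E →L[ℝ] E} {θ : ℝ → ℝ} {a₀ a₁ : ℝ} {g : B × E → ℝ} {G R : B × E → E}
    (h : GK p θ a₀ a₁ g G) (hK : ∀ q, g (q.1, R q) ≤ 0) (hid : ∀ q, g q ≤ 0 → R q = q.2)
    {t : B → ℝ} (tc : Continuous t) (ht : ∀ b, t b ∈ Icc (0 : ℝ) 1) {F : B × E → E}
    (hF : ∀ q, F q = Pc.kl p θ (t q.1) (G (q.1, R (q.1, Pc.kl p θ (t q.1) q.2)))) (b : B)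
    (z : V k E) (hz : ∀ i, z i = F (b, z (i - 1))) : ∃ y, z = (fun _ => y) ∧ Loc k F b y := by
  simp only [hF] at hz
  set A := Pc.kl p θ (t b)
  have k0 : ∀ y, g (b, y) ≤ 0 → g (b, A y) ≤ g (b, y) := fun y => h.kl _ (ht b) (b, y)
  have k1 : ∀ y, g (b, G (b, R (b, y))) ≤ 0 := fun y => (h.le (b, _) (hK (b, y))).trans (hK (b, y))
  have k2 : ∀ i, g (b, z i) ≤ 0 := fun i => by rw [hz i]; exact (k0 _ (k1 _)).trans (k1 _)
  have k3 : ∀ i, g (b, A (z i)) ≤ 0 := fun i => (k0 _ (k2 i)).trans (k2 i)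
  have hz' : ∀ i, z i = A (G (b, A (z (i - 1)))) := fun i => by rw [hz i, hid (b, _) (k3 _)]
  have k4 : ∀ i, g (b, z i) ≤ g (b, G (b, A (z (i - 1)))) := fun i => by
    conv_lhs => rw [hz' i]
    exact k0 _ ((h.le (b, _) (k3 _)).trans (k3 _))
  have k5 := cyc_le (a := fun i => g (b, z i)) fun i =>
    (k4 i).trans ((h.le (b, _) (k3 _)).trans (k0 _ (k2 _)))
  have k6 : ∀ i, G (b, A (z (i - 1))) = A (z (i - 1)) := fun i => h.eq (b, _) (k3 _)
    (le_antisymm (h.le (b, _) (k3 _)) ((k0 _ (k2 _)).trans ((k5 i).ge.trans (k4 i))))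
  have k7 : ∀ i, z i = A (z (i - 1)) := fun i => by
    rw [hz' i, k6 i]; exact kl_fix (h.fx (b, _) (k3 _) (k6 i)).2.1
  have k8 : ∀ i, G (b, z i) = z i := fun i => by rw [k7 i]; exact k6 i
  have k9 : ∀ i, z i = z (i - 1) := fun i => (k7 i).trans (kl_fix (h.fx (b, _) (k2 _) (k8 _)).2.1)
  have e := cm_const cm_id (eqn_zero (f := fun y => y) k9) le_rfl fun _ => rfl
  refine ⟨z 0, e, ?_⟩
  obtain ⟨f1, f2, f3⟩ := h.fx (b, z 0) (k2 0) (k8 0)
  have cA : Continuous fun q : B × E => (q.1, Pc.kl p θ (t q.1) q.2) :=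
    continuous_fst.prodMk (kl_cont p h.θc (by fun_prop) continuous_snd)
  have n1 : ∀ᶠ q : B × E in 𝓝 (b, z 0), g (q.1, Pc.kl p θ (t q.1) q.2) < 0 :=
    (h.gc.comp cA).continuousAt.eventually_lt continuousAt_const (by
      simpa only [Function.comp, kl_fix f2] using f1)
  have c1 : Continuous fun q : B × E => ‖p q.2‖ := by fun_prop
  have c2 : Continuous fun q : B × E => ‖p (G (q.1, Pc.kl p θ (t q.1) q.2))‖ :=
    (p.continuous.comp (h.Gc.comp cA)).norm
  have v2 : ‖p (G (b, Pc.kl p θ (t b) (z 0)))‖ = ‖z 0‖ := by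
    rw [kl_fix (show p (z 0) = z 0 from f2), k8, show p (z 0) = z 0 from f2]
  have v1 : ‖p (z 0)‖ = ‖z 0‖ := congrArg norm f2
  rcases f3 with f3 | f3
  · have n0 : ‖z 0‖ < a₀ := by rw [show z 0 = 0 from f3, norm_zero]; exact h.a0
    refine Loc.of_cm (h.cm k) ?_
    filter_upwards [n1, c1.continuousAt.eventually_lt continuousAt_const (v1.trans_lt n0),
      c2.continuousAt.eventually_lt continuousAt_const (v2.trans_lt n0)] with q a c d
    rw [hF, hid (q.1, _) a.le, Pc.kl, h.θ0 _ d.le, Pc.kl, h.θ0 _ c.le]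
    simp
  · refine Loc.of_cm (G := fun q => (1 - t q.1 • (1 - p) : E →L[ℝ] E)
      (G (q.1, (1 - t q.1 • (1 - p) : E →L[ℝ] E) q.2)))
      (fun b => (h.cm k b).conj (L := 1 - t b • (1 - p)) fun x y => by
        simp [inner_sub_left, inner_sub_right, inner_smul_left, inner_smul_right, h.sy]) ?_
    filter_upwards [n1, continuousAt_const.eventually_lt c1.continuousAt (f3.trans_eq v1.symm),
      continuousAt_const.eventually_lt c2.continuousAt (f3.trans_eq v2.symm)] with q a c d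
    rw [hF, hid (q.1, _) a.le, Pc.kl, h.θ1 _ d.le, Pc.kl, h.θ1 _ c.le]
    simp



end inner

end Crest.Agent.N218.Pc
end
end

-- ▼ part N218/Pc/Cnj

/-! Row 218, PIECE (helper69): leaf CNJ, conjugation along the isotopy. -/

set_option autoImplicit false
set_option linter.unusedSectionVars false
open Set Filter Topology
open scoped ContDiff RealInnerProductSpace

noncomputable section

namespace Crest.Agent.N218.Pc
open P Sk

namespace Cnj
section sd
variable {T T' V : Type} [TopologicalSpace T] [TopologicalSpace T'] [NormedAddCommGroup V]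
  [NormedSpace ℝ V]

theorem sd_comp {P Q : T × V → V} {M N : V →L[ℝ] V} {x : T × V} (hP : Ad.Sd P M (x.1, Q x))
    (hQ : Ad.Sd Q N x) (c : Continuous Q) : Ad.Sd (fun y => P (y.1, Q y)) (M.comp N) x := by
  intro ε e
  have K : 0 < ‖N‖ + 1 + ‖M‖ := by positivity
  have t : Tendsto (fun y : T × V × V => (y.1, Q (y.1, y.2.1), Q (y.1, y.2.2)))
      (𝓝 (x.1, x.2, x.2)) (𝓝 (x.1, Q x, Q x)) := Continuous.tendsto' (by fun_prop) _ _ rfl
  obtain ⟨δ, d0, d1, d2⟩ : ∃ δ : ℝ, 0 < δ ∧ δ ≤ 1 ∧ δ * (‖N‖ + 1 + ‖M‖) ≤ ε :=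
    ⟨min 1 (ε / (‖N‖ + 1 + ‖M‖)), by positivity, min_le_left _ _,
      (le_div_iff₀ K).1 (min_le_right _ _)⟩
  filter_upwards [t.eventually (hP δ d0), hQ δ d0] with y a b
  set u := Q (y.1, y.2.1) - Q (y.1, y.2.2)
  set v := y.2.1 - y.2.2
  have a1 : ‖u‖ ≤ δ * ‖v‖ + ‖N‖ * ‖v‖ :=
    (norm_le_norm_sub_add u (N v)).trans (add_le_add b (N.le_opNorm v))
  have a2 : ‖M (u - N v)‖ ≤ ‖M‖ * (δ * ‖v‖) :=
    (M.le_opNorm _).trans (mul_le_mul_of_nonneg_left b (norm_nonneg _))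
  have a3 := (norm_add_le _ _).trans (add_le_add a a2)
  rw [map_sub M u, sub_add_sub_cancel] at a3
  refine a3.trans ?_
  have v0 := norm_nonneg v
  have := mul_le_mul_of_nonneg_left a1 d0.le
  have := mul_le_mul_of_nonneg_right d2 v0
  have := mul_le_mul_of_nonneg_right d1 (mul_nonneg d0.le v0)
  nlinarith

theorem sd_pull {P : T × V → V} {M : V →L[ℝ] V} {φ : T' → T} (hφ : Continuous φ) {x : T' × V}
    (h : Ad.Sd P M (φ x.1, x.2)) : Ad.Sd (fun y : T' × V => P (φ y.1, y.2)) M x := fun ε e => by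
  have t : Tendsto (fun y : T' × V × V => (φ y.1, y.2)) (𝓝 (x.1, x.2, x.2)) (𝓝 (φ x.1, x.2, x.2)) :=
    Continuous.tendsto' (by fun_prop) _ _ rfl
  filter_upwards [t.eventually (h ε e)] with y a using a

theorem sd_c1 [FiniteDimensional ℝ V] {D : T × V → V} (h : C1 D) (x : T × V) :
    Ad.Sd D (fderiv ℝ (fun y => D (x.1, y)) x.2) x :=
  Ad.Sd.of_c1 h.dc.continuousAt (.of_forall fun y => (h.d y).hasFDerivAt)

theorem sd_conj [FiniteDimensional ℝ V] {f D D' : T × V → V} (hD : C1 D) (hD' : C1 D')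
    (fc : Continuous f) (l' : ∀ p : T × V, D (p.1, D' p) = p.2) {x : T × V}
    (e : f (x.1, D' x) = D' x) (h : Ad.Sd f 1 (x.1, D' x)) :
    Ad.Sd (fun y => D (y.1, f (y.1, D' y))) 1 x := by
  have a := sd_comp h (sd_c1 hD' x) hD'.ct
  have b := sd_comp (P := D) (Q := fun y => f (y.1, D' y)) (x := x)
    (by rw [e]; exact sd_c1 hD (x.1, D' x)) a (fc.comp (continuous_fst.prodMk hD'.ct))
  have c := (HasFDerivAt.comp (g := fun y => D (x.1, y)) (f := fun y => D' (x.1, y)) x.2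
    (hD.d (x.1, D' x)).hasFDerivAt (hD'.d x).hasFDerivAt).unique
    ((hasFDerivAt_id x.2).congr_of_eventuallyEq (.of_forall fun y => l' (x.1, y)))
  exact (show _ = (1 : V →L[ℝ] V) from c) ▸ b
end sd

theorem per {ρ : S × Y → ℝ} {f : S × Y → Y} {w : ℝ} (h : Rt ρ f w) {σ : S} {y : Y} {N : ℕ}
    (hN : 0 < N) (e : (fun y => f (σ, y))^[N] y = y) : ρ (σ, y) ≤ 0 := by
  obtain ⟨n, rfl⟩ := Nat.exists_eq_succ_of_ne_zero hN.ne'
  have i : ∀ n, ρ (σ, (fun y => f (σ, y))^[n + 1] y) ≤ w := fun n => by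
    rw [Function.iterate_succ_apply']; exact h.inn (σ, _)
  by_contra! c
  have k : ∀ n, ρ (σ, (fun y => f (σ, y))^[n + 1] y) < ρ (σ, y) := fun m => by
    induction m with
    | zero => exact h.lt (σ, y) c (e ▸ i n)
    | succ m ih =>
      rw [Function.iterate_succ_apply']
      rcases le_or_gt (ρ (σ, (fun y => f (σ, y))^[m + 1] y)) 0 with d | d
      · rw [h.id _ d]; exact ih
      · exact (h.lt _ d (i m)).trans ih
  exact (k n).ne (by rw [← Nat.succ_eq_add_one, e])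

theorem key {u v a b w c : ℝ} (e0 : a = smin (3 / 4) u) (h1 : |a| ≤ w → b = a) (h2 : w < a → w < b)
    (h3 : a < -w → b < -w) (h4 : b ≤ 1 / 2 ∨ v ≤ 1 / 2 → b = v) (c0 : 0 ≤ c)
    (c1 : c ≤ min w (1 / 4)) : u ≤ c ↔ v ≤ c := by
  have c2 := c1.trans (min_le_left _ _)
  have c3 := c1.trans (min_le_right _ _)
  have k : a ≤ 1 / 4 ∨ u ≤ 1 / 4 → a = u := fun d => by
    rcases le_or_gt (u + 1 / 1000) (3 / 4) with p | p
    · rw [e0, smin_right p]
    · have := min_le_smin (3 / 4) u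
      rw [← e0] at this
      rcases min_cases (3 / 4) u with q | q <;> rcases d with d | d <;> linarith [q.1]
  rcases lt_or_ge a (-w) with p | p
  · have := h3 p
    have := h4 (.inl (by linarith))
    have := k (.inl (by linarith))
    exact iff_of_true (by linarith) (by linarith)
  rcases le_or_gt a w with q | q
  · have := h1 (abs_le.2 ⟨p, q⟩)
    refine ⟨fun d => ?_, fun d => ?_⟩
    · have := k (.inr (by linarith))
      have := h4 (.inl (by linarith))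
      linarith
    · have := h4 (.inr (by linarith))
      have := k (.inl (by linarith))
      linarith
  · have := h2 q
    refine iff_of_false (fun d => ?_) fun d => ?_
    · have := k (.inr (by linarith))
      linarith
    · have := h4 (.inr (by linarith))
      linarith

theorem lb_ct (s : ℝ) : Continuous fun σ : S => (lb s σ).1 := by
  simp only [lb, lab]; fun_prop

theorem rl_lb (s : ℝ) {σ σ' : S} {c : ℂ} (h : Rl σ σ' c) :
    ‖c‖ = 1 ∧ (lb s σ').1 = c * (lb s σ).1 := by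
  obtain ⟨t, t', a, b, rfl⟩ := h
  refine ⟨by rw [norm_mul, t.norm_coe, t'.norm_coe, one_mul], ?_⟩
  simp only [lb, lab, a, b, PiLp.smul_apply, smul_eq_mul]; ring

/-- an equivariant isotopy -/
structure Iso (D D' : (S × unitInterval) × Y → Y) : Prop where
  c : C1 D
  c' : C1 D'
  l : ∀ b y, D' (b, D (b, y)) = y
  l' : ∀ b y, D (b, D' (b, y)) = y
  ev : ∀ t σ σ' c η, Rl σ σ' c → D ((σ', t), act c η) = act c (D ((σ, t), η))
  d0 : ∀ σ y, D ((σ, 0), y) = y

/-- the conjugate -/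
def cj (D D' : (S × unitInterval) × Y → Y) (f : S × Y → Y) (p : (S × unitInterval) × Y) : Y :=
  D (p.1, f (p.1.1, D' p))

variable {ρ ρ' : S × Y → ℝ} {f : S × Y → Y} {w : ℝ} {D D' : (S × unitInterval) × Y → Y}

theorem cj_ct (h : Rt ρ f w) (i : Iso D D') : Continuous (cj D D' f) :=
  i.c.ct.comp (continuous_fst.prodMk (h.ct.comp (continuous_fst.fst.prodMk i.c'.ct)))

theorem cj_bd (h : Rt ρ f w) (i : Iso D D') : ∃ C, ∀ p, ‖cj D D' f p‖ ≤ C := by
  obtain ⟨C, hC⟩ := h.bd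
  obtain ⟨C', hC'⟩ := bd_comp (B := S × unitInterval) (E := Y) (D := D) i.c.ct
    (r := fun p => f (p.1.1, D' p)) ⟨C, fun p => hC (p.1.1, D' p)⟩
  exact ⟨C', fun p => hC' p⟩

theorem cj_sd (h : Rt ρ f w) (i : Iso D D') {b : S × unitInterval} {y : Y}
    (a : ρ (b.1, D' (b, y)) ≤ 0) : Ad.Sd (cj D D' f) 1 (b, y) := by
  have c : Continuous fun p : (S × unitInterval) × Y => f (p.1.1, p.2) :=
    h.ct.comp (continuous_fst.fst.prodMk continuous_snd)
  have s : Ad.Sd (fun p : (S × unitInterval) × Y => f (p.1.1, p.2)) 1 (b, D' (b, y)) :=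
    sd_pull (P := f) (φ := Prod.fst) continuous_fst (x := (b, D' (b, y))) (h.sd (b.1, D' (b, y)) a)
  exact sd_conj (x := (b, y)) i.c i.c' c (fun p => i.l' p.1 p.2) (h.id (b.1, D' (b, y)) a) s

theorem cj_id (h : Rt ρ f w) (i : Iso D D') {b : S × unitInterval} {y : Y}
    (a : ρ (b.1, D' (b, y)) ≤ 0) : cj D D' f (b, y) = y := by
  rw [cj, h.id _ a]; exact i.l' b y

theorem cj_per (h : Rt ρ f w) (i : Iso D D') {b : S × unitInterval} {y : Y} {N : ℕ} (n : 0 < N)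
    (e : (fun y => cj D D' f (b, y))^[N] y = y) : ρ (b.1, D' (b, y)) ≤ 0 := by
  refine per h n ?_
  have s : Function.Semiconj (fun y => D' (b, y)) (fun y => cj D D' f (b, y))
    fun y => f (b.1, y) := fun y => i.l b _
  rw [← (s.iterate_right N).eq y, e]

theorem cj_ev (h : Rt ρ f w) (i : Iso D D') (t : unitInterval) :
    Ev fun z => cj D D' f ((z.1, t), z.2) := fun σ σ' c η r => by
  have a : D' ((σ', t), act c η) = act c (D' ((σ, t), η)) := by
    have := i.ev t σ σ' c (D' ((σ, t), η)) r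
    rw [i.l'] at this
    rw [← this, i.l]
  show D ((σ', t), f (σ', D' ((σ', t), act c η))) = act c (D ((σ, t), f (σ, D' ((σ, t), η))))
  rw [a, h.eq σ σ' c _ r, i.ev t σ σ' c _ r]

theorem cj_ch (h : Rt ρ f w) (i : Iso D D') : Ch f fun z => cj D D' f ((z.1, 1), z.2) := by
  refine ⟨cj D D' f, ⟨cj_ct h i, cj_bd h i, fun b y N n e => cj_id h i (cj_per h i n e),
    fun b y e => ⟨1, fun _ _ => rfl, cj_sd h i (cj_per h i one_pos e)⟩⟩, cj_ev h i, fun z => ?_,
    fun _ => rfl⟩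
  have := i.l (z.1, 0) z.2
  rw [i.d0] at this
  show _ = D ((z.1, 0), f (z.1, D' ((z.1, 0), z.2)))
  rw [i.d0, this]

theorem cj_rt (h : Rt ρ f w) (i : Iso D D')
    (d1 : ∀ σ y c, 0 ≤ c → c ≤ w → (ρ (σ, y) ≤ c ↔ ρ' (σ, D ((σ, 1), y)) ≤ c)) :
    Rt ρ' (fun z => cj D D' f ((z.1, 1), z.2)) w := by
  have e1 : ∀ (z : S × Y) c, 0 ≤ c → c ≤ w → (ρ (z.1, D' ((z.1, 1), z.2)) ≤ c ↔ ρ' z ≤ c) :=
    fun z c a b => by rw [d1 _ _ c a b, i.l']
  have φ : Continuous fun σ : S => (σ, (1 : unitInterval)) := continuous_id.prodMk continuous_const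
  obtain ⟨C, hC⟩ := cj_bd h i
  refine ⟨h.w0, (cj_ct h i).comp ((φ.comp continuous_fst).prodMk continuous_snd), cj_ev h i 1,
    ⟨C, fun z => hC _⟩, fun z a => cj_id h i ((e1 z 0 le_rfl h.w0.le).2 a), fun z a b => ?_,
    fun z => (d1 z.1 _ w h.w0.le le_rfl).1 (h.inn (z.1, D' ((z.1, 1), z.2))),
    fun z a => sd_pull (P := cj D D' f) φ (cj_sd h i ((e1 z 0 le_rfl h.w0.le).2 a))⟩
  have a1 := (e1 z _ a.le b).2 le_rfl
  have a2 := h.lt _ (lt_of_not_ge fun c => a.not_ge ((e1 z 0 le_rfl h.w0.le).1 c)) (a1.trans b)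
  have a3 := max_lt (a2.trans_le a1) a
  exact ((d1 _ _ _ (le_max_right _ _) (a3.le.trans b)).1 (le_max_left _ _)).trans_lt a3
end Cnj

open Cnj in
theorem cnj : CNJ := fun Φ h => by
  obtain ⟨g, a, sm, o, t0, t1, rg, iv, g0, g1⟩ := path sm (crit sm) (bo_ sm) h.M h.hM h.ε⁻¹
    ((one_le_inv₀ h.ε0).2 (by linarith [h.ε1]))
  obtain ⟨β, hβ⟩ := isCompact_univ.exists_bound_of_continuousOn (lb_ct h.s).continuousOn
  obtain ⟨w, w0, D, D', s, s', l, l', d0, -, d1, ev⟩ :=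
    isop g a β sm (fun t b z c => by rw [o t b z c, o 0 b z c]) t0 t1 rg
  have φ : Continuous fun b : S × unitInterval => ((b.2 : ℝ), (lb h.s b.1).1) :=
    (continuous_subtype_val.comp continuous_snd).prodMk ((lb_ct _).comp continuous_fst)
  have as : ContDiff ℝ ∞ fun p : (ℝ × ℂ) × Y => (p.1.1, p.1.2, p.2) := by fun_prop
  have i : Iso (fun p => D (p.1.2, (lb h.s p.1.1).1, p.2))
      fun p => D' (p.1.2, (lb h.s p.1.1).1, p.2) :=
    ⟨(C1.of_smooth (s.comp as)).pull φ, (C1.of_smooth (s'.comp as)).pull φ, fun _ _ => l _ _ _,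
      fun _ _ => l' _ _ _, fun t σ σ' c η r => by
        obtain ⟨n, e⟩ := rl_lb h.s r
        dsimp only
        rw [e]; exact ev iv c t _ η n,
      fun σ y => d0 _ _ _ (.inl le_rfl)⟩
  refine ⟨min w (1 / 4), by positivity, fun v f hv hf => ⟨_, cj_ch hf i, cj_rt hf i
    fun σ y c c0 c1 => ?_⟩⟩
  obtain ⟨k1, k2, k3⟩ := d1 1 _ y (hβ σ (mem_univ _))
  exact key (g0 _ y) k1 k2 k3 (g1 _ _) c0 (c1.trans hv)

end Crest.Agent.N218.Pc
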