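import Crest.Agent.N218.D6.Lk
import Crest.Agent.N218.D6.Pres_Mg
import Crest.Agent.N218.Pc.Defs
import Crest.Agent.N218.P.Desc
import Crest.Agent.N218.En.Wrb0

-- ▼ part N218/D6/Link2
section

/-!
# Row 218, block D6 (helper87): the glue of LINK2
-/

set_option autoImplicit false
set_option linter.unusedVariables false

open Topology Filter Set OnePoint Polynomial

noncomputable section

namespace Crest.Agent.N218.D6.Lk

open K K.Cp Pm In
open Sk (S2 X22)

/-- the span of `1, a, b, a b` -/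
def sp4 {A B : Type} [CommRing A] [CommRing B] (j : A →+* B) {a b : B} (ha : a ^ 2 = 0)
    (hb : b ^ 2 = 0) : Subring B where
  carrier := {y | ∃ c0 c1 c2 c3, y = j c0 + j c1 * a + j c2 * b + j c3 * (a * b)}
  mul_mem' := by
    rintro _ _ ⟨c0, c1, c2, c3, rfl⟩ ⟨d0, d1, d2, d3, rfl⟩
    refine ⟨c0 * d0, c0 * d1 + c1 * d0, c0 * d2 + c2 * d0,
      c0 * d3 + c1 * d2 + c2 * d1 + c3 * d0, ?_⟩
    simp only [map_mul, map_add]
    linear_combination (j c1 * j d1 + (j c1 * j d3 + j c3 * j d1) * b + j c3 * j d3 * b ^ 2) * ha +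
      (j c2 * j d2 + (j c2 * j d3 + j c3 * j d2) * a) * hb
  one_mem' := ⟨1, 0, 0, 0, by simp⟩
  add_mem' := by
    rintro _ _ ⟨c0, c1, c2, c3, rfl⟩ ⟨d0, d1, d2, d3, rfl⟩
    exact ⟨c0 + d0, c1 + d1, c2 + d2, c3 + d3, by simp only [map_add]; ring⟩
  zero_mem' := ⟨0, 0, 0, 0, by simp⟩
  neg_mem' := by
    rintro _ ⟨c0, c1, c2, c3, rfl⟩
    exact ⟨-c0, -c1, -c2, -c3, by simp only [map_neg]; ring⟩

theorem pz_mem {R A : Type} [CommRing R] [CommRing A] {i : R →+* A} {l : A} {M q : ℕ}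
    (h : Al.Pz i l M q) (S : Subring A) (h1 : ∀ r, i r ∈ S) (h2 : l ∈ S) (y : A) : y ∈ S := by
  obtain ⟨p, rfl⟩ := h.1 y
  rw [eval₂_eq_sum_range]
  exact sum_mem fun n _ => mul_mem (h1 _) (pow_mem h2 n)

theorem lam_ex {X X' : Type} [TopologicalSpace X] [TopologicalSpace X'] {A B : Ex X} {N : Ex X'}
    {j : C(X', X)} (q : Hm N B j) (C : H1 A B) {lN : KX N.E} {lA : KX A.E} (tA : A.Th lA)
    (tN : N.Rd lN) (h1 : ∀ x, N.Rd x → ∃ z, B.Rd z ∧ pull q.f z = x)
    (h2 : ∀ z, B.Rd z → pull q.f z = 0 → z = 0) : ∃ Λ : KX X' →+ KX X,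
      (∀ y z, B.Rd z → pull q.f z = N.sm y lN → pull C.f z = A.sm (Λ y) lA) ∧
      ∀ a y, Λ (pull j a * y) = a * Λ y := by
  choose Z z1 z2 using fun y => h1 _ (tN.sm y)
  choose f hf using fun y => tA.ex ((z1 y).hm C)
  have key : ∀ y z, B.Rd z → pull q.f z = N.sm y lN → pull C.f z = A.sm (f y) lA :=
    fun y z r e => by
      rw [← hf, sub_eq_zero.1 (h2 _ (r.sub (z1 y)) (by rw [map_sub, e, z2, sub_self]))]
  refine ⟨AddMonoidHom.mk' f fun y y' => tA.inj ?_, key, fun a y => tA.inj ?_⟩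
  · rw [← key _ _ ((z1 y).add (z1 y')) (by rw [map_add, z2, z2, N.add_sm]), map_add, hf, hf,
      A.add_sm]
  · refine (key _ _ ((z1 y).sm a) (by rw [q.pull_sm, z2, N.sm_sm])).symm.trans ?_
    rw [C.pull_sm, pull_id, hf, A.sm_sm]; rfl

variable (k m : ℕ)

/-- the two Hopf classes -/
abbrev ha : KX (YG k m).Q := Lc (YG k m) (ca.comp (ph k)) - 1
abbrev hb : KX (YG k m).Q := Lc (YG k m) (cb.comp (ph k)) - 1

theorem eG (χ : GT →* Circle) : EqC (Y := Y0) (Y' := YG k m) .fst (χ.comp (ph k)) χ :=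
  fun g _ => ⟨ph k g, rfl, rfl⟩

theorem piL_L (χ : GT →* Circle) (s : Nonempty (Sec Y0 χ)) :
    pull (piL Y0 c1 c1_ct (ph k) (ph_ct k) m) (Lc Y0 χ) = Lc (YG k m) (χ.comp (ph k)) :=
  pull_Lc s (eG k m χ) _ fun _ => rfl

theorem piB_a : pull (piB Ya cb cb_ct 2) (Lc Ya ca) = Lc Y0 ca :=
  pull_Lc ⟨spS0 ca ca_ct 2⟩ Fn.ea _ fun _ => rfl

theorem ha_sq : ha k m ^ 2 = 0 := by
  have := congrArg (fun x => pull (piL Y0 c1 c1_ct (ph k) (ph_ct k) m)
    (pull (piB Ya cb cb_ct 2) x)) pres.2.1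
  simp only [map_pow, map_sub, map_one, map_zero, piB_a, piL_L k m ca Fn.sa0] at this
  rw [← neg_sq, neg_sub]; exact this

theorem hb_sq : hb k m ^ 2 = 0 := by
  have := congrArg (pull (piL Y0 c1 c1_ct (ph k) (ph_ct k) m)) pres.2.2.2.1
  simp only [map_pow, map_sub, map_one, map_zero, piL_L k m cb Fn.sb0] at this
  rw [← neg_sq, neg_sub]; exact this

theorem span (y : KX (YG k m).Q) : ∃ c0 c1 c2 c3, y = pull (pj k m) c0 +
    pull (pj k m) c1 * ha k m + pull (pj k m) c2 * hb k m + pull (pj k m) c3 * (ha k m * hb k m) := by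
  let S := sp4 (pull (pj k m)) (ha_sq k m) (hb_sq k m)
  refine pz_mem (pres.2.2.2.2.2 k m) S (fun r => ?_) ⟨LL (ck k) (cc _) m, 0, 0, 0, ?_⟩ y
  · refine pz_mem pres.2.2.1 (S.comap _) (fun r => ?_) ⟨1, 0, 1, 0, ?_⟩ r
    · refine pz_mem pres.1 ((S.comap _).comap _) (fun r => intCast_mem _ r) ⟨1, 1, 0, 0, ?_⟩ r
      rw [piB_a, piL_L k m ca Fn.sa0]; simp
    · rw [piL_L k m cb Fn.sb0]; simp
  · rw [K.LL_eq, pull_Lc (Y := L k m) (χ := ck k) (Y' := YG k m) (χ' := c1.comp (ph k)) ⟨spS0 _ _ _⟩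
      (f := ⟨fun y : (US 2 × US 2) × US m => y.2, continuous_snd⟩)
      (fun g y => ⟨g.1, rfl, rfl⟩) (pj k m) fun _ => rfl]
    simp

/-- the projection to the lens factor -/
def p2 : C((YG k m).Z, (L k m).Z) := ⟨fun y : (US 2 × US 2) × US m => y.2, continuous_snd⟩
theorem p2_eq : Eqv (pg k) (p2 k m) := fun _ _ => rfl

variable (E : Type) [NormedAddCommGroup E] [NormedSpace ℝ E] [FiniteDimensional ℝ E]

/-- forgetting the second sphere -/
def sA : EqM (YG k m) (NG k E) (YG k m) (NG k E) (fun g => (g.1, g.2.1, 1))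
    ⟨fun y : (US 2 × US 2) × US m => ((y.1.1, e0 1), y.2), by fun_prop⟩ where
  f := .snd
  hg _ _ := Prod.ext (Prod.ext rfl (Subtype.ext (funext fun _ => (one_mul _).symm))) rfl
  hf γ y w := by induction w using OnePoint.rec <;> rfl
  hi _ := rfl
/-- forgetting the first sphere -/
def sB : EqM (YG k m) (NG k E) (YG k m) (NG k E) (fun g => (g.1, 1, g.2.2))
    ⟨fun y : (US 2 × US 2) × US m => ((e0 1, y.1.2), y.2), by fun_prop⟩ where
  f := .snd
  hg _ _ := Prod.ext (Prod.ext (Subtype.ext (funext fun _ => (one_mul _).symm)) rfl) rfl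
  hf γ y w := by induction w using OnePoint.rec <;> rfl
  hi _ := rfl

theorem sA_a : pull (sA k m E).b (ha k m) = ha k m := by
  rw [map_sub, map_one, pull_Lc ((eG k m ca).sec Fn.sa0) (χ' := ca.comp (ph k))
    (fun g y => ⟨_, (sA k m E).hg g y, rfl⟩) _ fun _ => rfl]
theorem sB_b : pull (sB k m E).b (hb k m) = hb k m := by
  rw [map_sub, map_one, pull_Lc ((eG k m cb).sec Fn.sb0) (χ' := cb.comp (ph k))
    (fun g y => ⟨_, (sB k m E).hg g y, rfl⟩) _ fun _ => rfl]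

/-- reordering of the target -/
def iT : (TG k m E).Iso ((TR k m E).ls.res (pg k) (pg_ct k)) where
  e := { toFun := rT k m E
         invFun := fun z : ((((ℝ × ℝ) × ℝ) × V k E) × ℝ) × (Fin m → ℂ) =>
           (((z.1.1.2, z.2), (z.1.1.1, z.1.2)) : (V k E × (Fin m → ℂ)) × R4)
         left_inv := fun _ => rfl
         right_inv := fun _ => rfl
         continuous_toFun := by unfold rT; fun_prop
         continuous_invFun := by fun_prop }
  eq _ _ := rfl

/-- collecting the trivial factors -/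
def iX : ((XX ((ℝ × ℝ) × ℝ) k E).prod (Rep.triv _ ℝ)).ls.Iso
    ((Rr k E).ls.prod (Rep.triv _ R4).ls) where
  e := { toFun := fun z : (((ℝ × ℝ) × ℝ) × V k E) × ℝ => ((z.1.2, (z.1.1, z.2)) : V k E × R4)
         invFun := fun z : V k E × R4 => (((z.2.1, z.1), z.2.2) : (((ℝ × ℝ) × ℝ) × V k E) × ℝ)
         left_inv := fun _ => rfl
         right_inv := fun _ => rfl
         continuous_toFun := by fun_prop
         continuous_invFun := by fun_prop }
  eq _ _ := rfl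

variable {k m E}

theorem van {q : C((Sb (YG k m) (NG k E)).E, (Sb (L k m) (XN k E)).E)} (hq : IsQ q)
    (h2 : ∀ z, (Sb _ _).Rd z → pull q z = 0 → z = 0)
    {C : H1 (Sb (L k m) (AA k E)) (Sb (L k m) (XN k E))} {r : X22 → X22}
    {S : H1 (Sb (L k m) (XN k E)) (Sb (L k m) (XN k E))}
    (rS : Rg S (fun x : US m × X22 × (V k E × ℂ) × R4 => OnePoint.some (r x.2.1, x.2.2)))
    (n : (C.cm S).Ht (Hm.triv _ _)) (σ : C((Sb (YG k m) (NG k E)).E, (Sb (YG k m) (NG k E)).E))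
    (g : US 2 × US 2 → US 2 × US 2) (hg : ∀ y, hx (g y) = r (hx y))
    (hσ : ∀ (y : (US 2 × US 2) × US m) w, σ (pt _ _ y w) = pt _ _ (g y.1, y.2) w)
    {z : KS (L k m) (XN k E)} (rz : (Sb _ _).Rd z) (e : pull σ (pull q z) = pull q z) :
    pull C.f z = 0 := by
  have e1 : pull q (pull S.f z) = pull q z := by
    refine (pull_sq q S.f σ q (fun x => ?_) z).trans e
    obtain ⟨y, w, rfl⟩ := pt_surj x
    rw [hσ, hq, hq, rS.opx, hg]
    induction w using OnePoint.rec <;> rfl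
  rw [← sub_eq_zero.1 (h2 _ ((rz.hm S).sub rz) (by rw [map_sub, e1, sub_self])), ← pull_cm]
  refine (DFunLike.congr_fun n.pull_eq z).trans ((pull_cm _ _ z).trans ?_)
  rw [show pull _ z = 0 from rz, map_zero]

theorem link2 (h1 : EXQ) (h2 : SUR) (h3 : NUL) (h4 : CM1) (h5 : CM2) : LINK2 := by
  intro k m E _ _ _ hk hc lT lS tT tS
  have gd : Gd (L k m) := gd_sp (Fo.inc_inj _) _ m
  obtain ⟨q, hq, q1, q2⟩ := h1 k m E
  obtain ⟨C, hC, G, hG⟩ := h2 k m E
  obtain ⟨l0, u0⟩ : ∃ l, UT (L k m) (NN k E) l :=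
    ((hc.prod (cx_even ℂ 1 (by simp))).prod (cx_even R4 2 (by simp))).ut Th.thom gd
  obtain ⟨lT', uT⟩ : ∃ l, UT (L k m) (TR k m E).ls l :=
    (cx_tt _ _ m ((hc.prod (cx_even R4 2 (by simp))).iso (iX k E))).ut Th.thom gd
  obtain ⟨lS', uS⟩ : ∃ l, UT (L k m) (AA k E) l :=
    ((cx_even ((E3 × E3) × ℂ) 4 (by simp)).prod hc).xr2.ut Th.thom gd
  obtain ⟨β, uβ, -⟩ := ut_even Th.thom (YG k m) R4 2 (by simp)
  let JN : C((Sb (YG k m) (NG k E)).E, (Sb (L k m) (NN k E)).E) :=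
    ((p2_eq k m).eqm (pg_ct k) (NN k E)).hm.f
  have tN : (Sb (YG k m) (NG k E)).Th (pull JN l0) :=
    (u0.pull (pg_ct k) (p2_eq k m) ((p2_eq k m).mp _ _)).th
  let J : C((Sb (YG k m) (TG k m E)).E, (Sb (L k m) (TR k m E).ls).E) :=
    ((p2_eq k m).eqm (pg_ct k) (TR k m E).ls).hm.f.comp ((iT k m E).h1 _).f
  have tJ : (Sb (YG k m) (TG k m E)).Th (pull J lT') := by
    rw [pull_comp]
    exact th_iso (iT k m E) (fun _ _ => rfl)
      (uT.pull (pg_ct k) (p2_eq k m) ((p2_eq k m).mp _ _)).th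
  obtain ⟨υ1, υ1', i1, e1, -⟩ := Ex.Th.unit (A := Sb (YG k m) (TG k m E)) (uβ.th_r tT) tJ
  obtain ⟨υ2, υ2', i2, e2, -⟩ := Ex.Th.unit (A := Sb (YG k m) (NG k E)) tN (uβ.th_r tS)
  let Q : Hm (Sb (YG k m) (NG k E)) (Sb (L k m) (XN k E)) (pj k m) :=
    ⟨q, fun e => by obtain ⟨y, w, rfl⟩ := pt_surj e; rw [hq]; rfl,
      fun x => by obtain ⟨y, rfl⟩ := (YG k m).pr_surj x; exact hq y ∞⟩
  obtain ⟨Λ, key, lin⟩ := lam_ex Q C uS.th tN.1 q1 q2
  have z0 : ∀ {φ g} (M : EqM (YG k m) (NG k E) (YG k m) (NG k E) φ g) (r : X22 → X22)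
      (g' : US 2 × US 2 → US 2 × US 2), (∀ y, hx (g' y) = r (hx y)) →
      (∀ (y : (US 2 × US 2) × US m) w, M.hm.f (pt _ _ y w) = pt _ _ (g' y.1, y.2) w) →
      ((r = fun x => (x.1, hp (e0 1))) ∨ r = fun x => (hp (e0 1), x.2)) →
      ∀ y, pull M.b y = y → Λ y = 0 := fun M r g' a b c y e => by
    obtain ⟨S, rS, n⟩ := h3 k m E C _ r hC c
    obtain ⟨z, rz, ez⟩ := q1 _ (tN.1.sm y)
    refine uS.th.inj ((key y z rz ez).symm.trans ((van hq q2 rS n M.hm.f g' a b rz ?_).trans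
      (Ex.zero_sm _ _).symm))
    rw [ez, M.hm.pull_sm, e, pull_pull M.hm.f JN JN fun x => ?_]
    obtain ⟨y, w, rfl⟩ := pt_surj x
    rw [b]; rfl
  have za := z0 (sA k m E) _ (fun y => (y.1, e0 1)) (fun _ => rfl) (fun _ _ => rfl) (.inl rfl)
  have zb := z0 (sB k m E) _ (fun y => (e0 1, y.2)) (fun _ => rfl) (fun _ _ => rfl) (.inr rfl)
  refine ⟨Λ, υ1 * υ2, lT', lS', (IsUnit.of_mul_eq_one _ i1).mul (.of_mul_eq_one _ i2), lin, ?_,
    uT.th, uS.th, fun P kV e o ct eq nz he => ?_⟩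
  · obtain ⟨y, hy⟩ := tN.ex ((uS.1.hm G).hm Q)
    have e3 : Λ y = 1 := uS.th.inj ((key y _ (uS.1.hm G) hy).symm.trans
      ((hG _).trans (Ex.one_sm _ _).symm))
    obtain ⟨c0, c1, c2, c3, rfl⟩ := span k m y
    rw [map_add, map_add, map_add, ← mul_one (pull (pj k m) c0), lin, lin, lin, lin,
      za 1 (map_one _), za _ (sA_a k m E), zb _ (sB_b k m E)] at e3
    exact .of_mul_eq_one c3 (by linear_combination e3)
  · obtain ⟨ok, dg⟩ := h4 k m E C P kV hC ⟨o, ct, eq, nz⟩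
    have e4 := h5 k m E q J P kV hq (fun _ _ => rfl) ⟨o, ct, eq, nz⟩ ok lT' lT β υ1 tT.1 uβ.1 e1
    rw [← key (υ1 * υ2 * e) ((Qp P kV).pb lT') (uT.1.hm (Qp P kV).hm) ?_]
    · exact dg lT'
    · refine e4.trans ?_
      rw [he, xm, SmD.sm_mul, Ex.sm_sm]
      refine (congrArg _ e2).trans ((Ex.sm_sm _ _ _ _).trans ?_)
      rw [mul_right_comm]

end Crest.Agent.N218.D6.Lk

end
end

-- ▼ part N218/D6/LkExq
section

/-!
# Row 218, block D6, LINK2, leaf EXQ (helper79): excision along the quotient map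
-/

set_option autoImplicit false
set_option linter.unusedVariables false

open Topology Filter Set OnePoint ComplexConjugate

noncomputable section

namespace Crest.Agent.N218.D6.Lk

open K K.Cp Pm In
open Sk (S2 X22)

namespace Xq

/-- relative homeomorphisms of ex-spaces are bijective on reduced classes -/
theorem rel_bij {X X' : Type} [TopologicalSpace X] [TopologicalSpace X'] [CompactSpace X]
    [CompactSpace X'] (A : Ex X') (B : Ex X) (q : C(A.E, B.E))
    (h1 : ∀ x, x ∈ range q ∨ x ∈ range B.s) (h2 : ∀ z, q z ∈ range B.s ↔ z ∈ range A.s)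
    (h3 : ∀ z z', q z = q z' → z = z' ∨ z ∈ range A.s) :
    (∀ x, A.Rd x → ∃ z, B.Rd z ∧ pull q z = x) ∧ ∀ z, B.Rd z → pull q z = 0 → z = 0 := by
  have E := exc_of B.s A.s q h1 h2 h3
  refine ⟨fun x hx => ?_, fun z hz e => ?_⟩
  · obtain ⟨x1, rfl, x2⟩ := Db.lift (cr_surj (Function.LeftInverse.injective A.ps)) hx
    obtain ⟨y, rfl, y2⟩ := E.ksrj x2
    exact ⟨_, Db.rho_f y2, (Db.f_mp _ E.mp y).symm⟩
  · obtain ⟨x1, rfl, x2⟩ := Db.lift (cr_surj (Function.LeftInverse.injective B.ps)) hz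
    rw [E.kinj (Db.inj (Crest.Agent.R204.Ex837.stLift_of_section _ (cr A.p) fun a =>
      ContinuousMap.ext fun b => congrArg a (A.ps b)) ((Db.f_mp _ E.mp x1).trans e)
      (by rw [Db.s_mp, x2, map_zero])) x2, map_zero]

theorem hp0 (u : US 2) : (hp u).1 0 = 2 * (conj (u.1 0) * u.1 1).re := rfl
theorem hp1 (u : US 2) : (hp u).1 1 = 2 * (conj (u.1 0) * u.1 1).im := rfl
theorem hp2 (u : US 2) : (hp u).1 2 = ‖u.1 0‖ ^ 2 - ‖u.1 1‖ ^ 2 := rfl

theorem cms (z : ℂ) : conj z * z = ((‖z‖ ^ 2 : ℝ) : ℂ) := by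
  rw [mul_comm, Complex.mul_conj, Complex.normSq_eq_norm_sq]

theorem s2_ext {x y : S2} (h0 : x.1 0 = y.1 0) (h1 : x.1 1 = y.1 1) (h2 : x.1 2 = y.1 2) :
    x = y := Subtype.ext (by
  ext i; fin_cases i
  exacts [h0, h1, h2])

/-- the Hopf map is onto -/
theorem hp_sur (x : S2) : ∃ u, hp u = x := by
  have n : x.1 0 ^ 2 + x.1 1 ^ 2 + x.1 2 ^ 2 = 1 := by
    have := EuclideanSpace.norm_sq_eq x.1
    rw [norm_eq_of_mem_sphere x, Fin.sum_univ_three] at this
    simpa [sq_abs] using this.symm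
  by_cases h : 1 + x.1 2 = 0
  · have h2 : x.1 2 = -1 := by linarith
    rw [h2] at n
    have a : x.1 0 = 0 := by nlinarith [sq_nonneg (x.1 0), sq_nonneg (x.1 1)]
    have b : x.1 1 = 0 := by nlinarith [sq_nonneg (x.1 0), sq_nonneg (x.1 1)]
    refine ⟨⟨![0, 1], by simp [Un1, Fin.sum_univ_two]⟩, s2_ext ?_ ?_ ?_⟩
    · rw [hp0, a]; simp
    · rw [hp1, b]; simp
    · rw [hp2, h2]; simp
  · have p : 0 < 1 + x.1 2 := lt_of_le_of_ne
      (by nlinarith [sq_nonneg (x.1 0), sq_nonneg (x.1 1), sq_nonneg (x.1 2 + 1)]) (Ne.symm h)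
    obtain ⟨r, r0, hr⟩ : ∃ r : ℝ, 0 < r ∧ r ^ 2 = (1 + x.1 2) / 2 :=
      ⟨√((1 + x.1 2) / 2), Real.sqrt_pos.2 (by linarith), Real.sq_sqrt (by linarith)⟩
    have e : ‖(⟨x.1 0 / (2 * r), x.1 1 / (2 * r)⟩ : ℂ)‖ ^ 2 = (1 - x.1 2) / 2 := by
      rw [Complex.sq_norm, Complex.normSq_mk]
      field_simp
      nlinarith
    have e0 : ‖(r : ℂ)‖ ^ 2 = (1 + x.1 2) / 2 := by rw [Complex.norm_real, Real.norm_eq_abs, sq_abs, hr]
    refine ⟨⟨![r, ⟨x.1 0 / (2 * r), x.1 1 / (2 * r)⟩], ?_⟩, s2_ext ?_ ?_ ?_⟩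
    · rw [Un1, Fin.sum_univ_two, cms, cms]
      simp only [Matrix.cons_val_zero, Matrix.cons_val_one, e, e0]
      push_cast; ring
    · rw [hp0]; simp; field_simp
    · rw [hp1]; simp; field_simp
    · rw [hp2]
      simp only [Matrix.cons_val_zero, Matrix.cons_val_one, e, e0]; ring

/-- the fibres of the Hopf map -/
theorem hp_fib {u v : US 2} (h : hp u = hp v) : ∃ t : Circle, ∀ i, (t : ℂ) * u.1 i = v.1 i := by
  have a : conj (u.1 0) * u.1 1 = conj (v.1 0) * v.1 1 := Complex.ext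
    (by have := congrArg (fun x : S2 => x.1 0) h; simp only [hp0] at this; linarith)
    (by have := congrArg (fun x : S2 => x.1 1) h; simp only [hp1] at this; linarith)
  have a' : u.1 0 * conj (u.1 1) = v.1 0 * conj (v.1 1) := by
    simpa using congrArg conj a
  have b := congrArg (fun x : S2 => x.1 2) h
  simp only [hp2] at b
  have su := us_sq u
  have sv := us_sq v
  have b0 : conj (u.1 0) * u.1 0 = conj (v.1 0) * v.1 0 := by
    rw [cms, cms]; congr 1; linarith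
  have b1 : conj (u.1 1) * u.1 1 = conj (v.1 1) * v.1 1 := by
    rw [cms, cms]; congr 1; linarith
  have nv : conj (v.1 0) * v.1 0 + conj (v.1 1) * v.1 1 = 1 := by
    have := v.2; rwa [Un1, Fin.sum_univ_two] at this
  have e0 : (conj (u.1 0) * v.1 0 + conj (u.1 1) * v.1 1) * u.1 0 = v.1 0 := by
    linear_combination v.1 0 * b0 + v.1 1 * a' + v.1 0 * nv
  have e1 : (conj (u.1 0) * v.1 0 + conj (u.1 1) * v.1 1) * u.1 1 = v.1 1 := by
    linear_combination v.1 0 * a + v.1 1 * b1 + v.1 1 * nv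
  generalize conj (u.1 0) * v.1 0 + conj (u.1 1) * v.1 1 = t at e0 e1
  have n : ‖t‖ = 1 := by
    rw [← e0, ← e1, norm_mul, norm_mul] at sv
    have : ‖t‖ ^ 2 = 1 := by linear_combination sv - ‖t‖ ^ 2 * su
    nlinarith [norm_nonneg t]
  exact ⟨⟨t, mem_sphere_zero_iff_norm.2 n⟩, Fin.forall_fin_two.2 ⟨e0, e1⟩⟩

theorem hp_act (t : Circle) {u v : US 2} (h : ∀ i, (t : ℂ) * u.1 i = v.1 i) : hp v = hp u := by
  have e : conj (v.1 0) * v.1 1 = conj (u.1 0) * u.1 1 := by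
    rw [← h, ← h, map_mul]; linear_combination (conj (u.1 0) * u.1 1) * circ_conj t
  refine s2_ext (by rw [hp0, hp0, e]) (by rw [hp1, hp1, e]) ?_
  rw [hp2, hp2, ← h, ← h, norm_mul, norm_mul, Circle.norm_coe, one_mul, one_mul]

theorem hp_ct : Continuous hp := Continuous.subtype_mk (by
  have a : Continuous fun u : US 2 => u.1 0 := (continuous_apply 0).comp continuous_subtype_val
  have b : Continuous fun u : US 2 => u.1 1 := (continuous_apply 1).comp continuous_subtype_val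
  have c : Continuous fun u : US 2 => conj (u.1 0) * u.1 1 := (Complex.continuous_conj.comp a).mul b
  change Continuous fun u : US 2 => (WithLp.toLp 2 ![2 * (conj (u.1 0) * u.1 1).re,
    2 * (conj (u.1 0) * u.1 1).im, ‖u.1 0‖ ^ 2 - ‖u.1 1‖ ^ 2] : EuclideanSpace ℝ (Fin 3))
  refine (PiLp.continuous_toLp 2 _).comp (continuous_pi fun i => ?_)
  fin_cases i
  · exact continuous_const.mul (Complex.continuous_re.comp c)
  · exact continuous_const.mul (Complex.continuous_im.comp c)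
  · exact (a.norm.pow 2).sub (b.norm.pow 2)) _

theorem hx_ct : Continuous hx := (hp_ct.comp continuous_fst).prodMk (hp_ct.comp continuous_snd)

theorem mem_s {Γ : Type} [Group Γ] [TopologicalSpace Γ] [CompactSpace Γ] {Y : GS Γ} {M : LS Γ}
    {y : Y.Z} {w : OnePoint M.Z} : pt Y M y w ∈ range (Sb Y M).s ↔ w = ∞ := by
  refine ⟨fun ⟨b, e⟩ => ?_, fun h => ⟨Y.pr y, h ▸ rfl⟩⟩
  obtain ⟨y', rfl⟩ := Y.pr_surj b
  obtain ⟨g, -, e⟩ := pt_iff.1 ((s_pr y').symm.trans e)
  exact e.symm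

end Xq

open Xq in
theorem exq : EXQ := by
  intro k m E _ _ _
  obtain ⟨F, hF⟩ := sb_map (Y' := YG k m) (M' := NG k E) (Y := L k m) (M := XN k E)
    ⟨fun y : (US 2 × US 2) × US m => y.2, continuous_snd⟩
    (g := fun x : ((US 2 × US 2) × US m) × (V k E × ℂ) × R4 =>
      OnePoint.some (X := X22 × (V k E × ℂ) × R4) (hx x.1.1, x.2))
    (continuous_coe.comp ((hx_ct.comp continuous_fst.fst).prodMk continuous_snd))
    (fun K' c => ⟨Prod.snd '' K', c.image continuous_snd, fun p w w' n e i =>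
      n ⟨w', i, (congrArg Prod.snd (coe_injective e)).symm⟩⟩)
    fun g y => ⟨g.1, rfl, fun w => congrArg OnePoint.some (Prod.ext
      (Prod.ext (hp_act g.2.1 fun _ => rfl).symm (hp_act g.2.2 fun _ => rfl).symm) rfl)⟩
  have hq : IsQ F.f := fun y w => by
    induction w using OnePoint.rec with
    | infty => exact F.hs ((YG k m).pr y)
    | coe w => exact hF y w
  refine ⟨F.f, hq, rel_bij _ _ F.f (sb_ind (fun y => .inr (mem_s.2 rfl)) fun u z => .inl ?_)
    (fun z => ?_) fun z z' e => ?_⟩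
  · obtain ⟨a, ha⟩ := hp_sur z.1.1
    obtain ⟨b, hb⟩ := hp_sur z.1.2
    exact ⟨_, (hF ((a, b), u) z.2).trans (congrArg (fun x => pt (L k m) (XN k E) u
      (OnePoint.some x)) (Prod.ext (Prod.ext ha hb) rfl))⟩
  · obtain ⟨y, w, rfl⟩ := pt_surj z
    rw [hq y w]
    refine mem_s.trans (Iff.trans ?_ mem_s.symm)
    induction w using OnePoint.rec with
    | infty => exact iff_of_true rfl rfl
    | coe w => exact iff_of_false (coe_ne_infty _) (coe_ne_infty _)
  · obtain ⟨y, w, rfl⟩ := pt_surj z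
    obtain ⟨y', w', rfl⟩ := pt_surj z'
    rw [hq y w, hq y' w'] at e
    obtain ⟨g, e1, e2⟩ := pt_iff.1 e
    induction w using OnePoint.rec with
    | infty => exact .inr (mem_s.2 rfl)
    | coe w =>
      induction w' using OnePoint.rec with
      | infty => exact absurd e2 (coe_ne_infty _)
      | coe w' =>
        have e3 := coe_injective e2
        obtain ⟨s, hs⟩ := hp_fib (congrArg (fun x => x.1.1) e3)
        obtain ⟨t, ht⟩ := hp_fib (congrArg (fun x => x.1.2) e3)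
        exact .inl (pt_iff.2 ⟨(g, s, t), Prod.ext (Prod.ext (Subtype.ext (funext hs))
          (Subtype.ext (funext ht))) e1, congrArg OnePoint.some (congrArg Prod.snd e3)⟩)

end Crest.Agent.N218.D6.Lk

end
end

-- ▼ part N218/D6/LkSur
section

/-!
# Row 218, block D6, leaf SUR (helper86): the collapse is onto
-/

set_option autoImplicit false
set_option linter.unusedVariables false
set_option linter.unusedSectionVars false

open Topology Filter Set OnePoint Metric unitInterval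

noncomputable section

namespace Crest.Agent.N218.D6.Lk

open K K.Cp Pm In D3
open Sk (S2 X22)

namespace Su

section gen
variable {Γ : Type} [Group Γ] [TopologicalSpace Γ] [CompactSpace Γ] (Y : GS Γ) {W : Rep Γ}
  {M : LS Γ} {e : M.Z → W.W} {U : Set W.W} {e' : W.W → M.Z}

/-- the collapse along an equivariant open embedding -/
theorem pm_oc (h : Oe e U e') (he : ∀ g n, e (M.act g n) = W.ρ g (e n)) :
    Pm Y W.ls M fun x => oc U e' x.2 := by
  refine ⟨h.oc_ct.comp continuous_snd, fun K k => ⟨e '' K, k.image h.ct, fun p w w' n a m =>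
    n ⟨w', m, by obtain ⟨o, rfl⟩ := oc_eq.1 a; exact h.ri w o⟩⟩, fun γ y (w : W.W) => ?_⟩
  change oc U e' (W.ρ γ w) = M.sph.act γ (oc U e' w)
  by_cases o : w ∈ U
  · have a : W.ρ γ w = e (M.act γ (e' w)) := by rw [he, h.ri w o]
    rw [oc_in o, a, oc_in (h.mem _), h.li]; rfl
  · rw [oc_out o, oc_out fun p => o ?_]
    · rfl
    · rw [← W.inv_apply γ w, ← h.ri _ p, ← he]; exact h.mem _

theorem shr_act {a0 : W.W} (h0 : ∀ g, W.ρ g a0 = a0) (hn : ∀ g a, ‖W.ρ g a‖ = ‖a‖) (r t : ℝ) (γ : Γ)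
    (a : W.W) : shr (A := W.W) a0 r t (W.ρ γ a) = W.ls.sph.act γ (shr (A := W.W) a0 r t a) := by
  have e : W.ρ γ a - (1 - t) • a0 = W.ρ γ (a - (1 - t) • a0) := by
    rw [map_sub, _root_.map_smul, h0]
  unfold shr
  rw [e, hn, ← sc_act]; rfl

/-- **the collapse has a left inverse up to homotopy** -/
theorem gen (h : Oe e U e') (he : ∀ g n, e (M.act g n) = W.ρ g (e n)) (n0 : M.Z)
    (h0 : ∀ g, M.act g n0 = n0) (hn : ∀ g a, ‖W.ρ g a‖ = ‖a‖) {C : H1 (Sb Y W.ls) (Sb Y M)}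
    (r : Rg C fun x => oc U e' x.2) :
    ∃ G : H1 (Sb Y M) (Sb Y W.ls), ∀ x, pull C.f (pull G.f x) = x := by
  have f0 : ∀ g, W.ρ g (e n0) = e n0 := fun g => by rw [← he, h0]
  obtain ⟨ρ, hρ, hb⟩ := nhds_basis_closedBall.mem_iff.1 (h.op.mem_nhds (h.mem n0))
  have m : Pm Y M W.ls fun x => shr (A := W.W) (e n0) ρ 0 (e x.2) := by
    refine ⟨(shr_ct (e n0) hρ).comp ((continuous_const (y := (0 : I))).prodMk
      (h.ct.comp continuous_snd)), fun K k => ⟨e' '' closedBall (e n0) ρ,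
        (isCompact_closedBall _ _).image_of_continuousOn (h.ct'.mono hb),
        fun p w w' n a _ => n ⟨e w, ?_, h.li w⟩⟩, fun γ y w => ?_⟩
    · have := (sc_eq (E := W.W) a).1
      rw [mem_closedBall, dist_eq_norm]
      by_contra o
      refine this (max_eq_left ?_)
      simp only [sub_zero, one_smul, one_mul, add_zero]
      linarith [not_le.1 o]
    · exact (congrArg (shr (e n0) ρ 0) (he γ w)).trans (shr_act f0 hn ρ 0 γ _)
  obtain ⟨G, rG⟩ := m.exists_rg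
  have H : Pm (IY Y) W.ls W.ls fun x => shr (A := W.W) (e n0) ρ x.1.1 x.2 :=
    ⟨(shr_ct (e n0) hρ).comp (continuous_fst.fst.prodMk continuous_snd),
      fun K k => (shr_pr (e n0) hρ K k).imp fun K a => ⟨a.1, fun p => a.2 (p.1, ())⟩,
      fun γ y w => shr_act f0 hn ρ _ γ w⟩
  have ht : (C.cm G).Ht ⟨ContinuousMap.id _, fun _ => rfl, fun _ => rfl⟩ := by
    refine H.ht (fun y (w : W.W) => (Rg.cm r rG y w).trans (congrArg _ ?_))
      fun y w => congrArg (pt Y W.ls y) ?_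
    · change opx (fun x : Y.Z × M.Z => shr (A := W.W) (e n0) ρ 0 (e x.2)) (y, oc U e' w) =
        shr (A := W.W) (e n0) ρ 0 w
      by_cases o : w ∈ U
      · rw [oc_in o]
        exact congrArg (shr (A := W.W) (e n0) ρ 0) (h.ri w o)
      · rw [oc_out o]
        unfold shr
        rw [max_eq_left, sc_zero]
        · rfl
        · have : ¬ ‖w - e n0‖ ≤ ρ := fun i => o (hb (mem_closedBall_iff_norm.2 i))
          simp only [sub_zero, one_smul, one_mul, add_zero]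
          linarith [not_le.1 this]
    · exact (shr_one (A := W.W) (e n0) ρ w).symm
  exact ⟨G, fun x => (pull_cm C.f G.f x).symm.trans
    ((DFunLike.congr_fun ht.pull_eq x).trans (pull_id x))⟩
end gen

theorem es_ne (t : ℝ) (x : S2) : Real.exp t • (x : E3) ≠ 0 :=
  smul_ne_zero (Real.exp_pos t).ne' (ne_zero_of_mem_unit_sphere x)
theorem es_norm (t : ℝ) (x : S2) : ‖Real.exp t • (x : E3)‖ = Real.exp t := by
  rw [norm_smul, norm_eq_of_mem_sphere x, mul_one, Real.norm_of_nonneg (Real.exp_pos t).le]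
theorem es_rad (t : ℝ) (x : S2) : Emb.rad E3 (Real.exp t • (x : E3)) = x := Subtype.ext (by
  rw [Emb.rad_coe (es_ne t x), es_norm, inv_smul_smul₀ (Real.exp_pos t).ne'])
theorem es_log (t : ℝ) (x : S2) : Real.log ‖Real.exp t • (x : E3)‖ = t := by
  rw [es_norm, Real.log_exp]
theorem es_inv {p : E3} (h : p ≠ 0) : Real.exp (Real.log ‖p‖) • (Emb.rad E3 p : E3) = p := by
  rw [Real.exp_log (norm_pos_iff.2 h), Emb.rad_coe h, smul_inv_smul₀ (norm_ne_zero_iff.2 h)]

variable (k : ℕ) (E : Type) [NormedAddCommGroup E] [NormedSpace ℝ E] [FiniteDimensional ℝ E]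

/-- polar coordinates are an open embedding -/
theorem oe : Oe (cI k E) (cU k E) (cE k E) := by
  have c1 : Continuous fun a : ((((E3 × E3) × ℂ) × V k E) × ℝ) × ℝ => a.1.1.1.1.1 := by fun_prop
  have c2 : Continuous fun a : ((((E3 × E3) × ℂ) × V k E) × ℝ) × ℝ => a.1.1.1.1.2 := by fun_prop
  refine ⟨by unfold cI; fun_prop, (isOpen_ne.preimage c1).inter (isOpen_ne.preimage c2), ?_,
    fun a => ⟨es_ne _ _, es_ne _ _⟩, fun a => ?_, fun a o => ?_⟩
  · exact (((Emb.rad_on E3).comp c1.continuousOn fun _ o => o.1).prodMk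
      ((Emb.rad_on E3).comp c2.continuousOn fun _ o => o.2)).prodMk
      ((Continuous.continuousOn (by fun_prop)).prodMk
        ((((log_on.comp c1.continuousOn fun _ o => o.1).prodMk
          (log_on.comp c2.continuousOn fun _ o => o.2)).prodMk
          (Continuous.continuousOn (by fun_prop))).prodMk (Continuous.continuousOn (by fun_prop))))
  · simp only [cE, cI, es_rad, es_log, neg_neg]
  · simp only [cE, cI, es_inv o.1, es_inv o.2, neg_neg]

/-- the source as a representation -/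
abbrev AR : Rep (Gk k) := ((XX ((E3 × E3) × ℂ) k E).prod (Rep.triv _ ℝ)).prod (Rep.triv _ ℝ)

theorem norm_rr (g : Gk k) (v : V k E) : ‖(Rr k E).ρ g v‖ = ‖v‖ :=
  (Equiv.addRight g.toAdd).surjective.pi_norm_comp v

theorem norm_ar (g : Gk k) (a : ((((E3 × E3) × ℂ) × V k E) × ℝ) × ℝ) :
    ‖(AR k E).ρ g a‖ = ‖a‖ := by
  change max (max (max ‖a.1.1.1‖ ‖(Rr k E).ρ g a.1.1.2‖) ‖a.1.2‖) ‖a.2‖ = _
  rw [norm_rr]; rfl

theorem eq_cI (g : Gk k) (n : (XN k E).Z) :
    cI k E ((XN k E).act g n) = (AR k E).ρ g (cI k E n) := rfl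

/-- the collapse is a pointed fibre map -/
theorem pm (m : ℕ) : Pm (L k m) (AA k E) (XN k E) fun x => oc (cU k E) (cE k E) x.2 :=
  pm_oc (L k m) (W := AR k E) (M := XN k E) (oe k E) (eq_cI k E)

end Su

/-- **leaf SUR** -/
theorem sur : SUR := fun k m E _ _ _ => by
  obtain ⟨C, r⟩ := (Su.pm k E m).exists_rg
  exact ⟨C, r, Su.gen (L k m) (W := Su.AR k E) (M := XN k E) (Su.oe k E) (Su.eq_cI k E)
    ((Emb.rad E3 0, Emb.rad E3 0), ((0 : V k E), (0 : ℂ)), (0 : R4)) (fun g => rfl)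
    (Su.norm_ar k E) r⟩

end Crest.Agent.N218.D6.Lk

end
end

-- ▼ part N218/D6/Nulh
section

/-!
# Row 218, block D6 (helper39): leaf NUL of LINK2
-/

set_option autoImplicit false
set_option linter.unusedVariables false

open Topology Filter Set OnePoint unitInterval

noncomputable section

namespace Crest.Agent.N218.D6.Lk

open K K.Cp Pm In D3
open Sk (S2 X22)

namespace Nl

/-- partial proper equivariant maps -/
theorem pm_oc {Γ : Type} [Group Γ] [TopologicalSpace Γ] [CompactSpace Γ] {Y : GS Γ} {M N : LS Γ}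
    {O : Set (Y.Z × M.Z)} {f : Y.Z × M.Z → N.Z} (hO : IsOpen O) (hf : ContinuousOn f O)
    (inv : ∀ g, ∀ x ∈ O, (Y.act g x.1, M.act g x.2) ∈ O)
    (eq : ∀ g, ∀ x ∈ O, f (Y.act g x.1, M.act g x.2) = N.act g (f x))
    (cp : ∀ K, IsCompact K → ∃ S, IsCompact S ∧ S ⊆ O ∧ ∀ w ∈ O, f w ∈ K → w ∈ S) :
    Pm Y M N (oc O f) := by
  refine ⟨continuous_iff_continuousAt.2 fun a => ?_, fun K k => ?_, fun g y w => ?_⟩
  · by_cases o : a ∈ O
    · refine (continuous_coe.continuousAt.comp (hf.continuousAt (hO.mem_nhds o))).congr ?_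
      filter_upwards [hO.mem_nhds o] with b hb
      exact (oc_in hb).symm
    · rw [ContinuousAt, oc_out o, hasBasis_nhds_infty.tendsto_right_iff]
      rintro K ⟨-, k⟩
      obtain ⟨S, s1, s2, s3⟩ := cp K k
      filter_upwards [s1.isClosed.isOpen_compl.mem_nhds fun m => o (s2 m)] with b hb
      by_cases p : b ∈ O
      · exact .inl ⟨f b, fun m => hb (s3 b p m), (oc_in p).symm⟩
      · exact .inr (oc_out p)
  · obtain ⟨S, s1, s2, s3⟩ := cp K k
    refine ⟨Prod.snd '' S, s1.image continuous_snd, fun p w w' n e i => n ?_⟩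
    obtain ⟨o, a⟩ := oc_eq.1 e
    exact ⟨(p, w), s3 _ o (a ▸ i), rfl⟩
  · by_cases o : (y, w) ∈ O
    · exact ((oc_in (inv g _ o)).trans (congrArg _ (eq g _ o))).trans
        (congrArg (N.sph.act g) (oc_in o).symm)
    · refine (oc_out fun i => o ?_).trans (congrArg (N.sph.act g) (oc_out o).symm)
      have := inv g⁻¹ _ i
      simp only at this
      rwa [← Y.mul, inv_mul_cancel, Y.one, M.inv_act] at this

/-- null-homotopies at the level of the base -/
structure Nh (r : X22 → X22) (U : Set (I × E3 × E3)) (x : I × E3 × E3 → X22)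
    (l : I × E3 × E3 → ℝ × ℝ) : Prop where
  op : IsOpen U
  cx : ContinuousOn x U
  cl : ContinuousOn l U
  pr : ∀ R : ℝ, ∃ S, IsCompact S ∧ S ⊆ U ∧ ∀ z ∈ U, |(l z).1| ≤ R → |(l z).2| ≤ R → z ∈ S
  u0 : ∀ p, (0, p) ∈ U ↔ p.1 ≠ 0 ∧ p.2 ≠ 0
  x0 : ∀ p, x (0, p) = r (Emb.rad E3 p.1, Emb.rad E3 p.2)
  l0 : ∀ p, l (0, p) = (Real.log ‖p.1‖, Real.log ‖p.2‖)
  u1 : ∀ p, (1, p) ∉ U

theorem Nh.swap {r U x l} (h : Nh r U x l) :
    Nh (fun z => (r z.swap).swap) (Prod.map id Prod.swap ⁻¹' U)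
      (fun z => (x (Prod.map id Prod.swap z)).swap) fun z => (l (Prod.map id Prod.swap z)).swap := by
  have c : Continuous (Prod.map id Prod.swap : I × E3 × E3 → I × E3 × E3) := by fun_prop
  refine ⟨h.op.preimage c, continuous_swap.comp_continuousOn (h.cx.comp c.continuousOn fun _ o => o),
    continuous_swap.comp_continuousOn (h.cl.comp c.continuousOn fun _ o => o), fun R => ?_,
    fun p => (h.u0 p.swap).trans and_comm, fun p => congrArg Prod.swap (h.x0 p.swap),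
    fun p => congrArg Prod.swap (h.l0 p.swap), fun p => h.u1 p.swap⟩
  obtain ⟨S, a, b, d⟩ := h.pr R
  refine ⟨Prod.map id Prod.swap '' S, a.image c, ?_, fun z o e e' => ⟨_, d _ o e' e, rfl⟩⟩
  rintro _ ⟨z, m, rfl⟩
  exact b m

theorem log_bd {a R : ℝ} (h : 0 < a) (e : |Real.log a| ≤ R) : Real.exp (-R) ≤ a ∧ a ≤ Real.exp R :=
  ⟨(Real.le_log_iff_exp_le h).1 (abs_le.1 e).1, (Real.log_le_iff_le_exp h).1 (abs_le.1 e).2⟩

theorem nh1 (x0 : S2) : Nh (fun x => (x.1, x0))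
    {z | z.2.1 ≠ 0 ∧ (z.1 : ℝ) < 1 ∧ 0 < ‖z.2.2‖ + z.1} (fun z => (Emb.rad E3 z.2.1, x0))
    fun z => (Real.log ‖z.2.1‖, Real.log ((‖z.2.2‖ + z.1) / (1 - z.1))) := by
  have o1 : IsOpen {z : I × E3 × E3 | (z.1 : ℝ) < 1} := isOpen_lt (by fun_prop) (by fun_prop)
  have o2 : IsOpen {z : I × E3 × E3 | 0 < ‖z.2.2‖ + z.1} := isOpen_lt (by fun_prop) (by fun_prop)
  refine ⟨(isOpen_ne.preimage (by fun_prop)).inter (o1.inter o2),
    ((Emb.rad_on E3).comp (by fun_prop) fun z o => o.1).prodMk continuousOn_const,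
    (log_on.comp (f := fun z : I × E3 × E3 => z.2.1) (by fun_prop) fun z o => o.1).prodMk
      (ContinuousOn.log (ContinuousOn.div (by fun_prop) (by fun_prop) fun z o =>
        (sub_pos.2 o.2.1).ne') fun z o => (div_pos o.2.2 (sub_pos.2 o.2.1)).ne'),
    fun R => ⟨{z | (Real.exp (-R) ≤ ‖z.2.1‖ ∧ ‖z.2.1‖ ≤ Real.exp R) ∧
      Real.exp (-R) * (1 - z.1) ≤ ‖z.2.2‖ + z.1 ∧ ‖z.2.2‖ + z.1 ≤ Real.exp R * (1 - z.1)}, ?_,
      fun z m => ?_, fun z o e e' => ?_⟩,
    fun p => by simp, fun p => rfl, fun p => by simp, fun p o => by simpa using o.2.1⟩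
  · refine (isCompact_univ.prod ((isCompact_closedBall (0 : E3) (Real.exp R)).prod
      (isCompact_closedBall (0 : E3) (Real.exp R)))).of_isClosed_subset
      (((isClosed_le (by fun_prop) (by fun_prop)).and (isClosed_le (by fun_prop) (by fun_prop))).and
        ((isClosed_le (by fun_prop) (by fun_prop)).and (isClosed_le (by fun_prop) (by fun_prop))))
      fun z m => ⟨trivial, mem_closedBall_zero_iff.2 m.1.2, mem_closedBall_zero_iff.2 ?_⟩
    nlinarith [m.2.2, z.1.2.1, Real.exp_pos R]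
  · have t0 := z.1.2.1
    have t1 := z.1.2.2
    have n := norm_nonneg z.2.2
    have e := Real.exp_pos (-R)
    have k : (z.1 : ℝ) < 1 := lt_of_le_of_ne t1 fun a => by
      have := m.2.2
      rw [a] at this
      linarith
    exact ⟨norm_pos_iff.1 (e.trans_le m.1.1), k, (mul_pos e (sub_pos.2 k)).trans_le m.2.1⟩
  · have k := sub_pos.2 o.2.1
    have := log_bd (div_pos o.2.2 k) e'
    exact ⟨log_bd (norm_pos_iff.2 o.1) e, (le_div_iff₀ k).1 this.1, (div_le_iff₀ k).1 this.2⟩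

variable {k m : ℕ} {E : Type} [NormedAddCommGroup E] [NormedSpace ℝ E] [FiniteDimensional ℝ E]

theorem key {r U x l} (h : Nh r U x l) (hr : Continuous r)
    (C : H1 (Sb (L k m) (AA k E)) (Sb (L k m) (XN k E))) (hC : IsC C) :
    ∃ S : H1 (Sb (L k m) (XN k E)) (Sb (L k m) (XN k E)),
      Rg S (fun x : US m × X22 × (V k E × ℂ) × R4 => OnePoint.some (r x.2.1, x.2.2)) ∧
      (C.cm S).Ht (Hm.triv _ _) := by
  have : ProperSpace (V k E) := FiniteDimensional.proper_real _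
  have s : Pm (L k m) (XN k E) (XN k E)
      fun x : US m × X22 × (V k E × ℂ) × R4 => OnePoint.some (r x.2.1, x.2.2) :=
    ⟨continuous_coe.comp ((hr.comp continuous_snd.fst).prodMk continuous_snd.snd),
      fun K c => ⟨univ ×ˢ (Prod.snd '' K), (isCompact_univ (X := X22)).prod (c.image continuous_snd),
        fun p w w' n e i => n ⟨trivial, w', i, (congrArg Prod.snd (coe_injective e)).symm⟩⟩,
      fun _ _ _ => rfl⟩
  obtain ⟨S, rS⟩ := s.exists_rg
  let b : (I × US m) × ((((E3 × E3) × ℂ) × V k E) × ℝ) × ℝ → I × E3 × E3 :=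
    fun z => (z.1.1, z.2.1.1.1.1)
  have cb : Continuous b := by fun_prop
  let f : (I × US m) × ((((E3 × E3) × ℂ) × V k E) × ℝ) × ℝ → X22 × (V k E × ℂ) × R4 :=
    fun z => (x (b z), (z.2.1.1.2, z.2.1.1.1.2), ((l (b z), -z.2.2), z.2.1.2))
  have H : Pm (IY (L k m)) (AA k E) (XN k E) (oc (b ⁻¹' U) f) := by
    refine pm_oc (Y := IY (L k m)) (M := AA k E) (N := XN k E) (h.op.preimage cb)
      (ContinuousOn.prodMk (h.cx.comp cb.continuousOn fun _ o => o)
        (ContinuousOn.prodMk (f := fun z : (I × US m) × ((((E3 × E3) × ℂ) × V k E) × ℝ) × ℝ =>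
          (z.2.1.1.2, z.2.1.1.1.2)) (by fun_prop)
        (((h.cl.comp cb.continuousOn fun _ o => o).prodMk
          (g := fun z : (I × US m) × ((((E3 × E3) × ℂ) × V k E) × ℝ) × ℝ => -z.2.2)
          (by fun_prop)).prodMk
          (g := fun z : (I × US m) × ((((E3 × E3) × ℂ) × V k E) × ℝ) × ℝ => z.2.1.2)
          (by fun_prop)))) (fun _ _ o => o) (fun _ _ _ => rfl) fun K c => ?_
    obtain ⟨R, hR⟩ := (c.image (continuous_snd (X := X22) (Y := (V k E × ℂ) × R4))).isBounded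
      |>.exists_norm_le
    obtain ⟨S, s1, s2, s3⟩ := h.pr R
    let j : (I × E3 × E3) × US m × (V k E × ℂ) × ℝ × ℝ →
        (I × US m) × ((((E3 × E3) × ℂ) × V k E) × ℝ) × ℝ :=
      fun z => ((z.1.1, z.2.1), (((z.1.2, z.2.2.1.2), z.2.2.1.1), z.2.2.2.1), z.2.2.2.2)
    have cj : Continuous j := by fun_prop
    refine ⟨j '' S ×ˢ univ ×ˢ Metric.closedBall 0 R,
      (s1.prod (isCompact_univ.prod (isCompact_closedBall _ _))).image cj, ?_,
      fun (z : (I × US m) × ((((E3 × E3) × ℂ) × V k E) × ℝ) × ℝ) o i => ?_⟩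
    · rintro _ ⟨z, a, rfl⟩
      exact s2 a.1
    · have a := hR _ ⟨_, i, rfl⟩
      change ‖((z.2.1.1.2, z.2.1.1.1.2), ((l (b z), -z.2.2), z.2.1.2))‖ ≤ R at a
      simp only [Prod.norm_def, max_le_iff, norm_neg] at a
      refine ⟨(b z, z.1.2, (z.2.1.1.2, z.2.1.1.1.2), z.2.1.2, z.2.2),
        ⟨s3 _ o a.2.1.1.1 a.2.1.1.2, trivial, mem_closedBall_zero_iff.2 ?_⟩, rfl⟩
      simp only [Prod.norm_def, max_le_iff]
      exact ⟨a.1, a.2.2, a.2.1.2⟩
  refine ⟨S, rS, H.ht (fun y w => (Rg.cm hC rS y w).trans (congrArg _ ?_))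
    fun y w => congrArg (pt (L k m) (XN k E) y) (oc_out (U := b ⁻¹' U) (h.u1 _)).symm⟩
  change opx (fun x : US m × X22 × (V k E × ℂ) × R4 => OnePoint.some (r x.2.1, x.2.2))
    (y, oc (cU k E) (cE k E) w) = oc (b ⁻¹' U) f ((0, y), w)
  by_cases o : (show ((((E3 × E3) × ℂ) × V k E) × ℝ) × ℝ from w) ∈ cU k E
  · rw [oc_in o, oc_in (U := b ⁻¹' U) ((h.u0 _).2 o)]
    exact congrArg OnePoint.some (Prod.ext (h.x0 _).symm
      (Prod.ext rfl (Prod.ext (Prod.ext (h.l0 _).symm rfl) rfl)))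
  · rw [oc_out o, oc_out (U := b ⁻¹' U) fun a => o ((h.u0 _).1 a)]; rfl

end Nl

/-- **NUL** -/
theorem nul : NUL := by
  rintro k m E _ _ _ C x0 r hC (rfl | rfl)
  · exact Nl.key (Nl.nh1 x0) (by fun_prop) C hC
  · exact Nl.key (Nl.nh1 x0).swap (by fun_prop) C hC

end Crest.Agent.N218.D6.Lk

end
end

-- ▼ part N218/Pc/Emb
section

/-! Row 218, block PIECE, leaf EMB (helper39): the bundle as a summand of a trivial bundle. -/

set_option autoImplicit false
set_option linter.unusedVariables false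
open Set Topology
open scoped InnerProductSpace ComplexConjugate

noncomputable section

namespace Crest.Agent.N218.Pc
open P Sk

namespace Em

/-- the Hopf map -/
def h1 (a : S3) : S2 := ⟨hfv a.1, by
  rw [mem_sphere_zero_iff_norm, ← Hf_eq, Ds.nH, norm_eq_of_mem_sphere a, one_pow]⟩

theorem h1_ct : Continuous h1 := Continuous.subtype_mk (by unfold hfv; fun_prop) _

theorem h1_sur (x : S2) : ∃ a, h1 a = x := by
  obtain ⟨a, h, k⟩ := Ds.ex (y := x.1) (ne_zero_of_mem_unit_sphere x)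
  rw [norm_eq_of_mem_sphere x, one_smul] at k
  exact ⟨⟨a, mem_sphere_zero_iff_norm.2 h⟩, Subtype.ext k⟩

theorem h1_fib {a b : S3} (h : h1 a = h1 b) : ∃ t : Circle, (b : Cn 2) = (t : ℂ) • (a : Cn 2) := by
  have u : ∀ c : S3, Ds.Up (h1 c).1 c.1 := fun c =>
    ⟨norm_eq_of_mem_sphere c, by rw [norm_eq_of_mem_sphere (h1 c), one_smul]; rfl⟩
  obtain ⟨c, k, k0, k1⟩ := Ds.uniq (ne_zero_of_mem_unit_sphere (h1 a)) (u a) (h ▸ u b)
  refine ⟨⟨c, mem_sphere_zero_iff_norm.2 k⟩, ?_⟩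
  ext i; fin_cases i
  · exact k0
  · exact k1

/-- the product of two Hopf maps -/
def hp (σ : S) : X22 := (h1 σ.1, h1 σ.2)
/-- a section -/
def lf (x : X22) : S := ((h1_sur x.1).choose, (h1_sur x.2).choose)

theorem hp_ct : Continuous hp := (h1_ct.comp continuous_fst).prodMk (h1_ct.comp continuous_snd)
theorem hp_lf (x : X22) : hp (lf x) = x :=
  Prod.ext (h1_sur x.1).choose_spec (h1_sur x.2).choose_spec
theorem hp_rl {σ σ' : S} (h : hp σ = hp σ') : ∃ c, Rl σ σ' c :=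
  let ⟨t, a⟩ := h1_fib (congrArg Prod.fst h)
  let ⟨t', b⟩ := h1_fib (congrArg Prod.snd h)
  ⟨_, t, t', a, b, rfl⟩

/-- the index set -/
abbrev Ix : Type := Fin 5 × Fin 2 × Fin 2
/-- the dimension -/
abbrev nn : ℕ := Fintype.card Ix
/-- its enumeration -/
def en : Ix ≃ Fin nn := Fintype.equivFin Ix
/-- conjugation in one slot -/
def cj (j : Fin 5) (z : ℂ) : ℂ := if j = 2 then conj z else z
/-- the exponents -/
def mm : Fin 5 → ℕ := ![2, 3, 1, 6, 0]
/-- the weights -/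
def ww : Fin 5 → ℤ := ![-2, -3, 1, -6, 0]

theorem cj_cj (j : Fin 5) (z : ℂ) : cj j (cj j z) = z := by unfold cj; split_ifs <;> simp
theorem cj_mul (j : Fin 5) (z w : ℂ) : cj j (z * w) = cj j z * cj j w := by
  unfold cj; split_ifs <;> simp
theorem cj_add (j : Fin 5) (z w : ℂ) : cj j (z + w) = cj j z + cj j w := by
  unfold cj; split_ifs <;> simp
theorem cj_real (j : Fin 5) (r : ℝ) : cj j r = r := by unfold cj; split_ifs <;> simp
theorem cj_zero (j : Fin 5) : cj j 0 = 0 := cj_real j 0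
theorem cj_re (j : Fin 5) (z : ℂ) : (cj j z).re = z.re := by unfold cj; split_ifs <;> simp
theorem cj_conj (j : Fin 5) (z : ℂ) : cj j (conj z) = conj (cj j z) := by
  unfold cj; split_ifs <;> simp
@[fun_prop] theorem cj_ct (j : Fin 5) : Continuous (cj j) := by
  unfold cj; split_ifs <;> fun_prop

/-- the frame before normalisation -/
def rw' (j : Fin 5) (σ : S) : Cn nn := WithLp.toLp 2 fun p =>
  if (en.symm p).1 = j then
    cj j (conj (σ.1.1 (en.symm p).2.1 * σ.2.1 (en.symm p).2.2)) ^ mm j else 0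

theorem rw_ct (j : Fin 5) : Continuous (rw' j) := by
  refine (PiLp.continuous_toLp 2 _).comp (continuous_pi fun p => ?_)
  split_ifs
  · exact ((cj_ct j).comp (Complex.continuous_conj.comp (by fun_prop))).pow _
  · exact continuous_const

theorem ex_ne (a : S3) : ∃ i, a.1 i ≠ 0 := by
  by_contra h
  push Not at h
  exact ne_zero_of_mem_unit_sphere a (by ext i; exact h i)

theorem rw_ne (j : Fin 5) (σ : S) : rw' j σ ≠ 0 := fun h => by
  obtain ⟨i, a⟩ := ex_ne σ.1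
  obtain ⟨l, b⟩ := ex_ne σ.2
  have := congrArg (fun v : Cn nn => v (en (j, i, l))) h
  simp only [rw', Equiv.symm_apply_apply, if_true, PiLp.zero_apply] at this
  have k := congrArg (cj j) (pow_eq_zero_iff'.1 this).1
  rw [cj_cj, cj_zero, map_eq_zero] at k
  exact mul_ne_zero a b k

theorem rw_on {i j : Fin 5} (h : i ≠ j) (σ : S) : ⟪rw' i σ, rw' j σ⟫_ℂ = 0 := by
  rw [PiLp.inner_apply]
  refine Finset.sum_eq_zero fun p _ => ?_
  by_cases k : (en.symm p).1 = j
  · have : (en.symm p).1 ≠ i := fun e => h (e.symm.trans k)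
    simp [rw', this]
  · simp [rw', k]

theorem cj_pow (j : Fin 5) (c : Circle) : cj j (conj (c : ℂ)) ^ mm j = (c : ℂ) ^ ww j := by
  have e : conj (c : ℂ) = (c : ℂ)⁻¹ := by rw [← Circle.coe_inv_eq_conj, Circle.coe_inv]
  fin_cases j <;> simp [cj, mm, ww] <;> simp [e]

theorem rw_eq (j : Fin 5) {σ σ' : S} {t t' : Circle} (h : (σ'.1 : Cn 2) = (t : ℂ) • (σ.1 : Cn 2))
    (h' : (σ'.2 : Cn 2) = (t' : ℂ) • (σ.2 : Cn 2)) :
    rw' j σ' = ((t * t' : Circle) : ℂ) ^ ww j • rw' j σ := by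
  ext p
  simp only [rw', h, h', PiLp.smul_apply, smul_eq_mul]
  split_ifs
  · rw [← cj_pow, ← mul_pow, ← cj_mul, ← map_mul, Circle.coe_mul]
    congr 3; ring
  · rw [mul_zero]

/-- the frame -/
def fr (j : Fin 5) (σ : S) : Cn nn := ((‖rw' j σ‖⁻¹ : ℝ) : ℂ) • rw' j σ

@[fun_prop] theorem fr_ct (j : Fin 5) : Continuous (fr j) :=
  (Complex.continuous_ofReal.comp ((rw_ct j).norm.inv₀ fun σ =>
    norm_ne_zero_iff.2 (rw_ne j σ))).smul (rw_ct j)

theorem fr_on (i j : Fin 5) (σ : S) : ⟪fr i σ, fr j σ⟫_ℂ = if i = j then 1 else 0 := by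
  split_ifs with h
  · subst h
    have := norm_ne_zero_iff.2 (rw_ne i σ)
    rw [inner_self_eq_norm_sq_to_K, fr, norm_smul]
    simp [this]
  · rw [fr, fr, inner_smul_left, inner_smul_right, rw_on h, mul_zero, mul_zero]

theorem fr_eq (j : Fin 5) {σ σ' : S} {t t' : Circle} (h : (σ'.1 : Cn 2) = (t : ℂ) • (σ.1 : Cn 2))
    (h' : (σ'.2 : Cn 2) = (t' : ℂ) • (σ.2 : Cn 2)) :
    fr j σ' = ((t * t' : Circle) : ℂ) ^ ww j • fr j σ := by
  rw [fr, fr, rw_eq j h h', norm_smul, norm_zpow, Circle.norm_coe, one_zpow, one_mul, smul_comm]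

/-- the embedding -/
def io (σ : S) : Y →L[ℝ] Cn nn := LinearMap.toContinuousLinearMap
  { toFun := fun η => ∑ j, cj j (η j) • fr j σ
    map_add' := fun a b => by simp [cj_add, add_smul, Finset.sum_add_distrib]
    map_smul' := fun r a => by
      simp only [PiLp.smul_apply, Complex.real_smul, cj_mul, cj_real, RingHom.id_apply,
        Finset.smul_sum, mul_smul, Complex.coe_smul] }
/-- its adjoint -/
def io' (σ : S) : Cn nn →L[ℝ] Y := LinearMap.toContinuousLinearMap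
  { toFun := fun e => WithLp.toLp 2 fun j => cj j ⟪fr j σ, e⟫_ℂ
    map_add' := fun a b => by ext j; simp [cj_add]
    map_smul' := fun r a => by
      ext j
      simp only [RingHom.id_apply, PiLp.smul_apply, Complex.real_smul]
      rw [← Complex.coe_smul, inner_smul_right, cj_mul, cj_real] }

theorem io_ap (σ : S) (η : Y) : io σ η = ∑ j, cj j (η j) • fr j σ := rfl
theorem io'_ap (σ : S) (e : Cn nn) (j : Fin 5) : io' σ e j = cj j ⟪fr j σ, e⟫_ℂ := rfl

/-- the projection to two members of the frame -/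
def pj (κ : Fin 2 → Fin 5) (σ : S) : Cn nn →L[ℂ] Cn nn :=
  ∑ i, (innerSL ℂ (fr (κ i) σ)).smulRight (fr (κ i) σ)

theorem pj_ap (κ : Fin 2 → Fin 5) (σ : S) (e : Cn nn) :
    pj κ σ e = ∑ i, ⟪fr (κ i) σ, e⟫_ℂ • fr (κ i) σ := by simp [pj]

theorem pj_lf (κ : Fin 2 → Fin 5) (σ : S) : pj κ (lf (hp σ)) = pj κ σ := by
  obtain ⟨_, t, t', a, b, -⟩ := hp_rl (hp_lf (hp σ)).symm
  refine ContinuousLinearMap.ext fun e => ?_
  rw [pj_ap, pj_ap]
  refine Finset.sum_congr rfl fun i _ => ?_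
  rw [fr_eq _ a b, inner_smul_left, smul_smul, mul_right_comm, mul_comm (conj _),
    Complex.mul_conj, Complex.normSq_eq_norm_sq, norm_zpow, Circle.norm_coe]
  simp

theorem isPr {κ : Fin 2 → Fin 5} (hκ : Function.Injective κ) : Pm.IsPr fun x => pj κ (lf x) := by
  refine ⟨?_, fun x y => ?_, fun x y z => ?_⟩
  · have q : IsQuotientMap hp :=
      hp_ct.isClosedMap.isQuotientMap hp_ct fun x => ⟨lf x, hp_lf x⟩
    rw [q.continuous_iff]
    refine Continuous.congr (f := pj κ) (continuous_clm_apply.2 fun e => ?_) fun σ => (pj_lf κ σ).symm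
    simp only [pj_ap]
    fun_prop
  · rw [pj_ap κ _ (pj κ _ y), pj_ap]
    simp [fr_on, hκ.eq_iff]
  · simp only [pj_ap, inner_sum, sum_inner, inner_smul_right, inner_smul_left, inner_conj_symm,
      mul_comm]

theorem frm {κ : Fin 2 → Fin 5} (hκ : Function.Injective κ) :
    Frm (fun x => pj κ (lf x)) (fun i => ww (κ i)) (fun i => ww (κ i)) fun i => fr (κ i) := by
  refine ⟨fun j => fr_ct _, fun i j y => by simp [fr_on, hκ.eq_iff], fun x y a b v => ?_,
    fun j y y' t t' a b => by rw [fr_eq _ a b, Circle.coe_mul, mul_zpow]⟩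
  obtain rfl : x = hp y := Prod.ext (Subtype.ext a) (Subtype.ext b)
  rw [pj_lf, pj_ap]

theorem act_eq (c : Circle) (η : Y) (j : Fin 5) :
    cj j (act c η j) * (c : ℂ) ^ ww j = cj j (η j) := by
  have e : conj (c : ℂ) = (c : ℂ)⁻¹ := by rw [← Circle.coe_inv_eq_conj, Circle.coe_inv]
  have := c.coe_ne_zero
  fin_cases j <;> simp [cj, act, ww, e, zpow_ofNat] <;> field_simp

theorem rin {n : ℕ} (x y : Cn n) : ⟪x, y⟫_ℝ = (⟪x, y⟫_ℂ).re := by
  rw [PiLp.inner_apply, PiLp.inner_apply, Complex.re_sum]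
  rfl

end Em
open Em

theorem emb : EMB := by
  have i1 : Function.Injective (![2, 3] : Fin 2 → Fin 5) := by decide
  have i2 : Function.Injective (![0, 1] : Fin 2 → Fin 5) := by decide
  refine ⟨nn, ⟨{
    hp := hp, lf := lf, ι := io, ι' := io'
    π₁ := fun x => pj ![2, 3] (lf x), π₂ := fun x => pj ![0, 1] (lf x)
    hc := hp_ct, h1 := fun _ => rfl, h2 := fun _ => rfl, hl := hp_lf, rl := fun _ _ => hp_rl
    ic := continuous_clm_apply.2 fun η => by simp only [io_ap]; fun_prop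
    ic' := continuous_clm_apply.2 fun e => (PiLp.continuous_toLp 2 _).comp
      (continuous_pi fun j => (cj_ct j).comp ((fr_ct j).inner continuous_const))
    ad := fun σ η e => ?_
    li := fun σ η => ?_
    eq := ?_
    p₁ := isPr i1, p₂ := isPr i2
    e₁ := fun σ e => ?_
    e₂ := fun σ e => ?_
    pcd := fun D a b => ⟨2, _, _, _, _, _, _, a ▸ frm i1, b ▸ frm i2, by decide, by decide,
      -3, by decide, by decide⟩ }⟩⟩
  · rw [rin, rin, io_ap, sum_inner, PiLp.inner_apply η, Complex.re_sum, Complex.re_sum]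
    refine Finset.sum_congr rfl fun j _ => ?_
    rw [inner_smul_left, io'_ap, RCLike.inner_apply,
      ← cj_re j (cj j _ * _), cj_mul, cj_cj, cj_conj, mul_comm]
  · ext j
    rw [io'_ap, io_ap, inner_sum]
    simp [inner_smul_right, fr_on, cj_cj]
  · rintro σ σ' _ η ⟨t, t', a, b, rfl⟩
    rw [io_ap, io_ap]
    refine Finset.sum_congr rfl fun j _ => ?_
    rw [fr_eq j a b, smul_smul, ← Circle.coe_mul, act_eq]
  · rw [pj_lf, pj_ap, io_ap]
    simp [Fin.sum_univ_succ, qW, io'_ap, cj_cj, cj_zero]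
  · rw [pj_lf, pj_ap, io_ap]
    simp [Fin.sum_univ_succ, qV, io'_ap, cj_cj, cj_zero]

end Crest.Agent.N218.Pc

end
end

-- ▼ part N218/Pc/Dsc

/-! Row 218, block PIECE (helper21): descent. -/

set_option autoImplicit false
set_option linter.unusedVariables false
open Set Topology
open scoped RealInnerProductSpace

noncomputable section

namespace Crest.Agent.N218.Pc
open P Sk

section cm
variable {E : Type} [NormedAddCommGroup E] [NormedSpace ℝ E]

@[fun_prop] theorem cm_ct {T : Type} [TopologicalSpace T] {e : T → E} (h : Continuous e) :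
    Continuous fun t => cm (e t) := by
  unfold cm
  fun_prop (disch := intro; positivity)

theorem cm_le (e : E) : ‖cm e‖ ≤ ‖e‖ / 2 ∧ ‖cm e‖ ≤ 1 / 2 := by
  have a := le_max_left 1 ‖e‖
  have b := le_max_right 1 ‖e‖
  rw [cm, norm_smul, Real.norm_of_nonneg (by positivity), inv_mul_le_iff₀ (by positivity),
    inv_mul_le_iff₀ (by positivity)]
  constructor <;> nlinarith [norm_nonneg e]
end cm

namespace Emb
variable {n : ℕ} (B : Emb n)

theorem in_io (σ : S) (η η' : Y) : ⟪B.ι σ η, B.ι σ η'⟫ = ⟪η, η'⟫ := by rw [B.ad, B.li]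
theorem n_io (σ : S) (η : Y) : ‖B.ι σ η‖ = ‖η‖ := by
  rw [← sq_eq_sq₀ (norm_nonneg _) (norm_nonneg _), ← real_inner_self_eq_norm_sq,
    ← real_inner_self_eq_norm_sq, in_io]
theorem n_io' (σ : S) (e : Cn n) : ‖B.ι' σ e‖ ≤ ‖e‖ := by
  have a : ‖B.ι' σ e‖ ^ 2 ≤ ‖B.ι' σ e‖ * ‖e‖ := by
    rw [← real_inner_self_eq_norm_sq, ← B.ad, ← B.n_io σ]; exact real_inner_le_norm _ _
  nlinarith [norm_nonneg e, norm_nonneg (B.ι' σ e)]
theorem io'_pp (σ : S) (e : Cn n) : B.ι' σ (B.pp σ e) = 0 := by rw [pp, map_sub, B.li, sub_self]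
theorem io'_am (σ : S) (f : Y → Y) (e : Cn n) : B.ι' σ (B.am σ f e) = f (B.ι' σ e) := by
  rw [am, map_add, B.li, cm, map_smul, io'_pp, smul_zero, add_zero]
theorem pp_am (σ : S) (f : Y → Y) (e : Cn n) : B.pp σ (B.am σ f e) = cm (B.pp σ e) := by
  rw [pp, io'_am, am, add_sub_cancel_left]
theorem n_am (σ : S) (f : Y → Y) (e : Cn n) : ‖B.am σ f e‖ ≤ ‖f (B.ι' σ e)‖ + 1 / 2 :=
  (norm_add_le _ _).trans (add_le_add (B.n_io _ _).le (cm_le _).2)

theorem eq' {σ σ' : S} {c : ℂ} (h : Rl σ σ' c) (k : B.hp σ' = B.hp σ) (e : Cn n) :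
    B.ι' σ' e = act c (B.ι' σ e) := by
  obtain ⟨c', h'⟩ := B.rl σ' σ k
  refine ext_inner_left ℝ fun ξ => ?_
  rw [← B.ad, ← B.in_io σ', B.eq _ _ _ _ h, ← B.eq _ _ _ _ h', B.in_io, B.ad]

theorem ds_at {f : S × Y → Y} (hf : Ev f) (σ : S) (e : Cn n) :
    B.ds f (B.hp σ, e) = B.am σ (fun η => f (σ, η)) e := by
  obtain ⟨c, h⟩ := B.rl σ (B.lf (B.hp σ)) (B.hl _).symm
  simp only [ds, am, pp, B.eq' h (B.hl _), hf _ _ _ _ h, B.eq _ _ _ _ h]

theorem dsc_ct {Λ : Type} [TopologicalSpace Λ] {Φ : (S × Λ) × Y → Y} (h : Continuous Φ)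
    (hf : ∀ t, Ev fun z => Φ ((z.1, t), z.2)) : Continuous (B.dsc Φ) := by
  have q := ((B.hc.isProperMap.prodMap (isProperMap_id (X := Λ))).prodMap
    (isProperMap_id (X := Cn n)))
  rw [(q.isClosedMap.isQuotientMap q.continuous fun z =>
    ⟨((B.lf z.1.1, z.1.2), z.2), by simp [B.hl]⟩).continuous_iff]
  have a := B.ic
  have b := B.ic'
  refine Continuous.congr (f := fun z : (S × Λ) × Cn n => B.ι z.1.1 (Φ (z.1, B.ι' z.1.1 z.2)) +
    cm (z.2 - B.ι z.1.1 (B.ι' z.1.1 z.2))) (by fun_prop) fun z => (B.ds_at (hf z.1.2) z.1.1 z.2).symm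
end Emb

theorem dsc : DSC where
  at' n B f σ e h := B.ds_at h σ e
  ct n B f h hf := (B.dsc_ct (Φ := fun w : (S × Unit) × Y => f (w.1.1, w.2)) (by fun_prop)
    fun _ => hf).comp (f := fun z : X22 × Cn n => ((z.1, ()), z.2)) (by fun_prop)
  gf n B Φ k hk h hb hf := by
    obtain ⟨C, hC⟩ := hb
    obtain ⟨δ, d0, hd⟩ := h.adm
    refine ⟨B.dsc_ct h.ct hf, ⟨0, C + 1 / 2, LA.of_sym (fun _ _ => by simp) (fun v e => e.symm) hk,
      fun x => ?_⟩, δ, d0, fun b s z s0 a e => ?_⟩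
    · rw [ContinuousLinearMap.zero_apply, sub_zero]
      exact (B.n_am _ _ _).trans (add_le_add (hC _) le_rfl)
    let σ := B.lf b.1
    let y : Pm.V k Y := fun i => B.ι' σ (z i)
    let u : Pm.V k (Cn n) := fun i => B.pp σ (z i)
    have m : ∀ i, B.ι' σ (Pm.mn z i) = Pm.mn y i := fun i => by simp [Pm.mn, y]
    have y0 : Pm.mn y = 0 := hd (σ, b.2) s y s0 (le_trans ((pi_norm_le_iff_of_nonneg
      (norm_nonneg _)).2 fun i => by
        rw [Pi.smul_apply, ← m, ← map_smul]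
        exact (B.n_io' _ _).trans (norm_le_pi_norm (s • Pm.mn z) i)) a) fun i => by
      have := congrArg (B.ι' σ) (e i)
      rwa [map_add, map_sub, map_smul, map_zero, m, Emb.dsc, B.io'_am] at this
    have u0 : ‖u + s • Pm.mn u‖ ≤ ‖u‖ / 2 := (pi_norm_le_iff_of_nonneg (by positivity)).2 fun i => by
      have c : (u + s • Pm.mn u) i = cm (u (i - 1)) := by
        rw [← B.pp_am σ fun η => Φ ((σ, b.2), η)]
        change _ = B.pp σ (B.dsc Φ (b, z (i - 1)))
        rw [show B.dsc Φ (b, z (i - 1)) = z i + s • Pm.mn z i by rw [← sub_eq_zero, ← neg_eq_zero, ← e i]; abel]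
        simp only [u, Emb.pp, Pm.mn, Pi.add_apply, Pi.smul_apply, map_add, map_sub, map_smul]
        module
      rw [c]
      linarith [(cm_le (u (i - 1))).1, norm_le_pi_norm u (i - 1)]
    have u1 : u = 0 := norm_le_zero_iff.1 (by linarith [En.Wb.le_mn s0 u])
    funext i
    have c : ∀ i, z i = B.ι σ (y i) := fun i => sub_eq_zero.1 (congrFun u1 i)
    have := congrArg (B.ι σ) (congrFun y0 i)
    simpa [Pm.mn, ← c] using this

end Crest.Agent.N218.Pc

end
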