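import Crest.Agent.N218.P.Kit
import Crest.Agent.N218.P.Crit
import Crest.Agent.N218.P.Path
import Crest.Agent.N218.A.Rs0
import Crest.Agent.N218.C.Lya

/-! Row 218, PIECE (helper93): the Lyapunov function without rim, its gradient steps. -/

set_option autoImplicit false
set_option linter.unusedVariables false
open Set Real Filter Topology
open scoped ContDiff RealInnerProductSpace ComplexConjugate

namespace Crest.Agent.N218.Pc.Ll
open P A.Rs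

noncomputable section

/-- projection to `V₁` -/
def pV : Y →L[ℝ] Y := coL.symm.toContinuousLinearMap.comp
  ((ContinuousLinearMap.inl ℝ V (V × ℝ × ℝ)).comp pvL)
/-- projection to `V₂` -/
def pW : Y →L[ℝ] Y := coL.symm.toContinuousLinearMap.comp
  (((ContinuousLinearMap.inr ℝ V (V × ℝ × ℝ)).comp (ContinuousLinearMap.inl ℝ V (ℝ × ℝ))).comp pwL)

theorem pV_eq (y : Y) : pV y = !₂[y 0, y 1, 0, 0, 0] := Y_ext rfl rfl rfl rfl rfl
theorem pW_eq (y : Y) : pW y = !₂[0, 0, y 2, y 3, 0] := Y_ext rfl rfl rfl rfl rfl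
theorem pW_pW (y : Y) : pW (pW y) = pW y := Y_ext rfl rfl rfl rfl rfl
theorem pV_pW (y : Y) : pV (pW y) = 0 := Y_ext rfl rfl rfl rfl rfl
theorem pV_act (c : ℂ) (y : Y) : pV (act c y) = act c (pV y) :=
  Y_ext rfl rfl (by simp [pV_eq, act]) (by simp [pV_eq, act]) rfl
theorem pW_act (c : ℂ) (y : Y) : pW (act c y) = act c (pW y) :=
  Y_ext (by simp [pW_eq, act]) (by simp [pW_eq, act]) rfl rfl rfl

theorem inner_Y (a b : Y) :
    ⟪a, b⟫ = ⟪pv a, pv b⟫ + ⟪pw a, pw b⟫ + u2 a * u2 b + u1 a * u1 b := by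
  simp only [PiLp.inner_apply, Fin.sum_univ_five, Fin.sum_univ_two, pv0, pv1, pw0, pw1, u1, u2,
    Complex.inner, Complex.mul_re, Complex.conj_re, Complex.conj_im]
  ring

theorem pv_pV (y : Y) : pv (pV y) = pv y := V_ext rfl rfl
theorem pw_pW (y : Y) : pw (pW y) = pw y := V_ext rfl rfl
theorem pv_pW (y : Y) : pv (pW y) = 0 := V_ext rfl rfl
theorem pw_pV (y : Y) : pw (pV y) = 0 := V_ext rfl rfl
theorem u_pV (y : Y) : u2 (pV y) = 0 ∧ u1 (pV y) = 0 := ⟨rfl, rfl⟩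
theorem u_pW (y : Y) : u2 (pW y) = 0 ∧ u1 (pW y) = 0 := ⟨rfl, rfl⟩
theorem inner_pV (a b : Y) : ⟪pV a, b⟫ = ⟪pv a, pv b⟫ := by
  rw [inner_Y, pv_pV, pw_pV, (u_pV a).1, (u_pV a).2]; simp
theorem inner_pW (a b : Y) : ⟪pW a, b⟫ = ⟪pw a, pw b⟫ := by
  rw [inner_Y, pw_pW, pv_pW, (u_pW a).1, (u_pW a).2]; simp
theorem pV_sa (a b : Y) : ⟪pV a, b⟫ = ⟪a, pV b⟫ := by
  rw [inner_pV, real_inner_comm, ← inner_pV, real_inner_comm]
theorem pW_sa (a b : Y) : ⟪pW a, b⟫ = ⟪a, pW b⟫ := by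
  rw [inner_pW, real_inner_comm, ← inner_pW, real_inner_comm]

/-- the diagonal map with entries `a` on `V₁`, `b` on `V₂`, `c` on `ℝ²` -/
def dg (a b c : ℝ) : Y →L[ℝ] Y := c • 1 + (a - c) • pV + (b - c) • pW

theorem dg_apply (a b c : ℝ) (y : Y) : dg a b c y = c • y + (a - c) • pV y + (b - c) • pW y := rfl
theorem pv_dg (a b c : ℝ) (y : Y) : pv (dg a b c y) = a • pv y := by
  rw [dg_apply, ← pvL_apply]
  simp only [map_add, map_smul, pvL_apply, pv_pV, pv_pW]; module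
theorem pw_dg (a b c : ℝ) (y : Y) : pw (dg a b c y) = b • pw y := by
  rw [dg_apply, ← pwL_apply]
  simp only [map_add, map_smul, pwL_apply, pw_pV, pw_pW]; module
theorem u2_dg (a b c : ℝ) (y : Y) : u2 (dg a b c y) = c * u2 y := by
  rw [dg_apply, ← u2L_apply]
  simp only [map_add, map_smul, u2L_apply, (u_pV y).1, (u_pW y).1]; simp
theorem u1_dg (a b c : ℝ) (y : Y) : u1 (dg a b c y) = c * u1 y := by
  rw [dg_apply, ← u1L_apply]
  simp only [map_add, map_smul, u1L_apply, (u_pV y).2, (u_pW y).2]; simp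
theorem Y_ext' {a b : Y} (h1 : pv a = pv b) (h2 : pw a = pw b) (h3 : u2 a = u2 b)
    (h4 : u1 a = u1 b) : a = b := coL.injective (by simp [co, h1, h2, h3, h4])
theorem dg_dg (a b c a' b' c' : ℝ) (y : Y) :
    dg a b c (dg a' b' c' y) = dg (a * a') (b * b') (c * c') y :=
  Y_ext' (by simp [pv_dg, smul_smul]) (by simp [pw_dg, smul_smul]) (by simp [u2_dg, mul_assoc])
    (by simp [u1_dg, mul_assoc])
theorem dg_pW (b : ℝ) (y : Y) : dg 0 b 0 y = b • pW y := by simp [dg_apply]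
theorem sub_dg (s a b c : ℝ) (y : Y) :
    y - s • dg a b c y = dg (1 - s * a) (1 - s * b) (1 - s * c) y := by
  simp only [dg_apply]; module
theorem dg_sa (a b c : ℝ) (x y : Y) : ⟪dg a b c x, y⟫ = ⟪x, dg a b c y⟫ := by
  simp only [dg_apply, inner_add_left, inner_add_right, real_inner_smul_left,
    real_inner_smul_right, pV_sa, pW_sa]
theorem inner_dg (a b c : ℝ) (x y : Y) : ⟪dg a b c x, y⟫ =
    a * ⟪pv x, pv y⟫ + b * ⟪pw x, pw y⟫ + c * (u2 x * u2 y + u1 x * u1 y) := by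
  rw [inner_Y, pv_dg, pw_dg, u2_dg, u1_dg, real_inner_smul_left, real_inner_smul_left]; ring
theorem dg_act (a b c : ℝ) (z : ℂ) (y : Y) : dg a b c (act z y) = act z (dg a b c y) := by
  simp only [dg_apply, act_add, act_smul, pV_act, pW_act]
theorem sq_dg (a b c : ℝ) (y : Y) : ‖dg a b c y‖ ^ 2 =
    a ^ 2 * ‖pv y‖ ^ 2 + b ^ 2 * ‖pw y‖ ^ 2 + c ^ 2 * (u2 y ^ 2 + u1 y ^ 2) := by
  rw [norm_sq_Y, pv_dg, pw_dg, u2_dg, u1_dg, norm_smul, norm_smul, mul_pow, mul_pow,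
    Real.norm_eq_abs, Real.norm_eq_abs, sq_abs, sq_abs]; ring
theorem sq_rest (y : Y) : ‖y - pW y‖ ^ 2 = ‖pv y‖ ^ 2 + (u2 y ^ 2 + u1 y ^ 2) := by
  have : y - pW y = dg 1 0 1 y := by simp [dg_apply, sub_eq_add_neg]
  rw [this, sq_dg]; ring
@[fun_prop] theorem cont_dg {T : Type*} [TopologicalSpace T] {a b c : T → ℝ} {y : T → Y}
    (ha : Continuous a) (hb : Continuous b) (hc : Continuous c) (hy : Continuous y) :
    Continuous fun t => dg (a t) (b t) (c t) (y t) := by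
  simp only [dg_apply]; fun_prop

/-- `|v|² + |w|²` -/
def ta (y : Y) : ℝ := ‖pv y‖ ^ 2 + ‖pw y‖ ^ 2
theorem ta_eq (y : Y) : tau (co y) = ta y := rfl
theorem ta_cont : Continuous ta := (tau_sm.comp co_sm).continuous

variable {M : ℂ × V → V}

/-- the Lyapunov function without the rim, normalised -/
def L0 (M : ℂ × V → V) (p : ℂ × Y) : ℝ := LL M p - Ee (ta p.2 - 4) + 1 / 100

theorem LL_sm (hM : Mz M) : ContDiff ℝ ∞ (LL M) :=
  G_sm (M := fun (x : ℂ × Y) v => M (x.1, v)) (z := fun x => co x.2)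
    (hM.sm.comp (contDiff_fst.prodMk (pv_sm.comp contDiff_snd))) contDiff_const contDiff_const
    (co_sm.comp contDiff_snd)
theorem L0_sm (hM : Mz M) : ContDiff ℝ ∞ (L0 M) :=
  ((LL_sm hM).sub (Ee_sm.comp (((tau_sm.comp co_sm).comp contDiff_snd).sub contDiff_const))).add
    contDiff_const
theorem LL_act (hM : Mz M) {c : ℂ} (hc : ‖c‖ = 1) (ζ : ℂ) (y : Y) :
    LL M (c * ζ, act c y) = LL M (ζ, y) := G_act hc (fun v => hM.eqv c ζ v hc) 4 0 y
theorem ta_act {c : ℂ} (hc : ‖c‖ = 1) (y : Y) : ta (act c y) = ta y := Pa.tau_act hc y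
theorem L0_act (hM : Mz M) {c : ℂ} (hc : ‖c‖ = 1) (ζ : ℂ) (y : Y) :
    L0 M (c * ζ, act c y) = L0 M (ζ, y) := by simp only [L0, LL_act hM hc, ta_act hc]
theorem L0_eq {ζ : ℂ} {y : Y} (h : ta y ≤ 4) : L0 M (ζ, y) = LL M (ζ, y) + 1 / 100 := by
  rw [L0, Ee_z (by linarith), sub_zero]
theorem L0_hi (ζ : ℂ) {y : Y} (h : 3 ≤ ta y) : L0 M (ζ, y) =
    999 / 1000 * ‖pv y‖ ^ 2 - 1 / 1000 * ‖pw y‖ ^ 2 + (u2 y ^ 2 + u1 y ^ 2) := by
  simp only [L0, LL, G, ta_eq, sm.th_hi _ h, cos_zero, sin_zero]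
  simp only [co, ta]; ring
theorem L0_lo (ζ : ℂ) {y : Y} (h : ta y ≤ 1) : L0 M (ζ, y) =
    -(1 / 1000) * ‖pv y‖ ^ 2 + 999 / 1000 * ‖pw y‖ ^ 2 + (u2 y ^ 2 + u1 y ^ 2) := by
  simp only [L0, LL, G, ta_eq, sm.th_lo _ h, cos_pi_div_two, sin_pi_div_two]
  simp only [co, ta]; ring
theorem L0_ge (hM : Mz M) (ζ : ℂ) (y : Y) : u2 y ^ 2 + u1 y ^ 2 - ta y / 1000 ≤ L0 M (ζ, y) := by
  have := Pa.G_lo sm (hM.le ζ) 4 0 (co y)
  simp only [ta_eq] at this
  simp only [L0, LL]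
  simp only [co] at this ⊢
  linarith

/-- the gradient -/
def gr (M : ℂ × V → V) : ℂ × Y → Y := vgr (L0 M)
theorem gr_d (hM : Mz M) (ζ : ℂ) (y : Y) :
    HasFDerivAt (fun y => L0 M (ζ, y)) (innerSL ℝ (gr M (ζ, y))) y := has_slice (L0_sm hM) ζ y

/-- functions that agree near a point have the same gradient -/
theorem gr_congr (hM : Mz M) {ζ : ℂ} {y v : Y} {φ : Y → ℝ} (hφ : HasFDerivAt φ (innerSL ℝ v) y)
    (e : ∀ᶠ z in 𝓝 y, L0 M (ζ, z) = φ z) : gr M (ζ, y) = v :=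
  ext_inner_right ℝ fun x =>
    ContinuousLinearMap.ext_iff.1 ((gr_d hM ζ y).unique (hφ.congr_of_eventuallyEq e)) x

theorem quad_d (a b c : ℝ) (y : Y) : HasFDerivAt (fun z => 1 / 2 * ⟪dg a b c z, z⟫)
    (innerSL ℝ (dg a b c y)) y :=
  (((dg a b c).hasFDerivAt.inner ℝ (hasFDerivAt_id y)).const_mul (1 / 2)).congr_fderiv (by
    ext v
    simp only [smul_apply, ContinuousLinearMap.comp_apply,
      ContinuousLinearMap.prod_apply, fderivInnerCLM_apply, ContinuousLinearMap.id_apply, id,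
      innerSL_apply_apply, smul_eq_mul]
    rw [dg_sa a b c v y, real_inner_comm v]; ring)
theorem quad_eq (a b c : ℝ) (z : Y) : 1 / 2 * ⟪dg a b c z, z⟫ =
    a / 2 * ‖pv z‖ ^ 2 + b / 2 * ‖pw z‖ ^ 2 + c / 2 * (u2 z ^ 2 + u1 z ^ 2) := by
  rw [inner_dg, real_inner_self_eq_norm_sq, real_inner_self_eq_norm_sq]; ring

theorem gr_hi (hM : Mz M) (ζ : ℂ) {y : Y} (h : 3 < ta y) :
    gr M (ζ, y) = dg (999 / 500) (-(1 / 500)) 2 y :=
  gr_congr hM (quad_d _ _ _ y) (by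
    filter_upwards [ta_cont.continuousAt.eventually (lt_mem_nhds h)] with z hz
    rw [L0_hi ζ hz.le, quad_eq]; ring)
theorem gr_lo (hM : Mz M) (ζ : ℂ) {y : Y} (h : ta y < 1) :
    gr M (ζ, y) = dg (-(1 / 500)) (999 / 500) 2 y :=
  gr_congr hM (quad_d _ _ _ y) (by
    filter_upwards [ta_cont.continuousAt.eventually (gt_mem_nhds h)] with z hz
    rw [L0_lo ζ hz.le, quad_eq]; ring)




end

end Crest.Agent.N218.Pc.Ll
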