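import Crest.Agent.N218.Pc.Defs
import Crest.Agent.N218.Pc.Ll
import Crest.Agent.N218.Pm.Kit1
import Crest.Agent.N218.P.Kit
import Crest.Agent.N218.Pc.Gen
import Crest.Agent.N218.Pm.Kit2

-- ▼ part N218/Pc/Rgu
section

/-! Row 218, block PIECE (helper54): the gradient-like structure upstairs. -/

set_option autoImplicit false
set_option linter.unusedVariables false
open Set Topology
open scoped ContDiff RealInnerProductSpace

noncomputable section

namespace Crest.Agent.N218.Pc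
open P Sk

namespace Gu
open Ll A.Rs

/-- squared size of the `V₁` part -/
def na (y : Y) : ℝ := ‖pv y‖ ^ 2
/-- squared size of the `V₂` part -/
def nb (y : Y) : ℝ := ‖pw y‖ ^ 2
/-- squared size of the `ℝ²` part -/
def nc (y : Y) : ℝ := u2 y ^ 2 + u1 y ^ 2
theorem na0 (y : Y) : 0 ≤ na y := sq_nonneg _
theorem nb0 (y : Y) : 0 ≤ nb y := sq_nonneg _
theorem nc0 (y : Y) : 0 ≤ nc y := add_nonneg (sq_nonneg _) (sq_nonneg _)
theorem na_dg (a b c : ℝ) (y : Y) : na (dg a b c y) = a ^ 2 * na y := by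
  rw [na, pv_dg, norm_smul, mul_pow, Real.norm_eq_abs, sq_abs, na]
theorem nb_dg (a b c : ℝ) (y : Y) : nb (dg a b c y) = b ^ 2 * nb y := by
  rw [nb, pw_dg, norm_smul, mul_pow, Real.norm_eq_abs, sq_abs, nb]
theorem nc_dg (a b c : ℝ) (y : Y) : nc (dg a b c y) = c ^ 2 * nc y := by
  rw [nc, u2_dg, u1_dg, nc]; ring
theorem ta_e (y : Y) : tau (co y) = na y + nb y := rfl
theorem nsq (y : Y) : ‖y‖ ^ 2 = na y + nb y + nc y := by rw [norm_sq_Y, na, nb, nc]; ring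
theorem qV_e (y : Y) : qV y = pV y := (pV_eq y).symm
theorem qW_e (y : Y) : qW y = pW y := (pW_eq y).symm
theorem rsq (y : Y) : ‖y - qW y‖ ^ 2 = na y + nc y := by rw [qW_e]; exact sq_rest y
theorem rsq' (y : Y) : ‖y - qV y‖ ^ 2 = nb y + nc y := by
  rw [show y - qV y = dg 0 1 1 y by simp only [dg_apply, qV_e]; module, nsq, na_dg, nb_dg, nc_dg]
  ring
theorem r_le {y : Y} : ‖y - qW y‖ ≤ 2 ↔ na y + nc y ≤ 4 := by
  rw [← rsq, ← abs_norm, show (4 : ℝ) = 2 ^ 2 by norm_num, sq_le_sq, abs_abs, abs_two]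
theorem sm_qW (m : ℝ) (y : Y) : m • qW y = dg 0 m 0 y := by rw [dg_pW, qW_e]
theorem H0_e (ε : ℝ) (y : Y) : H0 ε y = ε • dg (-(1 / 500)) (999 / 500) 2 y := by
  simp only [H0, dg_apply, qV_e, qW_e]; module
theorem vp_e (τ t : ℝ) (y : Y) : vp τ t y = dg (1 - t * chi ‖pw y‖) (1 - t * (1 - cf τ ‖pw y‖))
    (1 - t * chi ‖pw y‖) y := by simp only [vp, dg_apply, qW_e]; module
theorem vp'_e (t : ℝ) (y : Y) : vp' t y = dg (1 - t * chi ‖pw y‖) 1 (1 - t * chi ‖pw y‖) y := by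
  simp only [vp', dg_apply, qW_e]; module
theorem pw_vp' (t : ℝ) (y : Y) : pw (vp' t y) = pw y := by rw [vp'_e, pw_dg, one_smul]
theorem nb_le {y : Y} {a : ℝ} (h : ‖pw y‖ ≤ a) : nb y ≤ a ^ 2 :=
  pow_le_pow_left₀ (norm_nonneg _) h 2
theorem nb_ge {y : Y} {a : ℝ} (h0 : 0 ≤ a) (h : a ≤ ‖pw y‖) : a ^ 2 ≤ nb y :=
  pow_le_pow_left₀ h0 h 2
theorem chi0 {ρ : ℝ} (h : ρ ≤ 9 / 5) : chi ρ = 0 := Pm.cl_of_le (by linarith)
theorem chi1 {ρ : ℝ} (h : 19 / 10 ≤ ρ) : chi ρ = 1 := Pm.cl_of_ge (by linarith)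
theorem vp'_lo (t : ℝ) {y : Y} (h : ‖pw y‖ ≤ 9 / 5) : vp' t y = y := by
  rw [vp', chi0 h, mul_zero, zero_smul, sub_zero]
theorem lam {t : ℝ} (ht : t ∈ Icc (0 : ℝ) 1) (ρ : ℝ) : (1 - t * chi ρ) ^ 2 ≤ 1 := by
  have := Pm.cl_mem (10 * ρ - 18)
  have a : 0 ≤ t * chi ρ := mul_nonneg ht.1 this.1
  have b : t * chi ρ ≤ 1 := mul_le_one₀ ht.2 this.1 this.2
  nlinarith
theorem rr2 {τ : ℝ} (h : 0 ≤ τ) : 2 ≤ rr τ := Real.le_sqrt_of_sq_le (by linarith)
theorem vp_vp' {τ : ℝ} (h : 0 ≤ τ) (t : ℝ) {y : Y} (hy : ‖pw y‖ ≤ 2) : vp τ t y = vp' t y := by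
  have := rr2 h
  rw [vp_e, vp'_e, cf, max_eq_right (hy.trans this), div_self (by linarith), sub_self, mul_zero,
    sub_zero]
theorem tau0 {τ : ℝ} (h : st (10 * τ) = 2 / 1000000) : 0 ≤ τ := by
  by_contra a
  rw [st, Real.smoothTransition.zero_of_nonpos (by linarith)] at h
  norm_num at h
theorem n_act {c : ℂ} (hc : ‖c‖ = 1) (y : Y) : ‖pw (act c y)‖ = ‖pw y‖ := by
  rw [pw_act, norm_aW hc]
theorem vp_act {c : ℂ} (hc : ‖c‖ = 1) (τ t : ℝ) (y : Y) : vp τ t (act c y) = act c (vp τ t y) := by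
  rw [vp_e, vp_e, n_act hc, dg_act]
theorem vp'_act {c : ℂ} (hc : ‖c‖ = 1) (t : ℝ) (y : Y) : vp' t (act c y) = act c (vp' t y) := by
  rw [vp'_e, vp'_e, n_act hc, dg_act]
theorem r_act {c : ℂ} (hc : ‖c‖ = 1) (y : Y) : ‖act c y - qW (act c y)‖ = ‖y - qW y‖ := by
  rw [qW_e, qW_e, pW_act, ← (actL hc).norm_map (y - pW y), map_sub]; rfl
theorem qW_c : Continuous qW := by rw [show qW = pW from funext qW_e]; exact pW.continuous
theorem chi_c : Continuous fun y : Y => chi ‖pw y‖ :=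
  Pm.cont_cl ((continuous_const.mul pw_sm.continuous.norm).sub continuous_const)
theorem vp'_c : Continuous fun p : ℝ × Y => vp' p.1 p.2 :=
  continuous_snd.sub ((continuous_fst.mul (chi_c.comp continuous_snd)).smul
    (continuous_snd.sub (qW_c.comp continuous_snd)))
theorem vp_c {τ : ℝ} (h : 0 ≤ τ) (t : ℝ) : Continuous (vp τ t) :=
  continuous_id.sub (((chi_c.smul (continuous_id.sub qW_c)).add ((continuous_const.sub
    (continuous_const.div (pw_sm.continuous.norm.max continuous_const) fun y =>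
      (lt_max_of_lt_right (two_pos.trans_le (rr2 h))).ne')).smul qW_c)).const_smul t)

theorem lb_c (s : ℝ) : Continuous fun σ : S => (lb s σ).1 := by
  unfold lb lab; fun_prop
theorem lb_rl (s : ℝ) {σ σ' : S} {c : ℂ} (h : Rl σ σ' c) :
    ‖c‖ = 1 ∧ (lb s σ').1 = c * (lb s σ).1 := by
  obtain ⟨t, t', h1, h2, rfl⟩ := h
  refine ⟨by rw [norm_mul, Circle.norm_coe, Circle.norm_coe, one_mul], ?_⟩
  simp only [lb, lab, h1, h2, PiLp.smul_apply, smul_eq_mul]; ring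
theorem up_c {W : Type} [TopologicalSpace W] (s : ℝ) {ρ : ℂ × Y → W} (h : Continuous ρ) :
    Continuous (up s ρ) := h.comp (((lb_c s).comp continuous_fst).prodMk continuous_snd)
theorem Es_c {ρ : ℂ × Y → ℝ} (h : ContDiff ℝ ∞ ρ) (s : ℝ) :
    Continuous fun p : ℝ × S × Y => Es ρ s p.1 p.2 :=
  continuous_snd.snd.sub (continuous_fst.smul
    ((up_c s (vgr_smooth h).continuous).comp continuous_snd))
theorem up_rl {ρ : ℂ × Y → ℝ} (i : ∀ c ζ η, ‖c‖ = 1 → ρ (c * ζ, act c η) = ρ (ζ, η)) (s : ℝ)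
    {σ σ' : S} {c : ℂ} (η : Y) (h : Rl σ σ' c) : up s ρ (σ', act c η) = up s ρ (σ, η) := by
  rw [up, (lb_rl s h).2]; exact i _ _ _ (lb_rl s h).1
theorem Es_rl {ρ : ℂ × Y → ℝ} (h : ContDiff ℝ ∞ ρ)
    (i : ∀ c ζ η, ‖c‖ = 1 → ρ (c * ζ, act c η) = ρ (ζ, η)) (s ε : ℝ) : Ev (Es ρ s ε) :=
  fun σ σ' c η r => by
    obtain ⟨hc, e⟩ := lb_rl s r
    have := vgr_eqv h (actL hc) (fun y => i c (lb s σ).1 y hc) η
    change act c η - ε • vgr ρ ((lb s σ').1, actL hc η) = actL hc (η - ε • vgr ρ ((lb s σ).1, η))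
    rw [e, this, map_sub, map_smul]; rfl

variable {M : ℂ × P.V → P.V} (hL : Lk M)
include hL

theorem hi (ζ : ℂ) {y : Y} (h : 3 ≤ na y + nb y) :
    LL' M (ζ, y) = 999 / 1000 * na y + nc y - nb y / 1000 - 1 / 100 := by
  rw [hL.hi (ζ, y) h, rsq, ta_e]; ring
theorem ge (ζ : ℂ) (y : Y) : nc y - (na y + nb y) / 1000 - 1 / 100 ≤ LL' M (ζ, y) := hL.ge (ζ, y)
theorem ghi (ζ : ℂ) {y : Y} (h : 3 < na y + nb y) :
    vgr (LL' M) (ζ, y) = dg (999 / 500) (-(1 / 500)) 2 y := by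
  rw [hL.ghi (ζ, y) h]; simp only [dg_apply, qV_e, qW_e]; module
theorem glo (ζ : ℂ) {y : Y} (h : na y + nb y < 1) :
    vgr (LL' M) (ζ, y) = dg (-(1 / 500)) (999 / 500) 2 y := by
  rw [hL.glo (ζ, y) h]; simp only [dg_apply, qV_e, qW_e]; module
omit hL in
theorem LL_e (ζ : ℂ) {y : Y} (h : na y + nb y ≤ 4) : LL M (ζ, y) = LL' M (ζ, y) := by
  rw [LL', ta_e, Ee_z (sub_nonpos.2 h), sub_zero]
theorem gr_e (ζ : ℂ) {y : Y} (h : na y + nb y ≤ 4) : vgr (LL M) (ζ, y) = vgr (LL' M) (ζ, y) := by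
  rw [hL.gr, st, Real.smoothTransition.zero_of_nonpos (by rw [ta_e]; linarith), mul_zero, zero_smul,
    add_zero]

theorem rest (ζ : ℂ) {y : Y} (h : LL' M (ζ, y) ≤ 0) (n : ‖y‖ ≤ 11) : ‖y - qW y‖ ≤ 2 := by
  have a := pow_le_pow_left₀ (norm_nonneg y) n 2
  have := na0 y; have := nb0 y; have := nc0 y
  rw [nsq] at a
  rw [r_le]
  rcases le_total 3 (na y + nb y) with t | t
  · rw [hi hL ζ t] at h; linarith
  · have := ge hL ζ y; linarith

theorem sqz (ζ : ℂ) {t : ℝ} (ht : t ∈ Icc (0 : ℝ) 1) (y : Y) :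
    LL' M (ζ, vp' t y) ≤ LL' M (ζ, y) ∧ (‖y - qW y‖ ≤ 2 → ‖vp' t y - qW (vp' t y)‖ ≤ 2) := by
  rcases le_total ‖pw y‖ (9 / 5) with a | a
  · rw [vp'_lo t a]; exact ⟨le_rfl, id⟩
  have b := nb_ge (by norm_num) a
  have := na0 y; have := na0 (vp' t y); have := nc0 y
  have e1 : na (vp' t y) ≤ na y := by
    rw [vp'_e, na_dg]; exact mul_le_of_le_one_left (na0 y) (lam ht _)
  have e2 : nb (vp' t y) = nb y := by rw [nb, pw_vp', nb]
  have e3 : nc (vp' t y) ≤ nc y := by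
    rw [vp'_e, nc_dg]; exact mul_le_of_le_one_left (nc0 y) (lam ht _)
  rw [hi hL ζ (by linarith), hi hL ζ (by linarith), r_le, r_le]
  exact ⟨by linarith, fun _ => by linarith⟩

theorem step (ζ : ℂ) {η : ℝ} (h0 : 0 ≤ η) (h4 : η ≤ 1 / 4) {y : Y} (h : LL' M (ζ, y) ≤ 0)
    (r : ‖y - qW y‖ ≤ 2) {x : Y} (hx : x = y - η • vgr (LL' M) (ζ, y))
    (ly : ‖y‖ ≤ 10 → ‖x - y‖ ≤ 1 / 100 ∧
      LL' M (ζ, x) ≤ LL' M (ζ, y) - η / 2 * ‖vgr (LL' M) (ζ, y)‖ ^ 2) :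
    ‖x - qW x‖ ≤ 2 ∧ LL' M (ζ, x) ≤ LL' M (ζ, y) ∧
      (0 < η → vgr (LL' M) (ζ, y) ≠ 0 → LL' M (ζ, x) < LL' M (ζ, y)) := by
  rcases le_total ‖y‖ 10 with a | a
  · obtain ⟨l1, l2⟩ := ly a
    have : 0 ≤ η / 2 * ‖vgr (LL' M) (ζ, y)‖ ^ 2 := by positivity
    refine ⟨rest hL ζ (by linarith) ?_, by linarith, fun p q => ?_⟩
    · linarith [norm_le_norm_add_norm_sub' x y]
    · have : 0 < η / 2 * ‖vgr (LL' M) (ζ, y)‖ ^ 2 := by have := norm_pos_iff.2 q; positivity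
      linarith
  have b := pow_le_pow_left₀ (by norm_num) a 2
  have := na0 y; have := nc0 y; have := na0 x
  rw [nsq] at b
  rw [r_le] at r ⊢
  rw [ghi hL ζ (by linarith), sub_dg] at hx
  have e1 : na x ≤ na y := by
    rw [hx, na_dg]; exact mul_le_of_le_one_left (na0 y) (by nlinarith)
  have e3 : nc x ≤ nc y := by
    rw [hx, nc_dg]; exact mul_le_of_le_one_left (nc0 y) (by nlinarith)
  have e2 : nb y + η / 250 * nb y ≤ nb x := by
    rw [hx, nb_dg]; nlinarith [mul_nonneg (sq_nonneg η) (nb0 y)]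
  have e4 : 0 ≤ η / 250 * nb y := mul_nonneg (by linarith) (nb0 y)
  rw [hi hL ζ (y := x) (by linarith), hi hL ζ (y := y) (by linarith)]
  refine ⟨by linarith, by linarith, fun p _ => ?_⟩
  have : 0 < η / 250 * nb y := mul_pos (by linarith) (by linarith)
  linarith

theorem crit (ζ : ℂ) {y : Y} (h : LL' M (ζ, y) ≤ 0) (e : vgr (LL' M) (ζ, y) = 0) : y = 0 := by
  have := na0 y; have := nb0 y
  rcases lt_or_ge 3 (na y + nb y) with t | t
  · rw [ghi hL ζ t] at e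
    have a := na_dg (999 / 500) (-(1 / 500)) 2 y
    have b := nb_dg (999 / 500) (-(1 / 500)) 2 y
    rw [e] at a b
    have a0 : na 0 = 0 := by rw [na, ← pvL_apply, map_zero]; simp
    have b0 : nb 0 = 0 := by rw [nb, ← pwL_apply, map_zero]; simp
    linarith
  rcases hL.cr (ζ, y) (by rw [LL_e ζ (by linarith)]; linarith)
    (by rw [gr_e hL ζ (by linarith), e]) with a | ⟨-, -, a⟩
  · exact a
  · rw [st, Real.smoothTransition.zero_of_nonpos (by change 10 * (nb y - 4) ≤ 0; linarith)] at a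
    norm_num at a

theorem ta4 (ζ : ℂ) {y : Y} (h : LL' M (ζ, y) ≤ 0) (a : ‖pw y‖ ≤ 2) :
    na (vp' 1 y) + nb (vp' 1 y) ≤ 4 := by
  have e2 : nb (vp' 1 y) = nb y := by rw [nb, pw_vp', nb]
  have := nb_le a
  rcases le_total (19 / 10) ‖pw y‖ with b | b
  · have : na (vp' 1 y) = 0 := by rw [vp'_e, na_dg, chi1 b]; ring
    linarith
  have e1 : na (vp' 1 y) ≤ na y := by
    rw [vp'_e, na_dg]; exact mul_le_of_le_one_left (na0 y) (lam ⟨zero_le_one, le_rfl⟩ _)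
  have := nb_le b
  have := nc0 y
  rcases le_total 3 (na y + nb y) with t | t
  · rw [hi hL ζ t] at h; linarith
  · linarith

end Gu

open Gu Ll A.Rs in
theorem rgu : RGU := fun M s τ r hL hτ hr => by
  obtain ⟨ε₁, p1, ly⟩ := hL.ly s
  have τ0 := tau0 hτ
  refine ⟨min ε₁ (1 / 4), by positivity, fun ε p le hT => ?_⟩
  have l1 := le.trans (min_le_left _ _)
  have l4 := le.trans (min_le_right _ _)
  have ex (z : S × Y) (h : 2 ≤ ‖pw z.2‖) : e1 M s ε τ r z = (1 + ε / 500) • qW z.2 := by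
    rw [e1]; split_ifs with a
    exacts [hT z (by linarith) a, rfl]
  let D : Set (S × Y) := {z | up s (LL' M) z ≤ 0 ∧ ‖z.2 - qW z.2‖ ≤ 2}
  let J : ℝ × S × Y → Y := fun q =>
    Es (LL' M) s (Pm.cl q.1 * ε) (q.2.1, vp' (Pm.cl q.1) q.2.2)
  have hJ t (ht : t ∈ Icc (0 : ℝ) 1) z : J (t, z) = Es (LL' M) s (t * ε) (z.1, vp' t z.2) := by
    simp only [J, Pm.cl_of_mem ht]
  have key t (ht : t ∈ Icc (0 : ℝ) 1) z (hz : z ∈ D) : ‖J (t, z) - qW (J (t, z))‖ ≤ 2 ∧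
      up s (LL' M) (z.1, J (t, z)) ≤ up s (LL' M) z ∧ (0 < t → z.2 ≠ 0 →
        up s (LL' M) (z.1, J (t, z)) < up s (LL' M) z) := by
    obtain ⟨q1, q2⟩ := sqz hL (lb s z.1).1 ht z.2
    have t0 : 0 ≤ t * ε := mul_nonneg ht.1 p.le
    have t1 : t * ε ≤ ε := mul_le_of_le_one_left p.le ht.2
    obtain ⟨k1, k2, k3⟩ := step hL (lb s z.1).1 t0 (t1.trans l4) (q1.trans hz.1) (q2 hz.2)
      (hJ t ht z) fun n => by
        have := ly _ t0 (t1.trans l1) (z.1, vp' t z.2) n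
        rw [hJ t ht]; exact ⟨this.2.1, this.2.2.2⟩
    refine ⟨k1, k2.trans q1, fun a b => (k3 (mul_pos a p) fun e => b ?_).trans_le q1⟩
    have c := crit hL _ (q1.trans hz.1) e
    have d : pw z.2 = 0 := by rw [← pw_vp' t, c, ← pwL_apply, map_zero]
    rwa [vp'_lo t (by rw [d, norm_zero]; norm_num)] at c
  have o1 : (1 : ℝ) ∈ Icc (0 : ℝ) 1 := ⟨zero_le_one, le_rfl⟩
  have j1 z (hz : z ∈ D) : J (1, z) = e1 M s ε τ r z := by
    rw [hJ 1 o1, one_mul]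
    rcases le_total 2 ‖pw z.2‖ with a | a
    · have b := nb_ge two_pos.le a
      have e : vp' 1 z.2 = dg 0 1 0 z.2 := by rw [vp'_e, chi1 (by linarith)]; norm_num
      rw [ex z a, sm_qW, e]
      change _ - ε • vgr (LL' M) (_, dg 0 1 0 z.2) = _
      rw [ghi hL _ (by rw [na_dg, nb_dg]; linarith), sub_dg, dg_dg]
      congr 2 <;> ring
    · have t4 := ta4 hL _ hz.1 a
      rw [e1, if_pos a, f1, vp_vp' τ0 1 a, hr.id (z.1, vp' 1 z.2)
        ((LL_e _ t4).trans_le ((sqz hL _ o1 _).1.trans hz.1))]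
      exact congrArg (fun v => vp' 1 z.2 - ε • v) (gr_e hL _ t4).symm
  refine ⟨D, J, fun z => ε * (up s (LL' M) z + 1 / 100), p, l4, ?_, fun σ σ' c η h => ?_, ex, ?_,
    fun σ σ' c η h => ?_, fun z => ?_, fun z hz => hz.2, ?_, fun t σ σ' c η h => ?_, fun z => ?_, j1,
    fun t ht z hz => ⟨(key t ht z hz).2.1.trans hz.1, (key t ht z hz).1⟩, fun t ht z hz => ?_,
    fun t ht z hz a => ?_, ?_, fun σ σ' c η h => ?_, fun z hz a => ?_, fun b => ?_, fun z n => ?_⟩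
  · have c : Continuous fun z : S × Y => (1 + ε / 500) • qW z.2 :=
      (qW_c.comp continuous_snd).const_smul (1 + ε / 500)
    refine Continuous.if_le ?_ c
      (pw_sm.continuous.comp continuous_snd).norm continuous_const
      fun z a => hT z (by linarith) a.le
    exact (Es_c hL.lv.sm s).comp (continuous_const.prodMk (continuous_fst.prodMk (hr.ct.comp
      (continuous_fst.prodMk ((vp_c τ0 1).comp continuous_snd)))))
  · have hc := (lb_rl s h).1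
    simp only [e1, n_act hc]
    split_ifs
    · simp only [f1]
      rw [vp_act hc, hr.eq _ _ _ _ h, Es_rl hL.lv.sm hL.lv.inv s ε _ _ _ _ h]
    · rw [sm_qW, sm_qW, dg_act]
  · exact (isClosed_le (up_c s hL.sm'.continuous) continuous_const).inter
      (isClosed_le (continuous_snd.sub (qW_c.comp continuous_snd)).norm continuous_const)
  · simp only [D, mem_ofPred_eq, up_rl hL.inv' s η h, r_act (lb_rl s h).1]
  · rcases le_total 2 ‖pw z.2‖ with a | a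
    · have b := nb_ge two_pos.le a
      have c : nb z.2 ≤ (1 + ε / 500) ^ 2 * nb z.2 :=
        le_mul_of_one_le_left (nb0 _) (one_le_pow₀ (by linarith))
      rw [ex z a, sm_qW]
      refine ⟨(hi hL _ (by rw [na_dg, nb_dg]; linarith)).trans_le ?_, r_le.2 ?_⟩ <;>
        simp only [na_dg, nb_dg, nc_dg] <;> linarith
    · rw [e1, if_pos a, f1]
      have i := hr.inn (z.1, vp τ 1 z.2)
      obtain ⟨-, -, k, -⟩ := ly ε p.le l1 (z.1, r (z.1, vp τ 1 z.2))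
        ((hL.bd _ (i.trans (by norm_num))).trans (by norm_num))
      have k0 := k.trans ((sub_le_self _ (by positivity)).trans i)
      have k1 : LL' M ((lb s z.1).1, Es (LL M) s ε (z.1, r (z.1, vp τ 1 z.2))) ≤ 0 :=
        (sub_le_self _ (Ee_nn _)).trans k0
      exact ⟨k1, rest hL _ k1 ((hL.bd _ (k0.trans (by norm_num))).trans (by norm_num))⟩
  · exact (Es_c hL.sm' s).comp (((Pm.cont_cl continuous_fst).mul continuous_const).prodMk
      (continuous_snd.fst.prodMk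
        (vp'_c.comp ((Pm.cont_cl continuous_fst).prodMk continuous_snd.snd))))
  · simp only [J]
    rw [vp'_act (lb_rl s h).1, Es_rl hL.sm' hL.inv' s _ _ _ _ _ h]
  · rw [hJ 0 ⟨le_rfl, zero_le_one⟩]
    simp [Es, vp']
  · exact mul_le_mul_of_nonneg_left (by linarith [(key t ht z hz).2.1]) p.le
  · have b := nb_ge two_pos.le a
    have t0 : 0 ≤ t * ε := mul_nonneg ht.1 p.le
    rw [hJ t ht]
    change _ ≤ ‖pw (vp' t z.2 - (t * ε) • vgr (LL' M) (_, vp' t z.2))‖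
    rw [ghi hL _ (by rw [nb, pw_vp']; linarith [na0 (vp' t z.2), show nb z.2 = ‖pw z.2‖ ^ 2 from rfl]),
      sub_dg, pw_dg, pw_vp', norm_smul, Real.norm_of_nonneg (by linarith)]
    exact le_mul_of_one_le_left (norm_nonneg _) (by linarith)
  · exact continuous_const.mul ((up_c s hL.sm'.continuous).add continuous_const)
  · simp only [up_rl hL.inv' s η h]
  · rw [← j1 z hz]
    exact mul_lt_mul_of_pos_left (by linarith [(key 1 o1 z hz).2.2 one_pos a]) p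
  · refine ⟨5000 + 1000 * |b / ε|, fun z hz h => ?_⟩
    have a := r_le.1 hz.2
    have c := nsq z.2
    have := na0 z.2; have := nc0 z.2; have := abs_nonneg (b / ε); have := le_abs_self (b / ε)
    have d : -(b / ε) ≤ up s (LL' M) z + 1 / 100 := by
      rw [← neg_div, div_le_iff₀ p, mul_comm]; exact h
    have e : ‖z.2‖ ≤ 1 + ‖z.2‖ ^ 2 := by nlinarith [sq_nonneg (‖z.2‖ - 1)]
    rcases le_total 3 (na z.2 + nb z.2) with t | t
    · have := hi hL (lb s z.1).1 t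
      change _ ≤ LL' M ((lb s z.1).1, z.2) + _ at d
      linarith
    · linarith
  · have a := pow_le_pow_left₀ (norm_nonneg _) n 2
    have := na0 z.2; have := nb0 z.2; have := nc0 z.2
    rw [nsq] at a
    have e : up s (LL' M) z = nb z.2 + nc z.2 - (na z.2 + nb z.2) / 1000 - 1 / 100 :=
      (hL.lo (_, z.2) (by rw [ta_e]; linarith)).trans (by rw [rsq', ta_e])
    refine ⟨⟨by linarith, r_le.2 (by linarith)⟩, ?_, fun t ht => ?_⟩
    · simp only [e, H0_e, real_inner_smul_left, inner_dg, real_inner_self_eq_norm_sq, na, nb, nc]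
      ring
    · have : ‖pw z.2‖ ≤ 9 / 5 := by 
        nlinarith [norm_nonneg (pw z.2), show nb z.2 = ‖pw z.2‖ ^ 2 from rfl]
      rw [hJ t ht, vp'_lo t this, H0_e, smul_smul, ← glo hL (lb s z.1).1 (by linarith)]
      rfl

end Crest.Agent.N218.Pc

end
end

-- ▼ part N218/Pc/Rgd
section

/-! Row 218, block PIECE: the gradient-like structure descends (helper36). -/

set_option autoImplicit false
set_option linter.unusedVariables false
open Set Topology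
open scoped RealInnerProductSpace

noncomputable section

namespace Crest.Agent.N218.Pc.Rg
open P Sk

theorem le_of_sq {a b : ℝ} (h : 0 ≤ b) (k : a ^ 2 ≤ b ^ 2) : a ≤ b := abs_le_of_sq_le_sq' k h |>.2

/-- `qV` as a linear map -/
def qVL : Y →L[ℝ] Y := LinearMap.toContinuousLinearMap
  { toFun := qV
    map_add' := fun a b => by apply Y_ext <;> simp [qV]
    map_smul' := fun c a => by apply Y_ext <;> simp [qV] }
/-- `qW` as a linear map -/
def qWL : Y →L[ℝ] Y := LinearMap.toContinuousLinearMap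
  { toFun := qW
    map_add' := fun a b => by apply Y_ext <;> simp [qW]
    map_smul' := fun c a => by apply Y_ext <;> simp [qW] }
theorem qWL_eq (η : Y) : qWL η = qW η := rfl
/-- `H0` as a linear map -/
def H0L (ε : ℝ) : Y →L[ℝ] Y := (2 * ε) • (1 - qVL) - (ε / 500) • (qVL + qWL)
theorem H0L_eq (ε : ℝ) (η : Y) : H0L ε η = H0 ε η := rfl

theorem qV_act (c : ℂ) (η : Y) : qV (act c η) = act c (qV η) := by
  apply Y_ext <;> simp [qV, act]
theorem qW_act (c : ℂ) (η : Y) : qW (act c η) = act c (qW η) := by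
  apply Y_ext <;> simp [qW, act]
theorem H0_act (ε : ℝ) (c : ℂ) (η : Y) : H0 ε (act c η) = act c (H0 ε η) := by
  simp only [H0, act_sub, act_smul, act_add, qV_act, qW_act]
theorem qW_qW (η : Y) : qW (qW η) = qW η := by apply Y_ext <;> simp [qW]
theorem n_qW (η : Y) : ‖qW η‖ = ‖pw η‖ := by
  have : ‖qW η‖ ^ 2 = ‖pw η‖ ^ 2 := by rw [Y_sq, V_sq]; simp [qW, pw]
  exact (pow_left_inj₀ (norm_nonneg _) (norm_nonneg _) two_ne_zero).1 this
theorem n_qW_le (η : Y) : ‖qW η‖ ≤ ‖η‖ := by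
  refine le_of_sq (norm_nonneg _) ?_
  rw [Y_sq, Y_sq η]; simp [qW]; nlinarith [sq_nonneg ‖η 0‖, sq_nonneg ‖η 1‖, sq_nonneg ‖η 4‖]
theorem qV_sym (a b : Y) : ⟪qV a, b⟫ = ⟪a, qV b⟫ := by
  simp [PiLp.inner_apply, Fin.sum_univ_five, qV]
theorem qW_sym (a b : Y) : ⟪qW a, b⟫ = ⟪a, qW b⟫ := by
  simp [PiLp.inner_apply, Fin.sum_univ_five, qW]
theorem H0_sym (ε : ℝ) (a b : Y) : ⟪H0 ε a, b⟫ = ⟪a, H0 ε b⟫ := by
  simp only [H0, inner_sub_left, inner_sub_right, inner_add_left, inner_add_right,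
    real_inner_smul_left, real_inner_smul_right, qV_sym, qW_sym]
theorem H0_qV (ε : ℝ) (η : Y) : H0 ε (qV η) = -(ε / 500) • qV η := by
  apply Y_ext <;> simp [H0, qV, qW]
theorem qV_H0 (ε : ℝ) (η : Y) : qV (H0 ε η) = -(ε / 500) • qV η := by
  apply Y_ext <;> simp [H0, qV, qW]
theorem n_H0 {ε : ℝ} (h0 : 0 < ε) (h1 : ε ≤ 1 / 4) (η : Y) : ‖H0 ε η‖ ^ 2 ≤ 1 / 4 * ‖η‖ ^ 2 := by
  have e : H0 ε η = !₂[-(ε / 500) • η 0, -(ε / 500) • η 1, (2 * ε - ε / 500) • η 2,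
      (2 * ε - ε / 500) • η 3, (2 * ε) • η 4] := by
    apply Y_ext <;> simp [H0, qV, qW] <;> ring
  have k : ∀ (t : ℝ) (z : ℂ), |t| ≤ 1 / 2 → ‖t • z‖ ^ 2 ≤ 1 / 4 * ‖z‖ ^ 2 := fun t z h => by
    rw [norm_smul, mul_pow, Real.norm_eq_abs]
    exact mul_le_mul_of_nonneg_right (by nlinarith [abs_nonneg t]) (sq_nonneg _)
  have a := k (-(ε / 500)) (η 0) (by rw [abs_le]; constructor <;> linarith)
  have b := k (-(ε / 500)) (η 1) (by rw [abs_le]; constructor <;> linarith)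
  have c := k (2 * ε - ε / 500) (η 2) (by rw [abs_le]; constructor <;> linarith)
  have d := k (2 * ε - ε / 500) (η 3) (by rw [abs_le]; constructor <;> linarith)
  have f := k (2 * ε) (η 4) (by rw [abs_le]; constructor <;> linarith)
  rw [e, Y_sq, Y_sq η]
  change ‖-(ε / 500) • η 0‖ ^ 2 + ‖-(ε / 500) • η 1‖ ^ 2 + ‖(2 * ε - ε / 500) • η 2‖ ^ 2 +
    ‖(2 * ε - ε / 500) • η 3‖ ^ 2 + ‖(2 * ε) • η 4‖ ^ 2 ≤ _
  linarith

theorem cm_le {E : Type} [NormedAddCommGroup E] [NormedSpace ℝ E] (e : E) : ‖cm e‖ ≤ 1 / 2 := by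
  have p : 0 < 2 * max 1 ‖e‖ := by positivity
  rw [cm, norm_smul, norm_inv, Real.norm_of_nonneg p.le, inv_mul_le_iff₀ p]
  linarith [le_max_right 1 ‖e‖]
theorem cm_eq {E : Type} [NormedAddCommGroup E] [NormedSpace ℝ E] {e : E} (h : ‖e‖ ≤ 1) :
    cm e = (1 / 2 : ℝ) • e := by rw [cm, max_eq_left h]; norm_num
theorem cm_ct {E : Type} [NormedAddCommGroup E] [NormedSpace ℝ E] : Continuous (cm : E → E) :=
  ((continuous_const.mul (continuous_const.max continuous_norm)).inv₀ fun e =>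
    (by positivity : 0 < 2 * max 1 ‖e‖).ne').smul continuous_id

variable {n : ℕ} (B : Emb n)

theorem rl_norm {σ σ' : S} {c : ℂ} (h : Rl σ σ' c) : ‖c‖ = 1 := by
  obtain ⟨t, t', -, -, rfl⟩ := h; rw [norm_mul, Circle.norm_coe, Circle.norm_coe, one_mul]

theorem i'_rl {σ σ' : S} {c : ℂ} (h : Rl σ σ' c) (y : Cn n) : B.ι' σ' y = act c (B.ι' σ y) := by
  refine ext_inner_left ℝ fun v => ?_
  obtain ⟨η, rfl⟩ := (actL (rl_norm h)).surjective v
  change ⟪act c η, _⟫ = ⟪act c η, _⟫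
  rw [← B.ad, B.eq σ σ' c η h, B.ad, inner_act (rl_norm h)]

theorem pp_rl {σ σ' : S} {c : ℂ} (h : Rl σ σ' c) (y : Cn n) : B.pp σ' y = B.pp σ y := by
  rw [Emb.pp, Emb.pp, i'_rl B h, B.eq σ σ' c _ h]

theorem quot (T : Type) [TopologicalSpace T] : IsQuotientMap (Prod.map B.hp (id : T → T)) :=
  (B.hc.isProperMap.prodMap isProperMap_id).isClosedMap.isQuotientMap (B.hc.prodMap continuous_id)
    ((Function.RightInverse.surjective B.hl).prodMap Function.surjective_id)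

/-- invariant functions descend -/
theorem desc {T Z : Type} [TopologicalSpace T] [TopologicalSpace Z] {F : S × T → Z}
    (hF : Continuous F) (h : ∀ σ σ' c t, Rl σ σ' c → F (σ', t) = F (σ, t)) :
    Continuous fun z : X22 × T => F (B.lf z.1, z.2) := by
  rw [(quot B T).continuous_iff]
  refine hF.congr fun z => ?_
  obtain ⟨c, r⟩ := B.rl (B.lf (B.hp z.1)) z.1 (B.hl _)
  exact h _ _ c z.2 r

theorem n_i (σ : S) (η : Y) : ‖B.ι σ η‖ = ‖η‖ := by
  have : ‖B.ι σ η‖ ^ 2 = ‖η‖ ^ 2 := by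
    rw [← real_inner_self_eq_norm_sq, ← real_inner_self_eq_norm_sq, B.ad, B.li]
  exact (pow_left_inj₀ (norm_nonneg _) (norm_nonneg _) two_ne_zero).1 this
theorem i'_pp (σ : S) (y : Cn n) : B.ι' σ (B.pp σ y) = 0 := by
  rw [Emb.pp, map_sub, B.li, sub_self]
theorem i'_mk (σ : S) (η : Y) (t : ℝ) (y : Cn n) : B.ι' σ (B.ι σ η + t • B.pp σ y) = η := by
  rw [map_add, map_smul, B.li, i'_pp, smul_zero, add_zero]
theorem pp_mk (σ : S) (η : Y) (t : ℝ) (y : Cn n) :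
    B.pp σ (B.ι σ η + t • B.pp σ y) = t • B.pp σ y := by
  rw [Emb.pp, i'_mk, add_sub_cancel_left]
theorem split (σ : S) (y : Cn n) : B.ι σ (B.ι' σ y) + B.pp σ y = y := by
  rw [Emb.pp, add_sub_cancel]
theorem in_mk (σ : S) (η : Y) (t : ℝ) (y y' : Cn n) : ⟪B.ι σ η + t • B.pp σ y, y'⟫ =
    ⟪η, B.ι' σ y'⟫ + t * ⟪B.pp σ y, B.pp σ y'⟫ := by
  have : ⟪B.pp σ y, B.ι σ (B.ι' σ y')⟫ = 0 := by
    rw [real_inner_comm, B.ad, i'_pp, inner_zero_right]
  rw [inner_add_left, B.ad, real_inner_smul_left, Emb.pp.eq_1 B σ y', inner_sub_right, this, sub_zero]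
theorem n_mk (σ : S) (η : Y) (t : ℝ) (y : Cn n) :
    ‖B.ι σ η + t • B.pp σ y‖ ^ 2 = ‖η‖ ^ 2 + t ^ 2 * ‖B.pp σ y‖ ^ 2 := by
  rw [← real_inner_self_eq_norm_sq, in_mk, i'_mk, pp_mk, real_inner_smul_right,
    real_inner_self_eq_norm_sq, real_inner_self_eq_norm_sq]; ring
theorem pyth (σ : S) (y : Cn n) : ‖y‖ ^ 2 = ‖B.ι' σ y‖ ^ 2 + ‖B.pp σ y‖ ^ 2 := by
  have := n_mk B σ (B.ι' σ y) 1 y
  rwa [one_smul, split, one_pow, one_mul] at this
theorem n_i' (σ : S) (y : Cn n) : ‖B.ι' σ y‖ ≤ ‖y‖ :=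
  le_of_sq (norm_nonneg _) (by rw [pyth B σ y]; nlinarith [sq_nonneg ‖B.pp σ y‖])
theorem n_pp (σ : S) (y : Cn n) : ‖B.pp σ y‖ ≤ ‖y‖ :=
  le_of_sq (norm_nonneg _) (by rw [pyth B σ y]; nlinarith [sq_nonneg ‖B.ι' σ y‖])
theorem p1 (x : X22) (y : Cn n) : B.π₁ x y = B.ι (B.lf x) (qW (B.ι' (B.lf x) y)) := by
  rw [← B.e₁, B.hl]
theorem p2 (x : X22) (y : Cn n) : B.π₂ x y = B.ι (B.lf x) (qV (B.ι' (B.lf x) y)) := by
  rw [← B.e₂, B.hl]
theorem n_p1 (x : X22) (y : Cn n) : ‖B.π₁ x y‖ = ‖pw (B.ι' (B.lf x) y)‖ := by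
  rw [p1, n_i, n_qW]
theorem i'_ct : Continuous fun z : S × Cn n => B.ι' z.1 z.2 :=
  (B.ic'.comp continuous_fst).clm_apply continuous_snd
theorem pp_ct : Continuous fun z : S × Cn n => B.pp z.1 z.2 :=
  continuous_snd.sub ((B.ic.comp continuous_fst).clm_apply (i'_ct B))

/-- the descended structure -/
def rg (ε : ℝ) (e : S × Y → Y) (D : Set (S × Y)) (J : ℝ × S × Y → Y) (g : S × Y → ℝ) :
    Rd.Rg X22 (Cn n) (Cn n) where
  p₁ x := (B.π₁ x).restrictScalars ℝ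
  C _ := 0
  μ := 1 + ε / 500
  O := univ
  ph := cv (fun z => (1 + ε / 500) • B.π₁ z.1 z.2) (B.ds e)
  f := B.ds e
  Dm := {w | (B.lf w.1, B.ι' (B.lf w.1) w.2) ∈ D ∧ ‖B.pp (B.lf w.1) w.2‖ ≤ 1}
  j w := B.ι (B.lf w.2.1) (J (w.1, B.lf w.2.1, B.ι' (B.lf w.2.1) w.2.2)) +
    (1 - Pm.cl w.1 / 2) • B.pp (B.lf w.2.1) w.2.2
  g w := g (B.lf w.1, B.ι' (B.lf w.1) w.2) + 1 / 4 * ‖B.pp (B.lf w.1) w.2‖ ^ 2
  H x := (B.ι (B.lf x)).comp ((H0L ε).comp (B.ι' (B.lf x))) +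
    (1 / 2 : ℝ) • (1 - (B.ι (B.lf x)).comp (B.ι' (B.lf x)))
  ι x := (B.π₂ x).restrictScalars ℝ
  ι' x := (B.π₂ x).restrictScalars ℝ
  a := ε / 500
  r := 1 / 100

end Crest.Agent.N218.Pc.Rg

namespace Crest.Agent.N218.Pc
open P Sk Rg

attribute [local irreducible] pw qW qV act in
set_option maxHeartbeats 400000 in
theorem rgd : RGD := by
  intro n B ε e D J g h
  have e0 := h.ε0
  have cl01 : ∀ t, 0 ≤ Pm.cl t ∧ Pm.cl t ≤ 1 := fun t =>
    ⟨le_max_left _ _, max_le zero_le_one (min_le_left _ _)⟩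
  have cle : ∀ t ∈ Icc (0 : ℝ) 1, Pm.cl t = t := fun t ht => by
    rw [Pm.cl, min_eq_right ht.2, max_eq_right ht.1]
  have fe : ∀ w : X22 × Cn n, B.ds e w = B.ι (B.lf w.1) (e (B.lf w.1, B.ι' (B.lf w.1) w.2)) +
      (2 * max 1 ‖B.pp (B.lf w.1) w.2‖)⁻¹ • B.pp (B.lf w.1) w.2 := fun _ => rfl
  have He : ∀ x y, (rg B ε e D J g).H x y = B.ι (B.lf x) (H0 ε (B.ι' (B.lf x) y)) +
      (1 / 2 : ℝ) • B.pp (B.lf x) y := fun _ _ => rfl
  have fc : Continuous (B.ds e) :=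
    desc B (F := fun z : S × Cn n => B.ι z.1 (e (z.1, B.ι' z.1 z.2)) + cm (B.pp z.1 z.2))
      (((B.ic.comp continuous_fst).clm_apply (h.ec.comp (continuous_fst.prodMk (i'_ct B)))).add
        (cm_ct.comp (pp_ct B))) fun σ σ' c t r => by
      simp only [i'_rl B r, pp_rl B r, h.ee σ σ' c _ r, B.eq σ σ' c _ r]
  have gc : Continuous (rg B ε e D J g).g :=
    desc B (F := fun z : S × Cn n => g (z.1, B.ι' z.1 z.2) + 1 / 4 * ‖B.pp z.1 z.2‖ ^ 2)
      ((h.gc.comp (continuous_fst.prodMk (i'_ct B))).add (continuous_const.mul ((pp_ct B).norm.pow 2)))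
      fun σ σ' c t r => by simp only [i'_rl B r, pp_rl B r, h.gi σ σ' c _ r]
  have dc : IsClosed (rg B ε e D J g).Dm := by
    rw [← (quot B (Cn n)).isClosed_preimage]
    convert (h.dc.preimage (continuous_fst.prodMk (i'_ct B))).inter
      (isClosed_le (pp_ct B).norm (continuous_const (y := (1 : ℝ)))) using 1
    ext z
    obtain ⟨c, r⟩ := B.rl (B.lf (B.hp z.1)) z.1 (B.hl _)
    change _ ∧ _ ↔ (z.1, B.ι' z.1 z.2) ∈ D ∧ ‖B.pp z.1 z.2‖ ≤ 1
    rw [i'_rl B r, pp_rl B r, h.di _ _ c _ r]; rfl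
  have cc : Continuous fun w : (X22 × ℝ) × Cn n => Pm.cl w.1.2 := by unfold Pm.cl; fun_prop
  have pc : Continuous (rg B ε e D J g).ph :=
    ((continuous_const.sub cc).smul (((B.p₁.ct.comp continuous_fst.fst).clm_apply
      continuous_snd).const_smul (1 + ε / 500))).add
      (cc.smul (fc.comp (continuous_fst.fst.prodMk continuous_snd)))
  have rc : ∀ π : X22 → Cn n →L[ℂ] Cn n, Continuous π →
      Continuous fun x => (π x).restrictScalars ℝ := fun π hπ =>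
    continuous_clm_apply.2 fun y => hπ.clm_apply continuous_const
  have sm1 : ∀ x (t : ℝ) y, B.π₁ x (t • y) = t • B.π₁ x y := fun x t y =>
    ((B.π₁ x).restrictScalars ℝ).map_smul t y
  have p1f : ∀ w : X22 × Cn n, B.π₁ w.1 (B.ds e w) =
      B.ι (B.lf w.1) (qW (e (B.lf w.1, B.ι' (B.lf w.1) w.2))) := fun w => by
    rw [p1, fe, i'_mk]
  have fD : ∀ w : X22 × Cn n, (w.1, B.ds e w) ∈ (rg B ε e D J g).Dm := fun w => by
    refine ⟨?_, ?_⟩
    · change (B.lf w.1, B.ι' (B.lf w.1) (B.ds e w)) ∈ D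
      rw [fe, i'_mk]; exact h.fD (_, _)
    · change ‖B.pp (B.lf w.1) (B.ds e w)‖ ≤ 1
      rw [fe, pp_mk]; exact (cm_le _).trans (by norm_num)
  have db : ∀ w ∈ (rg B ε e D J g).Dm, ‖w.2 - B.π₁ w.1 w.2‖ ≤ 3 := fun w hw => by
    have a : w.2 - B.π₁ w.1 w.2 = B.ι (B.lf w.1) (B.ι' (B.lf w.1) w.2 - qW (B.ι' (B.lf w.1) w.2)) +
        B.pp (B.lf w.1) w.2 := by rw [p1, map_sub, Emb.pp]; abel
    rw [a]
    refine (norm_add_le _ _).trans ?_
    rw [n_i]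
    linarith [h.db _ hw.1, hw.2]
  have j1 : ∀ w ∈ (rg B ε e D J g).Dm, (rg B ε e D J g).j (1, w) = B.ds e w := fun w hw => by
    change B.ι _ (J (1, _)) + (1 - Pm.cl 1 / 2) • _ = B.ι _ _ + cm _
    rw [h.j1 _ hw.1, cm_eq hw.2, cle 1 ⟨zero_le_one, le_rfl⟩]; norm_num
  have ge : ∀ (x : X22) η (t : ℝ) y, (rg B ε e D J g).g (x, B.ι (B.lf x) η + t • B.pp (B.lf x) y) =
      g (B.lf x, η) + 1 / 4 * (t ^ 2 * ‖B.pp (B.lf x) y‖ ^ 2) := fun x η t y => by
    change g (_, B.ι' _ _) + 1 / 4 * ‖B.pp _ _‖ ^ 2 = _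
    rw [i'_mk, pp_mk, norm_smul, mul_pow, Real.norm_eq_abs, sq_abs]
  refine ⟨rg B ε e D J g, 0, ε / 500, 2, 3,
    { pc := rc _ B.p₁.ct
      pi := B.p₁.id
      pn := fun x y => ?_
      hμ := by change 1 < 1 + ε / 500; linarith
      hc := one_pos
      hκ := by positivity
      Cc := continuous_const
      Cn := fun _ => norm_zero.le
      Cp := fun _ _ => ⟨map_zero _, rfl⟩
      hp := ⟨isOpen_univ, pc.continuousOn, fun R => ?_, fun w _ => ?_, fun w _ hw => ?_,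
        fun x s y hs => ⟨trivial, ?_⟩⟩
      en := fun x s y hs => ⟨trivial, ?_⟩
      fc := fc
      dc := dc
      fD := fD
      db := db
      jc := ?_
      j0 := fun w => ?_
      j1 := j1
      jD := fun s hs w hw => ⟨?_, ?_⟩
      jg := fun s hs w hw => ?_
      jx := fun s hs w hw hx => ?_
      gc := gc
      gf := fun w hw h0 => ?_
      gk := fun b => ?_
      ha := by change 0 < ε / 500; positivity
      hr := by change (0 : ℝ) < 1 / 100; norm_num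
      Hc := continuous_clm_apply.2 fun y => ?_
      Hs := fun x y y' => ?_
      Hn := fun x y => ?_
      ic := rc _ B.p₂.ct
      ic' := rc _ B.p₂.ct
      ad := fun x z y => ?_
      iii := fun x z => (B.p₂.id x _).trans (B.p₂.id x z)
      HP := fun x y => ?_
      Hm := fun x z => ?_
      Hp := fun x y hy => ?_
      ln := fun x y hy => ?_ }, fun _ _ => rfl, B.p₂.id, rfl, rfl⟩
  · change ‖B.π₁ x y‖ ≤ _
    rw [p1, n_i]; exact (n_qW_le _).trans (n_i' B _ y)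
  · refine (((isCompact_univ (X := X22)).prod (isCompact_closedBall (0 : ℝ) R)).prod
      (isCompact_closedBall (0 : Cn n) R)).of_isClosed_subset (isClosed_univ.inter
        ((isClosed_le continuous_fst.snd.abs continuous_const).inter ((isClosed_le pc.norm
          continuous_const).inter (isClosed_le continuous_snd.norm continuous_const)))) ?_
    rintro w ⟨-, a, -, d⟩
    exact ⟨⟨trivial, mem_closedBall_zero_iff.2 a⟩, mem_closedBall_zero_iff.2 d⟩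
  · have a : (rg B ε e D J g).ph w - B.π₁ w.1.1 ((rg B ε e D J g).ph w) = Pm.cl w.1.2 •
        (B.ds e (w.1.1, w.2) - B.π₁ w.1.1 (B.ds e (w.1.1, w.2))) := by
      simp only [rg, cv, map_add, sm1, B.p₁.id]; module
    change ‖(rg B ε e D J g).ph w - B.π₁ w.1.1 ((rg B ε e D J g).ph w)‖ ≤ 3 + 0 * _
    have r := db _ (fD (w.1.1, w.2))
    dsimp only at r
    rw [a, norm_smul, Real.norm_of_nonneg (cl01 _).1]
    nlinarith [cl01 w.1.2, norm_nonneg (B.ds e (w.1.1, w.2) - B.π₁ w.1.1 (B.ds e (w.1.1, w.2)))]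
  · have hw' : 2 ≤ ‖B.π₁ w.1.1 w.2‖ := hw
    have u : B.π₁ w.1.1 (B.ds e (w.1.1, w.2)) = (1 + ε / 500) • B.π₁ w.1.1 w.2 := by
      rw [p1f (w.1.1, w.2), h.ex _ (by rwa [n_p1] at hw'), ← qWL_eq, map_smul, map_smul, qWL_eq,
        qW_qW, p1]
    have v : B.π₁ w.1.1 ((rg B ε e D J g).ph w) = (1 + ε / 500) • B.π₁ w.1.1 w.2 := by
      simp only [rg, cv, map_add, sm1, B.p₁.id, u]; module
    change (1 + ε / 500) * ‖B.π₁ w.1.1 w.2‖ ≤ ‖B.π₁ w.1.1 ((rg B ε e D J g).ph w)‖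
    rw [v, norm_smul, Real.norm_of_nonneg (by positivity)]
  · have : Pm.cl s = 0 := max_eq_left ((min_le_right _ _).trans hs)
    simp [rg, cv, this]
  · have : Pm.cl s = 1 := by rw [Pm.cl, min_eq_left hs, max_eq_right zero_le_one]
    simp [rg, cv, this]
  · have a : Continuous fun z : S × ℝ × Cn n => (z.1, z.2.2) := by fun_prop
    have b : Continuous fun z : S × ℝ × Cn n => 1 - Pm.cl z.2.1 / 2 := by unfold Pm.cl; fun_prop
    exact (desc B (F := fun z : S × ℝ × Cn n => B.ι z.1 (J (z.2.1, z.1, B.ι' z.1 z.2.2)) +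
      (1 - Pm.cl z.2.1 / 2) • B.pp z.1 z.2.2)
      (((B.ic.comp continuous_fst).clm_apply (h.jc.comp (continuous_snd.fst.prodMk
        (continuous_fst.prodMk ((i'_ct B).comp a))))).add (b.smul ((pp_ct B).comp a)))
      fun σ σ' c t r => by
        have := h.je t.1 σ σ' c (B.ι' σ t.2) r
        simp only [i'_rl B r, pp_rl B r] at this ⊢
        rw [this, B.eq σ σ' c _ r]).comp
      (by fun_prop : Continuous fun w : ℝ × X22 × Cn n => (w.2.1, w.1, w.2.2))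
  · change B.ι _ (J (0, _)) + (1 - Pm.cl 0 / 2) • _ = _
    rw [h.j0, cle 0 ⟨le_rfl, zero_le_one⟩, zero_div, sub_zero, one_smul, split]
  · change (B.lf w.1, B.ι' (B.lf w.1) (B.ι _ _ + _ • B.pp _ _)) ∈ D
    rw [i'_mk]; exact h.jD s hs _ hw.1
  · change ‖B.pp (B.lf w.1) (B.ι _ _ + _ • B.pp _ _)‖ ≤ 1
    rw [pp_mk, norm_smul, Real.norm_of_nonneg (by linarith [cl01 s])]
    nlinarith [cl01 s, hw.2, norm_nonneg (B.pp (B.lf w.1) w.2)]
  · change (rg B ε e D J g).g (w.1, B.ι (B.lf w.1) (J (s, B.lf w.1, B.ι' (B.lf w.1) w.2)) +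
      (1 - Pm.cl s / 2) • B.pp (B.lf w.1) w.2) ≤
      g (B.lf w.1, B.ι' (B.lf w.1) w.2) + 1 / 4 * ‖B.pp (B.lf w.1) w.2‖ ^ 2
    rw [ge]
    have a := h.jg s hs (B.lf w.1, B.ι' (B.lf w.1) w.2) hw.1
    dsimp only at a
    have : (1 - Pm.cl s / 2) ^ 2 ≤ 1 := by nlinarith [cl01 s]
    have := mul_le_mul_of_nonneg_right this (sq_nonneg ‖B.pp (B.lf w.1) w.2‖)
    linarith
  · change ‖B.π₁ w.1 w.2‖ ≤ ‖B.π₁ w.1 (B.ι _ _ + _ • B.pp _ _)‖
    have hx' : 2 ≤ ‖B.π₁ w.1 w.2‖ := hx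
    rw [n_p1] at hx'
    rw [n_p1, n_p1, i'_mk]
    have a := h.jx s hs (B.lf w.1, B.ι' (B.lf w.1) w.2) hw.1 (by dsimp only; exact hx')
    dsimp only at a
    exact a
  · change (rg B ε e D J g).g (w.1, B.ι (B.lf w.1) (e (B.lf w.1, B.ι' (B.lf w.1) w.2)) +
      cm (B.pp (B.lf w.1) w.2)) <
      g (B.lf w.1, B.ι' (B.lf w.1) w.2) + 1 / 4 * ‖B.pp (B.lf w.1) w.2‖ ^ 2
    rw [cm_eq hw.2, ge]
    by_cases z : B.ι' (B.lf w.1) w.2 = 0
    · have a := h.jg 1 ⟨zero_le_one, le_rfl⟩ _ hw.1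
      rw [h.j1 _ hw.1] at a
      dsimp only at a
      have b := pyth B (B.lf w.1) w.2
      rw [z, norm_zero] at b
      have : 0 < ‖w.2‖ ^ 2 := pow_pos (norm_pos_iff.2 h0) 2
      linarith
    · have a := h.gf _ hw.1 (by dsimp only; exact z)
      dsimp only at a
      linarith [sq_nonneg ‖B.pp (B.lf w.1) w.2‖]
  · obtain ⟨R, hR⟩ := h.gk (b + 1)
    refine ((isCompact_univ (X := X22)).prod (isCompact_closedBall (0 : Cn n)
      (R + 1))).of_isClosed_subset (dc.inter (isClosed_le continuous_const gc)) ?_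
    rintro w ⟨hw, d⟩
    refine ⟨trivial, mem_closedBall_zero_iff.2 ?_⟩
    have d' : -b ≤ g (B.lf w.1, B.ι' (B.lf w.1) w.2) + 1 / 4 * ‖B.pp (B.lf w.1) w.2‖ ^ 2 := d
    have p : ‖B.pp (B.lf w.1) w.2‖ ≤ 1 := hw.2
    have a := hR _ hw.1 (by nlinarith [norm_nonneg (B.pp (B.lf w.1) w.2)])
    dsimp only at a
    rw [← split B (B.lf w.1) w.2]
    refine (norm_add_le _ _).trans ?_
    rw [n_i]; exact add_le_add a p
  · exact (desc B (F := fun z : S × Cn n => B.ι z.1 (H0L ε (B.ι' z.1 z.2)) +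
      (1 / 2 : ℝ) • B.pp z.1 z.2)
      (((B.ic.comp continuous_fst).clm_apply ((H0L ε).continuous.comp (i'_ct B))).add
        ((pp_ct B).const_smul (1 / 2 : ℝ))) fun σ σ' c t r => by
        simp only [H0L_eq, i'_rl B r, pp_rl B r, H0_act, B.eq σ σ' c _ r]).comp
      (continuous_id.prodMk (continuous_const (y := y)))
  · rw [real_inner_comm _ y, He, He, in_mk, in_mk, H0_sym, real_inner_comm (B.ι' _ y),
      real_inner_comm (B.pp _ y)]
  · refine le_of_sq (by positivity) ?_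
    rw [He, n_mk, mul_pow, pyth B (B.lf x) y]
    linarith [n_H0 e0 h.ε1 (B.ι' (B.lf x) y)]
  · change ⟪B.π₂ x z, y⟫ = ⟪z, B.π₂ x y⟫
    rw [real_inner_comm _ z, p2, p2, B.ad, B.ad, qV_sym, real_inner_comm]
  · change (rg B ε e D J g).H x (B.π₂ x (B.π₂ x y)) = B.π₂ x (B.π₂ x ((rg B ε e D J g).H x y))
    rw [B.p₂.id, B.p₂.id, He, He, p2 B x (_ + _), i'_mk, p2, B.li, H0_qV, qV_H0, Emb.pp, B.li,
      sub_self, smul_zero, add_zero]
  · change ⟪(rg B ε e D J g).H x (B.π₂ x z), B.π₂ x z⟫ ≤ -(ε / 500 * ‖B.π₂ x z‖ ^ 2)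
    rw [He, in_mk, p2, B.li, H0_qV, n_i, Emb.pp, B.li, sub_self, real_inner_smul_left,
      real_inner_self_eq_norm_sq]
    simp
  · have z : qV (B.ι' (B.lf x) y) = 0 := by
      have : B.π₂ x y = 0 := hy
      rw [p2] at this
      rw [← B.li (B.lf x) (qV _), this, map_zero]
    rw [He, in_mk, real_inner_self_eq_norm_sq, H0, z, sub_zero, zero_add, inner_sub_left,
      real_inner_smul_left, real_inner_smul_left, real_inner_self_eq_norm_sq]
    have a := real_inner_le_norm (qW (B.ι' (B.lf x) y)) (B.ι' (B.lf x) y)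
    have b := mul_le_mul_of_nonneg_right (n_qW_le (B.ι' (B.lf x) y)) (norm_nonneg (B.ι' (B.lf x) y))
    nlinarith [sq_nonneg ‖B.pp (B.lf x) y‖, sq_nonneg ‖B.ι' (B.lf x) y‖]
  · have hy' : ‖y‖ ≤ 1 / 50 := by have : ‖y‖ ≤ 2 * (1 / 100) := hy; linarith
    obtain ⟨a, b, d⟩ := h.ln (B.lf x, B.ι' (B.lf x) y)
      (by dsimp only; exact (n_i' B _ y).trans hy')
    dsimp only at b d
    refine ⟨⟨a, ((n_pp B _ y).trans hy').trans (by norm_num)⟩, ?_, fun s hs => ?_⟩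
    · change g _ + 1 / 4 * ‖B.pp (B.lf x) y‖ ^ 2 = _
      rw [b, He, in_mk, real_inner_self_eq_norm_sq]; ring
    · change B.ι _ (J (s, _)) + (1 - Pm.cl s / 2) • B.pp (B.lf x) y = _
      rw [d s hs, He, cle s hs, map_sub, map_smul, Emb.pp]
      module

end Crest.Agent.N218.Pc
end
end

-- ▼ part N218/Pc/Fd

/-! Row 218, block PIECE (helper72): monotone radial maps have the invariant zero. -/

set_option autoImplicit false
open Set Topology
open scoped RealInnerProductSpace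

namespace Crest.Agent.N218.Pc
open Sk

/-- bounded families of cyclically monotone maps are good and have no free zero -/
theorem gf_cm {X E : Type} [TopologicalSpace X] [NormedAddCommGroup E] [InnerProductSpace ℝ E]
    {k : ℕ} (hk : 1 ≤ k) {f : X × E → E} (hf : Continuous f) {C : ℝ} (hC : ∀ z, ‖f z‖ ≤ C)
    (cm : ∀ x, CM k fun y => f (x, y)) : Gf k f ∧ ∀ z, z ∉ (Pm.Ec k univ f).Z := by
  have key : ∀ x (s : ℝ) (z : Pm.V k E), 0 ≤ s → Eqn (fun y => f (x, y)) s z → Pm.mn z = 0 :=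
    fun x s z s0 e => by rw [cm_const (cm x) e s0 fun _ => rfl, mn_const]
  exact ⟨⟨hf, ⟨0, C, LA.of_sym (fun _ _ => by simp) (fun _ h => h.symm) hk,
    fun z => by simpa using hC z⟩, 1, one_pos, fun x s z s0 _ e => key x s z s0
      fun i => sub_eq_zero.1 ((add_sub_right_comm _ _ _).trans (e i))⟩,
    fun z h => (mem_Z.1 h).1 (key _ _ _ (Real.exp_pos _).le (mem_Z.1 h).2)⟩

theorem fd : FD := by
  intro X E _ _ _ _ _ _ A _ T π μ m k hk hπ hm
  obtain ⟨C, hC⟩ := hm.bd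
  have c : Continuous fun z : X × E => π z.1 z.2 :=
    (hπ.ct.comp continuous_fst).clm_apply continuous_snd
  obtain ⟨g, z⟩ := gf_cm (k := k) (f := fun z : X × E => m ‖π z.1 z.2‖ • π z.1 z.2) (C := C)
    (by omega) ((hm.ct.comp c.norm).smul c)
    (fun z => by
      rw [norm_smul, Real.norm_of_nonneg (hm.nn _ (norm_nonneg _))]
      exact hC _ (norm_nonneg _))
    fun x => CM.radial (fun a b => by rw [hπ.sa x a (π x b), hπ.id, hπ.sa]) hm.nn hm.mono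
  exact ⟨g, T.pa_emp hk g.ok z⟩

end Crest.Agent.N218.Pc
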