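import Crest.Agent.N218.Sk.Fin
import Crest.Agent.N218.Sk.Stb
import Crest.Agent.N218.Sk.SatP
import Crest.Agent.N218.En.End_Mg
import Crest.Agent.N218.In.Gen
import Crest.Agent.N218.En.Sta_Mg
import Crest.Agent.N218.Rd.H2_Mg
import Crest.Agent.N218.A.TotI_Mg
import Crest.Agent.N218.En.Wrb1_Mg
import Crest.Agent.N218.Rd.H1a_Mg
import Crest.Agent.N218.En.Wra_Mg
import Crest.Agent.N218.D7.Rfl_Mg
import Crest.Agent.N218.D7.Sep_Mg
import Crest.Agent.N218.In.Stereo_Mg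
import Crest.Agent.N218.D7.Orbj_Mg
import Crest.Agent.N218.D6.Df2
import Crest.Agent.N218.D3.Geo
import Crest.Agent.N218.Pc.Defs
import Crest.Agent.N218.P.Kit

-- ▼ part N218/Sk/All
section

/-! Row 218 (helper40): the closed blocks. -/

set_option autoImplicit false

noncomputable section

namespace Crest.Agent.N218.Sk

theorem dyn0 : Rd.DYN := Rd.dyn Rd.dich Rd.uv Rd.h1a Rd.h1b Rd.h2
theorem red0 : Rd.RED := Rd.red dyn0 (Rd.trs Rd.tail)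
theorem endt0 : ENDT := En.endt_of En.gf En.dg En.trl En.jet En.sta En.ste En.sgn En.trv
  (En.wra En.ly) En.wrb En.dim En.cxe dyn0 red0
theorem d7t0 (h : D7.EXA) : D7T := d7t Pm.alg D7.dim D7.zer D7.rfl_ D7.deg D7.plh D7.rot D7.loc
  (D7.sep D7.plh) D7.nft D7.cht (D7.orbj K.dsum' h)

open scoped Manifold ContDiff in
open Crest.GeometryTopology.CotangentSpheres in
theorem all (h7 : D7.EXA) (h6 : D6.D6T) (hP : P.PIECE) (h3 : D3.D3T) :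
    ∃ m : ℕ, Odd m ∧ ∃ ι : Sph 9 × Sph m → Amb m, IsExactLagEmbedding m ι ∧
      ¬ ∃ F : ℝ → Sph 9 × Sph m → Amb m,
          ContMDiff (𝓘(ℝ, ℝ).prod ((𝓡 9).prod (𝓡 m))) 𝓘(ℝ, Amb m) ∞
              (fun p : ℝ × (Sph 9 × Sph m) => F p.1 p.2) ∧
            (∀ s, IsExactLagEmbedding m (F s)) ∧ F 0 = zeroSection m ∧
            Set.range (F 1) = Set.range ι :=
  fin K.inve' K.invd' In.gen In.pan In.cst stbt Pm.alg endt0 (d7t0 h7)
    (fun g p s J h => val_pcd sat (by norm_num) (h6 g p s J h)) (P.a4' P.ret1) hP h3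

end Crest.Agent.N218.Sk

end
end

-- ▼ part N218/Pc/Fin0

/-! Row 218, block PIECE (helper44): the glue. -/

set_option autoImplicit false
set_option linter.unusedVariables false
open Set Topology
open scoped ContDiff RealInnerProductSpace

noncomputable section

namespace Crest.Agent.N218.Pc.Fn
open P Sk

theorem qW_qW (η : Y) : qW (qW η) = qW η := Y_ext rfl rfl rfl rfl rfl
theorem qW_smul (c : ℝ) (η : Y) : qW (c • η) = c • qW η :=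
  Y_ext (by simp [qW]) (by simp [qW]) (by simp [qW]) (by simp [qW]) (by simp [qW])
theorem norm_qW (η : Y) : ‖qW η‖ = ‖pw η‖ :=
  (sq_eq_sq₀ (norm_nonneg _) (norm_nonneg _)).1 (by simp [Y_sq, V_sq, qW, pw])

theorem norm_cm {E : Type} [NormedAddCommGroup E] [NormedSpace ℝ E] (e : E) :
    ‖cm e‖ ≤ 1 / 2 * ‖e‖ := by
  have : (1 : ℝ) ≤ max 1 ‖e‖ := le_max_left _ _
  rw [cm, norm_smul, Real.norm_of_nonneg (by positivity)]
  refine mul_le_mul_of_nonneg_right ?_ (norm_nonneg _)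
  rw [one_div]
  exact inv_anti₀ two_pos (by linarith)

theorem norm_cm' {E : Type} [NormedAddCommGroup E] [NormedSpace ℝ E] (e : E) : ‖cm e‖ ≤ 1 := by
  have a : (1 : ℝ) ≤ max 1 ‖e‖ := le_max_left _ _
  have b : ‖e‖ ≤ max 1 ‖e‖ := le_max_right _ _
  rw [cm, norm_smul, Real.norm_of_nonneg (by positivity), inv_mul_le_iff₀ (by positivity)]
  linarith

variable {n : ℕ} (B : Emb n)

theorem norm_i (σ : S) (η : Y) : ‖B.ι σ η‖ = ‖η‖ :=
  (sq_eq_sq₀ (norm_nonneg _) (norm_nonneg _)).1 (by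
    rw [← real_inner_self_eq_norm_sq, ← real_inner_self_eq_norm_sq, B.ad, B.li])

theorem i_pp (σ : S) (e : Cn n) : B.ι' σ (B.pp σ e) = 0 := by
  rw [Emb.pp, map_sub, B.li, sub_self]

theorem i_am (σ : S) (f : Y → Y) (e : Cn n) : B.ι' σ (B.am σ f e) = f (B.ι' σ e) := by
  rw [Emb.am, map_add, B.li, cm, map_smul, i_pp, smul_zero, add_zero]

theorem pi_eq (x : X22) (e : Cn n) : B.π₁ x e = B.ι (B.lf x) (qW (B.ι' (B.lf x) e)) := by
  rw [← B.e₁, B.hl]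

theorem norm_pi (x : X22) (e : Cn n) : ‖B.π₁ x e‖ = ‖pw (B.ι' (B.lf x) e)‖ := by
  rw [pi_eq, norm_i, norm_qW]

theorem pp_le (σ : S) (e : Cn n) (η : Y) : ‖B.pp σ e‖ ≤ ‖e - B.ι σ η‖ := by
  have a : e - B.ι σ η = B.ι σ (B.ι' σ e - η) + B.pp σ e := by rw [Emb.pp, map_sub]; abel
  have b := norm_add_sq_real (B.ι σ (B.ι' σ e - η)) (B.pp σ e)
  rw [B.ad, i_pp, inner_zero_right, ← a] at b
  exact abs_le_of_sq_le_sq' (by nlinarith [sq_nonneg ‖B.ι σ (B.ι' σ e - η)‖]) (norm_nonneg _) |>.2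

theorem bd_ds {f : S × Y → Y} (h : ∃ C, ∀ z, ‖f z‖ ≤ C) : ∃ C, ∀ z, ‖B.ds f z‖ ≤ C :=
  let ⟨C, h⟩ := h
  ⟨C + 1, fun z => (norm_add_le _ _).trans (add_le_add ((norm_i B _ _).le.trans (h _))
    (norm_cm' _))⟩

theorem pr : Pr fun x => (B.π₁ x).restrictScalars ℝ where
  ct := (ContinuousLinearMap.restrictScalarsL ℂ _ _ ℝ ℝ).continuous.comp B.p₁.ct
  id := B.p₁.id
  sa x y z := by
    have := congrArg Complex.re (B.p₁.sa x y z)
    simpa [PiLp.inner_apply, Complex.re_sum] using this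

theorem ch (h1 : ADS) (h2 : DSC) (T : Pm.Th X22 QQ) {f g : S × Y → Y} (h : Ch f g) :
    Gf 21 (B.ds f) ∧ Gf 21 (B.ds g) ∧ (∃ C, ∀ z, ‖g z‖ ≤ C) ∧
      T.pa 21 (Pm.sp (Cn n)) (Pm.Ec 21 univ (B.ds f)) =
        T.pa 21 (Pm.sp (Cn n)) (Pm.Ec 21 univ (B.ds g)) := by
  obtain ⟨Φ, a, b, c, d⟩ := h
  obtain rfl := funext c
  obtain rfl := funext d
  have G := h2.gf n B Φ 21 (by norm_num) (h1 _ _ Φ 21 (by norm_num) a) a.bd b
  exact ⟨G.pull (φ := fun x => (x, 0)) (by fun_prop), G.pull (φ := fun x => (x, 1)) (by fun_prop),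
    a.bd.imp fun C h z => h _, G.pa T (by norm_num) (fun _ => rfl) fun _ => rfl⟩

theorem ex_tau : ∃ τ : ℝ, st (10 * τ) = 2 / 1000000 := by
  obtain ⟨x, -, h⟩ := intermediate_value_Icc (zero_le_one (α := ℝ))
    Real.smoothTransition.continuous.continuousOn (show (2 / 1000000 : ℝ) ∈ _ from
      ⟨by simp; norm_num, by simp; norm_num⟩)
  exact ⟨x / 10, by rw [← h]; congr 1; ring⟩

theorem piece (hs : ∀ Φ (h : Shape Φ (2 ^ 30)), Sml h) (emb : EMB) (ads : ADS) (dsc : DSC)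
    (rh : RH) (r0k : R0K) (pc0 : PC0) (pc1 : PC1) (psh : PSH) (cnj : CNJ) (llk : LLK) (grd : GRD)
    (sqz : SQZ) (tlf : TLF) (rgu : RGU) (rgd : RGD) (rim : RIM) (red : Rd.RED) : PIECE := by
  intro T Φ h
  obtain ⟨n, ⟨B⟩⟩ := emb
  obtain ⟨lv, rt⟩ := rh Φ h (hs Φ h)
  obtain ⟨w₀, w0, cj⟩ := cnj Φ h
  have hw : 0 < min (min h.w w₀) (1 / 100) := lt_min (lt_min h.w0 w0) (by norm_num)
  obtain ⟨f', c1, r1⟩ := psh h.s _ _ _ _ lv rt hw ((min_le_left _ _).trans (min_le_left _ _))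
  obtain ⟨f'', c2, r2⟩ := cj _ f' ((min_le_left _ _).trans (min_le_right _ _)) r1
  obtain ⟨τ, hτ⟩ := ex_tau
  have lk := llk _ h.hM
  obtain ⟨e1', p1, k1⟩ := grd _ _ _ _ lk (min_le_right _ _) r2
  obtain ⟨r, hr, e2, p2, k2⟩ := sqz _ _ _ _ τ lk (min_le_right _ _) r2 hτ
  obtain ⟨e3, p3, k3⟩ := tlf _ h.s τ r lk hτ hr
  obtain ⟨e4, p4, k4⟩ := rgu _ h.s τ r lk hτ hr
  set ε := min (min e1' e2) (min e3 e4)
  have p : 0 < ε := by positivity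
  have c3 := k1 ε p ((min_le_left _ _).trans (min_le_left _ _))
  have c4 := k2 ε p ((min_le_left _ _).trans (min_le_right _ _))
  obtain ⟨mm', tl⟩ := k3 ε p ((min_le_right _ _).trans (min_le_left _ _))
  obtain ⟨D₀, J, g, ru⟩ := k4 ε p ((min_le_right _ _).trans (min_le_right _ _)) fun z a b => by
    rw [tl z a, mm'.eq _ (norm_nonneg _) b]
  obtain ⟨G, c, κ, R₀, M, ok, g1, g2, g3, g4⟩ := rgd n B ε _ D₀ J g ru
  obtain ⟨D, c', κ', R₀', M', ok', d1, d2, δ₁, q1, z1⟩ := red X22 (Cn n) (Cn n) G c κ R₀ M ok QQ T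
    (Cn n) (Cn n) (LinearIsometryEquiv.refl ℝ (Cn n)) (LinearIsometryEquiv.refl ℝ (Cn n))
    B.π₁ B.π₂ 21 B.p₁ B.p₂ (fun x y => (g1 x y).symm) (fun x y => (g2 x y).symm) (by norm_num)
  obtain ⟨a1, -, -, a2⟩ := ch B ads dsc T c1
  obtain ⟨-, -, -, a3⟩ := ch B ads dsc T c2
  obtain ⟨-, -, -, a4⟩ := ch B ads dsc T c3
  obtain ⟨-, a6, a7, a5⟩ := ch B ads dsc T c4
  obtain ⟨b1, b2⟩ := r0k Φ h
  obtain ⟨b3, b4⟩ := pc1 T Φ h n B (hs Φ h) b1 b2 a1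
  have b5 := pc0 T Φ h n B b1 b2 b3
  obtain ⟨δ₂, q2, z2⟩ := rim X22 (Cn n) QQ T (fun x => (B.π₁ x).restrictScalars ℝ) _ _ 21
    (B.ds (f1 h.M h.s ε τ r)) (B.ds (e1 h.M h.s ε τ r)) (by norm_num) (pr B) mm' a6 (bd_ds B a7)
    (fun z a => by
      have a' : 19 / 10 ≤ ‖pw (B.ι' (B.lf z.1) z.2)‖ := (norm_pi B z.1 z.2) ▸ a
      have u : B.π₁ z.1 (B.ds (f1 h.M h.s ε τ r) z) =
          mm ε τ ‖B.π₁ z.1 z.2‖ • B.π₁ z.1 z.2 := by
        rw [pi_eq, Emb.ds, i_am, tl (_, _) a', qW_smul, qW_qW, map_smul, ← pi_eq, norm_pi]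
      refine ⟨u, ?_⟩
      change ‖B.ds (f1 h.M h.s ε τ r) z - B.π₁ z.1 (B.ds (f1 h.M h.s ε τ r) z)‖ ≤
        1 / 2 * ‖z.2 - B.π₁ z.1 z.2‖
      rw [u, Emb.ds, Emb.am, tl (_, _) a', map_smul, ← pi_eq, norm_pi, add_sub_cancel_left]
      refine (norm_cm _).trans (mul_le_mul_of_nonneg_left ?_ (by norm_num))
      rw [pi_eq]
      exact pp_le B _ _ _)
    (fun z a => by
      have a' : ‖pw (B.ι' (B.lf z.1) z.2)‖ ≤ 2 := (norm_pi B z.1 z.2) ▸ a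
      simp only [Emb.ds, Emb.am, e1, if_pos a'])
    (fun z a => by
      have a' : 2 ≤ ‖pw (B.ι' (B.lf z.1) z.2)‖ := (norm_pi B z.1 z.2) ▸ a
      change B.π₁ z.1 (B.ds (e1 h.M h.s ε τ r) z) = (1 + ε / 500) • B.π₁ z.1 z.2
      rw [pi_eq, Emb.ds, i_am, ru.ex (_, _) a', qW_smul, qW_qW, map_smul, ← pi_eq])
  have q : 0 < min δ₁ δ₂ / 2 := by positivity
  obtain ⟨y1, y2⟩ := z1 _ q (by linarith [min_le_left δ₁ δ₂])
  rw [g3, g4] at y1 y2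
  have y3 := z2 _ q (by linarith [min_le_right δ₁ δ₂]) y1
  refine ⟨n, n, D, c', κ', R₀', M', _, ok', B.pcd D d1 d2, q, .inl ?_⟩
  rw [b4, a2, a3, a4, a5] at b5
  exact Pe.tr b5 (Pe.tr y3 (y2.imp Eq.symm fun e => neg_eq_iff_eq_neg.1 e.symm))

end Crest.Agent.N218.Pc.Fn

end
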