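import Crest.Agent.N218.Pc.Defs
import Crest.Agent.N218.P.Kit

-- ▼ part N218/Pc/Psh
section

/-! Row 218, block PIECE: pushing an inward map into a thinner collar (helper82). -/

set_option autoImplicit false
set_option linter.unusedVariables false
open Set Filter Topology
open scoped ContDiff RealInnerProductSpace

noncomputable section

namespace Crest.Agent.N218.Pc
open P Sk

namespace Ps

section sd
variable {T T' V : Type} [TopologicalSpace T] [TopologicalSpace T'] [NormedAddCommGroup V]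
  [NormedSpace ℝ V]

theorem sd_congr {F G : T × V → V} {D : V →L[ℝ] V} {x : T × V} (h : Ad.Sd G D x)
    (e : ∀ᶠ p in 𝓝 x, F p = G p) : Ad.Sd F D x := fun ε hε => by
  have c1 : Tendsto (fun y : T × V × V => (y.1, y.2.1)) (𝓝 (x.1, x.2, x.2)) (𝓝 x) :=
    (by fun_prop : Continuous fun y : T × V × V => (y.1, y.2.1)).tendsto' _ _ rfl
  have c2 : Tendsto (fun y : T × V × V => (y.1, y.2.2)) (𝓝 (x.1, x.2, x.2)) (𝓝 x) :=
    (by fun_prop : Continuous fun y : T × V × V => (y.1, y.2.2)).tendsto' _ _ rfl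
  filter_upwards [h ε hε, c1.eventually e, c2.eventually e] with y a b c
  rw [b, c]; exact a

theorem sd_pull {G : T × V → V} {D : V →L[ℝ] V} {φ : T' → T} (hφ : Continuous φ) {b : T'} {y : V}
    (h : Ad.Sd G D (φ b, y)) : Ad.Sd (fun p : T' × V => G (φ p.1, p.2)) D (b, y) := fun ε hε => by
  have c : Tendsto (fun q : T' × V × V => (φ q.1, q.2)) (𝓝 (b, y, y)) (𝓝 (φ b, y, y)) :=
    (by fun_prop : Continuous fun q : T' × V × V => (φ q.1, q.2)).tendsto' _ _ rfl
  exact c.eventually (h ε hε)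
end sd

theorem lb_ct (s : ℝ) : Continuous fun σ : S => (lb s σ).1 := by
  unfold lb lab
  fun_prop

theorem lb_rl (s : ℝ) {σ σ' : S} {c : ℂ} (h : Rl σ σ' c) :
    ‖c‖ = 1 ∧ (lb s σ').1 = c * (lb s σ).1 := by
  obtain ⟨t, t', a, b, rfl⟩ := h
  refine ⟨by simp, ?_⟩
  simp only [lb, lab, a, b, PiLp.smul_apply, smul_eq_mul]
  ring

/-- periodic points of an inward map are fixed and lie in the sublevel set -/
theorem per {V : Type} {ρ : V → ℝ} {F : V → V} {w : ℝ} (id : ∀ y, ρ y ≤ 0 → F y = y)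
    (lt : ∀ y, 0 < ρ y → ρ y ≤ w → ρ (F y) < ρ y) (inn : ∀ y, ρ (F y) ≤ w) {y : V} {N : ℕ}
    (hN : 0 < N) (e : F^[N] y = y) : ρ y ≤ 0 := by
  obtain ⟨n, rfl⟩ := Nat.exists_eq_succ_of_ne_zero hN.ne'
  have hy : ρ y ≤ w := by rw [← e, Function.iterate_succ_apply']; exact inn _
  by_contra h0
  have h1 := lt y (not_le.1 h0) hy
  have le : ∀ z, ρ z ≤ w → ρ (F z) ≤ ρ z := fun z hz => by
    rcases le_or_gt (ρ z) 0 with a | a
    · rw [id z a]
    · exact (lt z a hz).le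
  have it : ∀ m, ρ (F^[m] (F y)) ≤ ρ (F y) := fun m => by
    induction m with
    | zero => exact le_rfl
    | succ m ih =>
      rw [Function.iterate_succ_apply']
      exact (le _ (ih.trans (inn y))).trans ih
  have := it n
  rw [← Function.iterate_succ_apply, e] at this
  exact absurd this (not_le.2 h1)

end Ps
open Ps

theorem psh : PSH := by
  intro s ρ f w w' hρ hf h0 hw
  obtain ⟨R, hR⟩ := hρ.bdd
  have sm : ContDiff ℝ ∞ fun p : ℂ × Y => ρ p - w' / 2 := hρ.sm.sub contDiff_const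
  obtain ⟨k, C, hC, hk⟩ := A.Rs.exists_dn sm (w := w - w' / 2) (R := R)
    (isCompact_range (lb_ct s))
    (fun x _ y a b => by
      rw [fderiv_sub_const]
      exact hρ.reg x y (by linarith) (by linarith))
    (fun x _ y a => hR x y (by linarith))
  have uc : Continuous (up s ρ) :=
    hρ.sm.continuous.comp (((lb_ct s).comp continuous_fst).prodMk continuous_snd)
  have inn : ∀ z, ρ ((lb s z.1).1, f z) ≤ w := hf.inn
  have ro : ∀ t ∈ Icc (0 : ℝ) 1, ∀ z : S × Y, ρ ((lb s z.1).1, k (t, (lb s z.1).1, f z)) =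
      ρ ((lb s z.1).1, f z) - t * max (ρ ((lb s z.1).1, f z) - w' / 2) 0 := fun t ht z => by
    have := hk.ro t ht _ (mem_range_self z.1) (f z) (by linarith [inn z])
    linarith
  have le : ∀ t ∈ Icc (0 : ℝ) 1, ∀ z : S × Y, ρ ((lb s z.1).1, k (t, (lb s z.1).1, f z)) ≤
      ρ ((lb s z.1).1, f z) := fun t ht z => by
    rw [ro t ht z]
    have := mul_nonneg ht.1 (le_max_right (ρ ((lb s z.1).1, f z) - w' / 2) 0)
    linarith
  have id : ∀ t, ∀ z : S × Y, up s ρ z ≤ 0 → k (t, (lb s z.1).1, f z) = z.2 := fun t z hz => by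
    rw [hf.id z hz]
    exact hk.id _ _ _ (by have : ρ ((lb s z.1).1, z.2) ≤ 0 := hz; linarith)
  have near : ∀ z : S × Y, up s ρ z ≤ 0 →
      ∀ᶠ q : S × Y in 𝓝 z, ∀ t, k (t, (lb s q.1).1, f q) = f q := fun z hz => by
    have c : Continuous fun q : S × Y => up s ρ (q.1, f q) :=
      uc.comp (continuous_fst.prodMk hf.ct)
    have : up s ρ (z.1, f z) < w' / 2 := by
      rw [hf.id z hz]; exact lt_of_le_of_lt hz (by linarith)
    filter_upwards [c.continuousAt.eventually_lt continuousAt_const this] with q hq t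
    exact hk.id _ _ _ (by have : ρ ((lb s q.1).1, f q) < w' / 2 := hq; linarith)
  have ev : ∀ t, Ev fun z : S × Y => k (t, (lb s z.1).1, f z) := fun t σ σ' c η r => by
    obtain ⟨hc, e⟩ := lb_rl s r
    show k (t, (lb s σ').1, f (σ', act c η)) = act c (k (t, (lb s σ).1, f (σ, η)))
    rw [hf.eq σ σ' c η r]
    exact hk.eq _ _ (actL hc) (fun y => by
      show ρ (_, act c y) - _ = _
      rw [e, hρ.inv c _ _ hc]) t _
  obtain ⟨B, hB⟩ := hf.bd
  have bd : ∀ t ∈ Icc (0 : ℝ) 1, ∀ z : S × Y, ‖k (t, (lb s z.1).1, f z)‖ ≤ B + C * w :=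
    fun t ht z => by
    have a := hk.nr t (lb s z.1).1 (f z)
    have b : |t| * max (ρ ((lb s z.1).1, f z) - w' / 2) 0 ≤ 1 * w :=
      mul_le_mul (by rw [abs_of_nonneg ht.1]; exact ht.2)
        (max_le (by linarith [inn z]) hf.w0.le) (le_max_right _ _) zero_le_one
    have c := mul_le_mul_of_nonneg_left b hC
    have d := norm_le_norm_add_norm_sub' (k (t, (lb s z.1).1, f z)) (f z)
    have := hB z
    linarith
  have lt : ∀ t ∈ Icc (0 : ℝ) 1, ∀ z : S × Y, 0 < up s ρ z → up s ρ z ≤ w →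
      up s ρ (z.1, k (t, (lb s z.1).1, f z)) < up s ρ z := fun t ht z a b =>
    lt_of_le_of_lt (le t ht z) (hf.lt z a b)
  have kc : ∀ {Z : Type} [TopologicalSpace Z] {t : Z → ℝ} {z : Z → S × Y}, Continuous t →
      Continuous z → Continuous fun x => k (t x, (lb s (z x).1).1, f (z x)) := fun ht hz =>
    hk.co.comp (ht.prodMk (((lb_ct s).comp (continuous_fst.comp hz)).prodMk (hf.ct.comp hz)))
  have pe : ∀ (b : S × unitInterval) (y : Y) (N : ℕ), 0 < N →
      (fun y => k (b.2, (lb s b.1).1, f (b.1, y)))^[N] y = y → up s ρ (b.1, y) ≤ 0 :=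
    fun b y N hN e => per (ρ := fun y => up s ρ (b.1, y)) (w := w)
      (fun y a => id _ (b.1, y) a) (fun y a a' => lt _ b.2.2 (b.1, y) a a')
      (fun y => (le _ b.2.2 (b.1, y)).trans (inn _)) hN e
  refine ⟨fun z => k (1, (lb s z.1).1, f z),
    ⟨fun q => k (q.1.2, (lb s q.1.1).1, f (q.1.1, q.2)), ⟨?_, ⟨B + C * w, fun q => ?_⟩, ?_, ?_⟩,
      fun t => ev t, fun z => (hk.ze _ _).symm, fun z => rfl⟩,
    h0, kc continuous_const continuous_id, ev 1, ⟨_, bd 1 ⟨zero_le_one, le_rfl⟩⟩, id 1,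
    fun z a b => lt 1 ⟨zero_le_one, le_rfl⟩ z a (b.trans hw), fun z => ?_, fun z hz => ?_⟩
  · exact kc (t := fun q : (S × unitInterval) × Y => (q.1.2 : ℝ)) (z := fun q => (q.1.1, q.2))
      (by fun_prop) (by fun_prop)
  · exact bd _ q.1.2.2 (q.1.1, q.2)
  · intro b y N hN e
    exact id _ (b.1, y) (pe b y N hN e)
  · intro b y e
    have hz := pe b y 1 one_pos e
    refine ⟨1, fun a a' => rfl, sd_congr (sd_pull (φ := Prod.fst) continuous_fst (hf.sd _ hz)) ?_⟩
    have c : Tendsto (fun q : (S × unitInterval) × Y => (q.1.1, q.2)) (𝓝 (b, y)) (𝓝 (b.1, y)) :=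
      (by fun_prop : Continuous fun q : (S × unitInterval) × Y => (q.1.1, q.2)).tendsto' _ _ rfl
    filter_upwards [c.eventually (near _ hz)] with q hq
    exact hq _
  · show ρ ((lb s z.1).1, k (1, (lb s z.1).1, f z)) ≤ w'
    rw [ro 1 ⟨zero_le_one, le_rfl⟩ z]
    have := le_max_left (ρ ((lb s z.1).1, f z) - w' / 2) 0
    linarith
  · exact sd_congr (hf.sd z hz) ((near z hz).mono fun q hq => hq 1)

end Crest.Agent.N218.Pc

end
end

-- ▼ part N218/Pc/Grd

/-! Row 218, block PIECE (helper73): switching on the gradient step. -/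

set_option autoImplicit false
set_option linter.unusedVariables false
set_option linter.unusedSectionVars false
open Set Topology Filter
open scoped ContDiff RealInnerProductSpace

noncomputable section

namespace Crest.Agent.N218.Pc
open P Sk

namespace Gd

/-- periodic points of a map with a Lyapunov function are fixed -/
theorem lyap {E : Type} {F : E → E} {g : E → ℝ} {K : E → Prop} (hK : ∀ y, K (F y))
    (le : ∀ y, K y → g (F y) ≤ g y) (eq : ∀ y, K y → g y ≤ g (F y) → F y = y) (y : E) (N : ℕ)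
    (h0 : 0 < N) (e : F^[N] y = y) : F y = y := by
  obtain ⟨n, rfl⟩ := Nat.exists_eq_add_of_le' h0
  have k : K y := by rw [← e, Function.iterate_succ_apply']; exact hK _
  have a : ∀ m, K (F^[m] (F y)) ∧ g (F^[m] (F y)) ≤ g (F y) := fun m => by
    induction m with
    | zero => exact ⟨hK y, le_rfl⟩
    | succ m ih => rw [Function.iterate_succ_apply']; exact ⟨hK _, (le _ ih.1).trans ih.2⟩
  have b := (a n).2
  rw [← Function.iterate_succ_apply, e] at b
  exact eq y k b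

section sd
variable {T T' V : Type} [TopologicalSpace T] [TopologicalSpace T'] [NormedAddCommGroup V]
  [NormedSpace ℝ V] [FiniteDimensional ℝ V]

theorem sd_pull {P : T × V → V} {D : V →L[ℝ] V} {φ : T' → T} {b : T'} {y : V} (hφ : Continuous φ)
    (h : Ad.Sd P D (φ b, y)) : Ad.Sd (fun p => P (φ p.1, p.2)) D (b, y) := fun ε e => by
  filter_upwards [(Continuous.tendsto' (f := fun x : T' × V × V => (φ x.1, x.2)) (by fun_prop)
    (b, y, y) _ rfl).eventually (h ε e)] with x a using a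

theorem sd_step {g : T × V → V} {H : T × V → V →L[ℝ] V} {ε : T → ℝ} (hε : Continuous ε)
    (hH : Continuous H) (hd : ∀ b y, HasFDerivAt (fun y => g (b, y)) (H (b, y)) y) (b : T) (y : V) :
    Ad.Sd (fun p : T × V => p.2 - ε p.1 • g p) (1 - ε b • H (b, y)) (b, y) :=
  Ad.Sd.of_c1 (P := fun p : T × V => p.2 - ε p.1 • g p) (x := (b, y))
    (D := fun p : T × V => 1 - ε p.1 • H p) (Continuous.continuousAt (by fun_prop))
    (Eventually.of_forall fun p => (hasFDerivAt_id p.2).sub ((hd p.1 p.2).const_smul (ε p.1)))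

theorem sd_comp {P Q : T × V → V} {D D' : V →L[ℝ] V} {b : T} {y : V} (hQ : Continuous Q)
    (h : Ad.Sd P D (b, Q (b, y))) (h' : Ad.Sd Q D' (b, y)) :
    Ad.Sd (fun p => P (p.1, Q p)) (D.comp D') (b, y) := fun ε e => by
  have n := norm_nonneg D
  have n' := norm_nonneg D'
  set δ := min 1 (ε / (1 + ‖D‖ + ‖D'‖)) with hδ
  have d0 : 0 < δ := by positivity
  have d1 : δ ≤ 1 := min_le_left _ _
  have d2 : δ * (1 + ‖D‖ + ‖D'‖) ≤ ε := (le_div_iff₀ (by positivity)).1 (min_le_right _ _)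
  filter_upwards [(Continuous.tendsto' (f := fun x : T × V × V =>
    (x.1, Q (x.1, x.2.1), Q (x.1, x.2.2))) (by fun_prop) (b, y, y) _ rfl).eventually (h δ d0),
    h' δ d0] with x a c
  set u := x.2.1 - x.2.2
  set q := Q (x.1, x.2.1) - Q (x.1, x.2.2)
  have u0 := norm_nonneg u
  have q1 : ‖q‖ ≤ δ * ‖u‖ + ‖D'‖ * ‖u‖ :=
    (norm_le_norm_sub_add q (D' u)).trans (add_le_add c (D'.le_opNorm u))
  have q2 : ‖D (q - D' u)‖ ≤ ‖D‖ * (δ * ‖u‖) :=
    (D.le_opNorm _).trans (mul_le_mul_of_nonneg_left c n)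
  have r : P (x.1, Q (x.1, x.2.1)) - P (x.1, Q (x.1, x.2.2)) - D.comp D' u =
      (P (x.1, Q (x.1, x.2.1)) - P (x.1, Q (x.1, x.2.2)) - D q) + D (q - D' u) := by
    rw [map_sub D q, ContinuousLinearMap.comp_apply]; abel
  refine (congrArg norm r).le.trans ((norm_add_le _ _).trans ((add_le_add a q2).trans ?_))
  show δ * ‖q‖ + _ ≤ _
  nlinarith [mul_le_mul_of_nonneg_left q1 d0.le, mul_le_mul_of_nonneg_right d2 u0,
    mul_le_mul_of_nonneg_right d1 (mul_nonneg d0.le u0)]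
end sd

@[fun_prop] theorem lb_ct (s : ℝ) : Continuous fun σ : S => (lb s σ).1 := by
  unfold lb lab; fun_prop

theorem rl_norm {σ σ' : S} {c : ℂ} (h : Rl σ σ' c) : ‖c‖ = 1 := by
  obtain ⟨t, t', -, -, rfl⟩ := h; simp

theorem rl_lb (s : ℝ) {σ σ' : S} {c : ℂ} (h : Rl σ σ' c) : (lb s σ').1 = c * (lb s σ).1 := by
  obtain ⟨t, t', a, b, rfl⟩ := h
  simp only [lb, lab, a, b, PiLp.smul_apply, smul_eq_mul]; ring

variable {ρ : ℂ × Y → ℝ}

/-- the vertical Hessian -/
def hs (ρ : ℂ × Y → ℝ) (p : ℂ × Y) : Y →L[ℝ] Y :=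
  (fderiv ℝ (A.Rs.vgr ρ) p).comp (ContinuousLinearMap.inr ℝ ℂ Y)

theorem hs_d (h : ContDiff ℝ ∞ ρ) (ζ : ℂ) (y : Y) :
    HasFDerivAt (fun y => A.Rs.vgr ρ (ζ, y)) (hs ρ (ζ, y)) y :=
  ((A.Rs.vgr_smooth h).differentiable (by simp) (ζ, y)).hasFDerivAt.comp y
    (hasFDerivAt_prodMk_right ζ y)

theorem hs_ct (h : ContDiff ℝ ∞ ρ) : Continuous (hs ρ) :=
  ((A.Rs.vgr_smooth h).continuous_fderiv (by simp)).clm_comp continuous_const

theorem hs_sy (h : ContDiff ℝ ∞ ρ) (p : ℂ × Y) (a b : Y) : ⟪hs ρ p a, b⟫ = ⟪a, hs ρ p b⟫ :=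
  (second_derivative_symmetric (A.Rs.has_slice h p.1)
    ((innerSL ℝ (E := Y)).hasFDerivAt.comp p.2 (hs_d h p.1 p.2)) a b).trans
    (real_inner_comm a (hs ρ p b))

theorem es_ct (h : ContDiff ℝ ∞ ρ) (s : ℝ) {T : Type} [TopologicalSpace T] {ε : T → ℝ}
    {z : T → S × Y} (hε : Continuous ε) (hz : Continuous z) :
    Continuous fun x => Es ρ s (ε x) (z x) :=
  hz.snd.sub (hε.smul ((A.Rs.vgr_smooth h).continuous.comp (((lb_ct s).comp hz.fst).prodMk hz.snd)))

theorem es_ev (h : ContDiff ℝ ∞ ρ) (inv : ∀ c ζ η, ‖c‖ = 1 → ρ (c * ζ, act c η) = ρ (ζ, η))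
    (s ε : ℝ) : Ev (Es ρ s ε) := fun σ σ' c η r => by
  have a := A.Rs.vgr_eqv h (actL (rl_norm r)) (fun y => inv c (lb s σ).1 y (rl_norm r)) η
  simp only [Es, up, rl_lb s r, act_sub, act_smul]
  exact congrArg (fun v => act c η - ε • v) a

/-- the strict derivative of a family of gradient steps -/
theorem es_sd (h : ContDiff ℝ ∞ ρ) (s : ℝ) {T : Type} [TopologicalSpace T] {ε : T → ℝ}
    {σ : T → S} (hε : Continuous ε) (hσ : Continuous σ) (b : T) (y : Y) :
    Ad.Sd (fun p : T × Y => Es ρ s (ε p.1) (σ p.1, p.2))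
      (1 - ε b • hs ρ ((lb s (σ b)).1, y)) (b, y) := by
  have c : Continuous fun p : T × Y => ((lb s (σ p.1)).1, p.2) :=
    ((lb_ct s).comp (hσ.comp continuous_fst)).prodMk continuous_snd
  have c2 : Continuous fun p : T × Y => hs ρ ((lb s (σ p.1)).1, p.2) := (hs_ct h).comp' c
  have a := sd_step (g := fun p : T × Y => A.Rs.vgr ρ ((lb s (σ p.1)).1, p.2)) hε c2
    (fun b y => hs_d h (lb s (σ b)).1 y) b y
  simpa only [Es, up] using a

theorem es_sy (h : ContDiff ℝ ∞ ρ) (ε : ℝ) (p : ℂ × Y) (a b : Y) :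
    ⟪(1 - ε • hs ρ p : Y →L[ℝ] Y) a, b⟫ = ⟪a, (1 - ε • hs ρ p : Y →L[ℝ] Y) b⟫ := by
  show ⟪a - ε • hs ρ p a, b⟫ = ⟪a, b - ε • hs ρ p b⟫
  rw [inner_sub_left, inner_sub_right, real_inner_smul_left, real_inner_smul_right, hs_sy h]

end Gd
open Gd

theorem grd : GRD := by
  intro M s f w hM hw h
  obtain ⟨ε₀, e0, ly⟩ := hM.ly s
  refine ⟨ε₀, e0, fun ε e1 e2 => ?_⟩
  have sm := hM.lv.sm
  have t0 : ∀ t : unitInterval, 0 ≤ t * ε := fun t => mul_nonneg t.2.1 e1.le
  have t1 : ∀ t : unitInterval, t * ε ≤ ε₀ := fun t => (mul_le_of_le_one_left e1.le t.2.2).trans e2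
  have f3 : ∀ z, ‖f z‖ ≤ 3 := fun z => hM.bd ((lb s z.1).1, f z) ((h.inn z).trans hw)
  have st := fun (t : unitInterval) (z : S × Y) =>
    ly _ (t0 t) (t1 t) (z.1, f z) ((f3 z).trans (by norm_num))
  have dn : ∀ (t : unitInterval) (z : S × Y), up s (LL M) (z.1, Es (LL M) s (t * ε) (z.1, f z)) ≤
      up s (LL M) (z.1, f z) := fun t z => (st t z).2.2.1.trans (sub_le_self _
        (mul_nonneg (by linarith [t0 t]) (sq_nonneg _)))
  have ng : ∀ (t : unitInterval) (z : S × Y), up s (LL M) z ≤ w →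
      up s (LL M) z ≤ up s (LL M) (z.1, Es (LL M) s (t * ε) (z.1, f z)) → up s (LL M) z ≤ 0 :=
    fun t z a b => le_of_not_gt fun c => absurd (b.trans (dn t z)) (not_le.2 (h.lt z c a))
  have fc : Continuous fun p : (S × unitInterval) × Y => f (p.1.1, p.2) :=
    h.ct.comp (by fun_prop)
  refine ⟨fun p => Es (LL M) s (p.1.2 * ε) (p.1.1, f (p.1.1, p.2)),
    ⟨es_ct sm s (by fun_prop) (continuous_fst.fst.prodMk fc), ⟨4, fun p => ?_⟩,
      fun b => lyap (g := fun y => up s (LL M) (b.1, y)) (K := fun y => up s (LL M) (b.1, y) ≤ w)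
        (fun y => (dn b.2 (b.1, y)).trans (h.inn (b.1, y))) (fun y a => ?_) fun y a c => ?_,
      fun b y e => ?_⟩, fun t σ σ' c η r => ?_, fun z => by simp [Es], fun z => by simp⟩
  · linarith [norm_le_norm_sub_add (Es (LL M) s (p.1.2 * ε) (p.1.1, f (p.1.1, p.2)))
      (f (p.1.1, p.2)), (st p.1.2 (p.1.1, p.2)).1, f3 (p.1.1, p.2)]
  · refine (dn b.2 (b.1, y)).trans ?_
    rcases le_or_gt (up s (LL M) (b.1, y)) 0 with c | c
    · rw [h.id _ c]
    · exact (h.lt _ c a).le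
  · have i : f (b.1, y) = y := h.id _ (ng b.2 (b.1, y) a c)
    have k := (st b.2 (b.1, y)).2.2.1
    simp only [i] at k c ⊢
    have z : b.2 * ε * ‖up s (A.Rs.vgr (LL M)) (b.1, y)‖ ^ 2 = 0 :=
      le_antisymm (by linarith) (mul_nonneg (t0 _) (sq_nonneg _))
    rcases mul_eq_zero.1 z with z | z
    · simp only [Es, z, zero_smul, sub_zero]
    · simp only [Es, norm_eq_zero.1 (pow_eq_zero_iff two_ne_zero |>.1 z), smul_zero, sub_zero]
  · have e' : Es (LL M) s (b.2 * ε) (b.1, f (b.1, y)) = y := e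
    have a := (dn b.2 (b.1, y)).trans (h.inn (b.1, y))
    have c := ng b.2 (b.1, y) (by simpa only [e'] using a) (by simp only [e', le_refl])
    have s1 := es_sd sm s (ε := fun b : S × unitInterval => b.2 * ε) (σ := Prod.fst)
      (by fun_prop) continuous_fst b (f (b.1, y))
    have s2 := sd_pull (P := f) (φ := Prod.fst) (b := b) (y := y) continuous_fst (h.sd (b.1, y) c)
    have s3 := sd_comp fc s1 s2
    rw [ContinuousLinearMap.one_def (M₁ := Y) (R₁ := ℝ), ContinuousLinearMap.comp_id] at s3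
    exact ⟨_, es_sy sm _ _, s3⟩
  · show Es _ _ _ (σ', f (σ', act c η)) = _
    rw [h.eq σ σ' c η r]
    exact es_ev sm hM.lv.inv s _ σ σ' c _ r

end Crest.Agent.N218.Pc

end
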