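import Crest.Agent.N218.D6.Lk
import Crest.Agent.N218.D6.Kit
import Crest.Agent.N218.D6.Cm0
import Crest.Agent.N218.Pc.Defs
import Crest.Agent.N218.P.Kit
import Crest.Agent.N218.P.Bo
import Crest.Agent.N218.P.Sw
import Crest.Agent.N218.P.Shape
import Crest.Agent.N218.P.PreP
import Crest.Agent.N218.Pc.Ll
import Crest.Agent.N218.Pm.Kit1

-- ▼ part N218/D6/LkCm2
section

/-!
# Row 218, block D6 (helper94): the leaf CM2 of LINK2
-/

set_option autoImplicit false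
set_option linter.unusedVariables false

open Set OnePoint

noncomputable section

namespace Crest.Agent.N218.D6.Lk

open K K.Cp Pm In
open Sk (X22)

/-- the reordering as a linear isomorphism -/
def rL (k m : ℕ) (E : Type) [NormedAddCommGroup E] [NormedSpace ℝ E] :
    ((V k E × (Fin m → ℂ)) × R4) ≃L[ℝ] (((((ℝ × ℝ) × ℝ) × V k E) × ℝ) × (Fin m → ℂ)) where
  toFun := rT k m E
  invFun w := ((w.1.1.2, w.2), (w.1.1.1, w.1.2))
  map_add' _ _ := rfl
  map_smul' _ _ := rfl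
  left_inv _ := rfl
  right_inv _ := rfl
  continuous_toFun := by unfold rT; fun_prop
  continuous_invFun := by fun_prop

theorem cm2 : CM2 := by
  intro k m E _ _ _ q J P kV hq hJ hc ok l lT β υ hl hβ e
  have cj : Continuous fun x : ((US 2 × US 2) × US m) × (V k E × ℂ) × R4 =>
      ((x.1.2, (hx x.1.1, x.2)) : US m × X22 × (V k E × ℂ) × R4) := by fun_prop
  obtain ⟨o, h⟩ := Cm.pb_base (Y := L k m) (Y' := YG k m) (M := XN k E) (M' := NG k E)
    (T := TR k m E) (T' := (VT k m E).prod (Rep.triv _ R4)) (pg k)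
    (fun x : ((US 2 × US 2) × US m) × (V k E × ℂ) × R4 =>
      ((x.1.2, (hx x.1.1, x.2)) : US m × X22 × (V k E × ℂ) × R4))
    (Cm.proper_of (A := (YG k m).Z) (B := (NG k E).Z) (C := (L k m).Z) (D := (XN k E).Z) cj
      continuous_snd fun _ => rfl)
    (fun g x => Prod.ext rfl (Prod.ext (hx_ay (ph k g) x.1.1) rfl)) (rL k m E) (fun _ _ => rfl) q J
    (fun y w => hq y (OnePoint.some w)) (fun y : (US 2 × US 2) × US m => y.2) (fun _ => rfl) (fun y => hq y ∞) hJ ok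
    (P := Vs.stW (ThV P kV) (Rep.triv _ R4)) (fun _ => Iff.rfl) (fun _ => rfl) l
  refine h.trans ((congrArg _ e).trans ?_)
  exact ((Vs.stW (ThV P kV) (Rep.triv _ R4)).hm.pull_sm υ _).trans (by
    rw [pull_id]; exact congrArg _ (Cm.pb_stW (Cm.ok_of_stW o) _ hl hβ))

end Crest.Agent.N218.D6.Lk

end
end

-- ▼ part N218/Pc/Rh
section

/-! Row 218, block PIECE (helper86): body and piece form an inward map. -/

set_option autoImplicit false
set_option linter.unusedVariables false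
open Set Topology Filter
open scoped ContDiff RealInnerProductSpace

noncomputable section

namespace Crest.Agent.N218.Pc
open P Sk

namespace Rk

section
variable {B Q E : Type} [TopologicalSpace B] [NormedAddCommGroup Q] [NormedSpace ℝ Q]
  [NormedAddCommGroup E] [NormedSpace ℝ E]

/-- near `b` the family `f` is the pull-back of a smooth map -/
def Lo (f : B × E → E) (φ : B → Q) (b : B) : Prop :=
  ∃ G : Q × E → E, (∀ y, ContDiffAt ℝ ∞ G (φ b, y)) ∧ ∀ᶠ b' in 𝓝 b, ∀ y, f (b', y) = G (φ b', y)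

variable {f : B × E → E} {φ : B → Q}

theorem Lo.ct (hφ : Continuous φ) (h : ∀ b, Lo f φ b) : Continuous f :=
  continuous_iff_continuousAt.2 fun p => by
    obtain ⟨G, h1, h2⟩ := h p.1
    have c : Continuous fun p : B × E => (φ p.1, p.2) := by fun_prop
    refine ((h1 p.2).continuousAt.comp_of_eq c.continuousAt rfl).congr ?_
    filter_upwards [continuousAt_fst.eventually h2] with q hq using (hq q.2).symm

theorem Lo.sd [FiniteDimensional ℝ E] (hφ : Continuous φ) {z : B × E} (h : Lo f φ z.1) {U : Set E} (hU : IsOpen U)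
    (hf : ∀ y ∈ U, f (z.1, y) = y) (cl : z.2 ∈ closure U) : Ad.Sd f 1 z := by
  obtain ⟨G, h1, h2⟩ := h
  have c : Continuous fun p : B × E => (φ p.1, p.2) := by fun_prop
  let D : B × E → E →L[ℝ] E := fun q =>
    (fderiv ℝ G (φ q.1, q.2)).comp (ContinuousLinearMap.inr ℝ Q E)
  have cD : ∀ y, ContinuousAt D (z.1, y) := fun y =>
    (((h1 y).continuousAt_fderiv (by simp)).comp_of_eq c.continuousAt rfl).clm_comp
      continuousAt_const
  have hD : ∀ y, ∀ᶠ q in 𝓝 (z.1, y), HasFDerivAt (fun w => f (q.1, w)) (D q) q.2 := fun y => by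
    filter_upwards [continuousAt_fst.eventually h2, c.continuousAt.eventually
      (((h1 y).of_le (m := 1) (by simp)).eventually (by simp))] with q hq hd
    rw [funext hq]
    exact (hd.differentiableAt one_ne_zero).hasFDerivAt.comp q.2 (hasFDerivAt_prodMk_right _ _)
  have e : D z = 1 := closure_minimal (t := {y | D (z.1, y) = 1}) (fun y hy =>
      (hD y).self_of_nhds.unique ((hasFDerivAt_id y).congr_of_eventuallyEq
        (eventually_of_mem (hU.mem_nhds hy) hf)))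
    (isClosed_eq (continuous_iff_continuousAt.2 fun y =>
      (cD y).comp_of_eq (f := fun y => (z.1, y)) (by fun_prop) rfl) continuous_const) cl
  exact e ▸ Ad.Sd.of_c1 (cD z.2) (hD z.2)

theorem cl_of {ρ : Q × E → ℝ} (h : ContDiff ℝ ∞ ρ) {z : Q × E} (h0 : ρ z ≤ 0)
    (hr : ρ z = 0 → ∃ ξ, fderiv ℝ ρ z (0, ξ) ≠ 0) : z.2 ∈ closure {y | ρ (z.1, y) < 0} := by
  refine h0.lt_or_eq.elim (fun a => subset_closure a) fun a => by_contra fun n => ?_
  obtain ⟨ξ, k⟩ := hr a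
  have m : IsLocalMin (fun y => ρ (z.1, y)) z.2 := by
    filter_upwards [isClosed_closure.isOpen_compl.mem_nhds n] with y hy
    exact a.trans_le (not_lt.1 fun c => hy (subset_closure c))
  exact k (DFunLike.congr_fun (m.hasFDerivAt_eq_zero
    ((h.differentiable (by simp) z).hasFDerivAt.comp z.2 (hasFDerivAt_prodMk_right z.1 z.2))) ξ)
end

theorem lb_cont (s : ℝ) : Continuous (lb s) := by unfold lb lab; fun_prop
theorem n1 (σ : S) : ‖(σ.1 : Cn 2)‖ = 1 := norm_eq_of_mem_sphere _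
theorem n2 (σ : S) : ‖(σ.2 : Cn 2)‖ = 1 := norm_eq_of_mem_sphere _

theorem rl_norm {σ σ' : S} {c : ℂ} (h : Rl σ σ' c) : ‖c‖ = 1 := by
  obtain ⟨t, t', -, -, rfl⟩ := h
  simp

theorem lb_rl (s : ℝ) {σ σ' : S} {c : ℂ} (h : Rl σ σ' c) :
    lb s σ' = (c * (lb s σ).1, c * (lb s σ).2.1, c * (lb s σ).2.2) := by
  obtain ⟨t, t', a, b, rfl⟩ := h
  simp only [lb, lab, a, b, PiLp.smul_apply, smul_eq_mul]
  refine Prod.ext ?_ (Prod.ext ?_ ?_) <;> ring

theorem neg_of (s : ℝ) {σ : S} (h : (lb s σ).2 = 0) : ⟪Hf σ.1, Hf σ.2⟫ < 0 := by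
  have a := V_sq σ.1
  have b := V_sq σ.2
  rw [n1] at a; rw [n2] at b
  have h0 : (σ.1 : Cn 2) 0 * (σ.2 : Cn 2) 0 = 0 := congrArg Prod.fst h
  have h1 : (σ.1 : Cn 2) 1 * (σ.2 : Cn 2) 1 = 0 := congrArg Prod.snd h
  rcases mul_eq_zero.1 h0 with c | c <;> rcases mul_eq_zero.1 h1 with d | d <;>
    simp [Hf, PiLp.inner_apply, Fin.sum_univ_three, c, d] at a b ⊢ <;> simp [← a, ← b]

variable {Φ : A.Fam} {Λ : ℝ} (h : Shape Φ Λ)

theorem piH_sm : ContDiff ℝ ∞ (piH (pl h.ε h.p)) :=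
  contDiff_id.sub ((u1_sm.sub (h.hp.sm.comp u1_sm)).smul contDiff_const)

theorem lo0 (σ : S) : Lo (R0 h) (lb h.s) σ := by
  by_cases a : (lb h.s σ).2 = 0
  · refine ⟨fun z => piH (pl h.ε h.p) z.2, fun y => ((piH_sm h).comp contDiff_snd).contDiffAt, ?_⟩
    have c : Continuous fun σ : S => ⟪Hf σ.1, Hf σ.2⟫ := by
      refine Continuous.inner ?_ ?_ <;> unfold Hf <;> fun_prop
    filter_upwards [c.continuousAt.eventually_lt continuousAt_const (neg_of _ a)] with σ' k y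
    exact h.hR.out _ _ (.inl (h.far _ _ (n1 σ') (n2 σ') k.le))
  · exact ⟨h.R, fun y => h.hR.sm.contDiffAt
      ((isOpen_ne_fun (by fun_prop) continuous_const).mem_nhds a), .of_forall fun _ _ => rfl⟩

theorem ev0 : Ev (R0 h) := fun σ σ' c η r => by
  unfold R0
  rw [lb_rl _ r]
  exact h.hR.eqv c _ _ _ η (rl_norm r)

/-- the map of the body -/
def bm (η : Y) : Y := h.ε⁻¹ • (h.rY (h.ε • η + P.ev) - P.ev)

theorem bm_sm : ContDiff ℝ ∞ (bm h) :=
  ((h.hb.sm.comp ((contDiff_id.const_smul h.ε).add contDiff_const)).sub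
    contDiff_const).const_smul h.ε⁻¹

theorem boY_eq (η : Y) : boY h.ε⁻¹ η = h.ε⁻¹ * bo P.ev (h.ε • η + P.ev) := by rw [boY, inv_inv]

theorem boY_bm (η : Y) : boY h.ε⁻¹ (bm h η) = h.ε⁻¹ * bo P.ev (h.rY (h.ε • η + P.ev)) := by
  rw [boY_eq, bm, smul_smul, mul_inv_cancel₀ h.ε0.ne', one_smul, sub_add_cancel]

theorem in_aff (η : Y) : ⟪P.ev, h.ε • η + P.ev⟫ - 1 = h.ε * u1 η := by
  rw [inner_add_right, real_inner_smul_right, inner_ev, real_inner_self_eq_norm_sq, norm_ev]; ring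

theorem n_aff {η : Y} (a : h.ε * ‖η‖ ≤ 1 / 2) : ‖h.ε • η + P.ev‖ ≤ 20 := by
  have := norm_add_le (h.ε • η) P.ev
  rw [norm_smul, Real.norm_of_nonneg h.ε0.le, norm_ev] at this
  linarith

theorem boY_in {η : Y} (a : h.ε * ‖η‖ ≤ 1 / 2) : boY h.ε⁻¹ η = u1 η := by
  have e := in_aff h η
  have := mul_le_mul_of_nonneg_left (neg_abs_le (u1 η)) h.ε0.le
  have := mul_le_mul_of_nonneg_left (abs_u1_le η) h.ε0.le
  rw [boY_eq, Bo.bo_top P.sm ((n_aff h a).trans (by norm_num)) (by linarith), e,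
    inv_mul_cancel_left₀ h.ε0.ne']

theorem Fh_in (ζ : ℂ) {η : Y} (a : h.ε * ‖η‖ ≤ 1 / 2) : Fh h (ζ, η) = F h.M (ζ, η) := by
  rw [Fh, boY_in h a]; ring

theorem Fh_out (ζ : ℂ) {η : Y} (a : 25 ≤ ‖η‖) : Fh h (ζ, η) = boY h.ε⁻¹ η := by
  rw [Fh, h.hL.out ζ η (.inr (.inl a)), sub_self, add_zero]

theorem Fh_le (ζ : ℂ) (η : Y) : Fh h (ζ, η) ≤ boY h.ε⁻¹ η :=
  add_le_of_nonpos_right (sub_nonpos.2 (h.hL.le ζ η))

theorem sm30 {η : Y} (a : ‖η‖ ≤ 30) : h.ε * ‖η‖ ≤ 1 / 2 :=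
  (mul_le_mul h.ε1 a (norm_nonneg _) (by norm_num)).trans (by norm_num)

theorem Rh_in (σ : S) {η : Y} (a : ‖η‖ ≤ 30) : Rh h (σ, η) = R0 h (σ, η) := by
  have e : h.ε⁻¹ • (h.rY (h.ε • η + P.ev) - P.ev) = piH (pl h.ε h.p) η := by
    have := h.ε0.ne'
    rw [h.hb.flat _ (n_aff h (sm30 h a)), in_aff, piH, pl, sub_right_comm, add_sub_cancel_right,
      smul_sub, smul_smul, smul_smul, inv_mul_cancel₀ this, one_smul]
    congr 2; field_simp
  rw [Rh, e, add_sub_cancel]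

theorem Rh_out (σ : S) {η : Y} (a : 30 ≤ ‖η‖) : Rh h (σ, η) = bm h η := by
  rw [Rh, R0, h.hR.out _ _ (.inr a), sub_self, add_zero, bm]

theorem boY_sm : ContDiff ℝ ∞ (boY h.ε⁻¹) :=
  contDiff_const.mul ((Bo.bo_sm P.sm _).comp
    ((contDiff_id.const_smul h.ε⁻¹⁻¹).add contDiff_const))

theorem lv : Lv (Fh h) h.w := by
  have hB := bo_ P.sm Y P.ev norm_ev
  have e0 := h.ε0
  refine ⟨((boY_sm h).comp contDiff_snd).add (h.hL.sm.sub (u1_sm.comp contDiff_snd)),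
    fun c ζ η hc => ?_, fun ζ η a b => ?_, max 25 (h.ε⁻¹ * 101), fun ζ η a => ?_⟩
  · have e : h.ε • act c η + P.ev = act c (h.ε • η + P.ev) := by rw [act_add, act_smul, act_ev]
    simp only [Fh, h.hL.inv c ζ η hc, boY_eq, e, bo, norm_act hc, inner_ev]
    rfl
  · rcases lt_or_ge ‖η‖ 30 with c | c
    · have e : Fh h =ᶠ[𝓝 (ζ, η)] F h.M := by
        filter_upwards [(continuous_snd.norm.continuousAt (x := (ζ, η))).eventually_lt
          continuousAt_const c] with z k using Fh_in h _ (sm30 h k.le)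
      rw [e.fderiv_eq]
      rw [e.self_of_nhds] at a b
      exact h.hL.reg ζ η (by rw [abs_of_nonneg a]; exact b.trans h.w1)
    · have e : Fh h =ᶠ[𝓝 (ζ, η)] fun z => h.ε⁻¹ * bo P.ev (h.ε • z.2 + P.ev) := by
        filter_upwards [continuousAt_const.eventually_lt
          (continuous_snd.norm.continuousAt (x := (ζ, η))) (show (25 : ℝ) < ‖η‖ by linarith)]
          with z k using (Fh_out h _ k.le).trans (boY_eq h _)
      have y0 : h.ε • η + P.ev ≠ 0 := fun k => by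
        rw [e.self_of_nhds] at a
        simp only [k] at a
        have := hB.2.2.2.2.2.1 0 (by simp) (by simp)
        have := mul_neg_of_pos_of_neg (inv_pos.2 e0) (show bo P.ev 0 < 0 by linarith)
        linarith
      have d := ((hB.1.differentiable (by simp) (h.ε • η + P.ev)).hasFDerivAt.comp (ζ, η)
        (((hasFDerivAt_snd (𝕜 := ℝ) (p := (ζ, η))).const_smul h.ε).add_const P.ev)).const_mul h.ε⁻¹
      refine ⟨h.ε • η + P.ev, ?_⟩
      rw [(d.congr_of_eventuallyEq e).fderiv]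
      have := (hB.2.2.2.2.2.2 _ y0).1
      simp only [smul_apply, ContinuousLinearMap.comp_apply,
        ContinuousLinearMap.coe_snd', map_smul, smul_eq_mul]
      positivity
  · refine le_max_iff.2 ((le_total ‖η‖ 25).imp id fun c => ?_)
    rw [Fh_out h _ c, boY_eq, inv_mul_le_iff₀ e0] at a
    have b := hB.2.2.2.1 (h.ε • η + P.ev)
    have k : h.ε * h.w ≤ 1 / 100 * (1 / 1000) := mul_le_mul h.ε1 h.w1 h.w0.le (by norm_num)
    have n : ‖h.ε • η + P.ev‖ ≤ 100 := abs_le_of_sq_le_sq' (by linarith) (by norm_num) |>.2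
    have m := norm_sub_le (h.ε • η + P.ev) P.ev
    rw [add_sub_cancel_right, norm_smul, Real.norm_of_nonneg e0.le, norm_ev] at m
    rw [le_inv_mul_iff₀ e0]; linarith

theorem lo (σ : S) : Lo (Rh h) (lb h.s) σ :=
  let ⟨G, a, b⟩ := lo0 h σ
  ⟨fun z => bm h z.2 + (G z - piH (pl h.ε h.p) z.2), fun y =>
    ((bm_sm h).comp contDiff_snd).contDiffAt.add
      ((a y).sub ((piH_sm h).comp contDiff_snd).contDiffAt),
    b.mono fun σ' k y => congrArg (fun t => bm h y + (t - _)) (k y)⟩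

theorem n_piH (η : Y) : ‖piH (pl h.ε h.p) η‖ ≤ 2 * ‖η‖ := by
  have a := norm_sub_le η ((u1 η - pl h.ε h.p (u1 η)) • P.ev)
  rw [norm_smul, norm_ev, mul_one, Real.norm_eq_abs] at a
  have b : |u1 η - pl h.ε h.p (u1 η)| ≤ |u1 η| := by
    rcases le_or_gt (u1 η) 0 with c | c
    · rw [h.hp.id _ c, sub_self, abs_zero]; exact abs_nonneg _
    · rw [abs_of_pos c, abs_of_pos (sub_pos.2 (h.hp.lt _ c))]; exact sub_le_self _ (h.hp.nn _ c)
  have := abs_u1_le η
  unfold piH; linarith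

end Rk

open Rk

/-- **R0K** -/
theorem r0k : R0K := fun Φ h => ⟨Lo.ct (lb_cont _) (lo0 h), ev0 h⟩

/-- **RH** -/
theorem rh : RH := fun Φ h sm => by
  have e0 := h.ε0
  have w0 := h.w0
  have key : ∀ σ η, ‖η‖ ≤ 30 → up h.s (Fh h) (σ, Rh h (σ, η)) =
      F h.M ((lb h.s σ).1, h.R (lb h.s σ, η)) := fun σ η a => by
    rw [Rh_in h σ a]
    refine Fh_in h _ ?_
    have b := norm_add_le (R0 h (σ, η) - piH (pl h.ε h.p) η) (piH (pl h.ε h.p) η)
    rw [sub_add_cancel] at b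
    have c := (h.hR.bd (lb h.s σ) η).trans (le_abs_self _)
    have d := n_piH h η
    have : h.ε * ‖R0 h (σ, η)‖ ≤ h.ε * (2 * (|h.C| + 30)) :=
      mul_le_mul_of_nonneg_left (by unfold R0 at b ⊢; linarith [abs_nonneg h.C]) e0.le
    unfold Sml at sm
    have := mul_nonneg e0.le (add_nonneg (abs_nonneg h.C) (by norm_num : (0 : ℝ) ≤ 30))
    linarith
  have id : ∀ z, up h.s (Fh h) z ≤ 0 → Rh h z = z.2 := by
    rintro ⟨σ, η⟩ a
    rcases le_total ‖η‖ 30 with c | c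
    · exact (Rh_in h σ c).trans (h.hR.id _ _ ((Fh_in h _ (sm30 h c)).symm.trans_le a))
    · rw [up, Fh_out h _ (by linarith), boY_eq] at a
      rw [Rh_out h σ c, bm, h.hb.id _ (nonpos_of_mul_nonpos_right a (inv_pos.2 e0) ),
        add_sub_cancel_right, smul_smul, inv_mul_cancel₀ e0.ne', one_smul]
  refine ⟨lv h, w0, Lo.ct (lb_cont _) (lo h), fun σ σ' c η r => ?_,
    ⟨h.ε⁻¹ * 201 + h.C, fun z => ?_⟩, id, ?_, ?_, fun z a => ?_⟩
  · have hc := rl_norm r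
    have e : h.ε • act c η + P.ev = act c (h.ε • η + P.ev) := by rw [act_add, act_smul, act_ev]
    have k : h.rY (act c (h.ε • η + P.ev)) = act c (h.rY (h.ε • η + P.ev)) :=
      h.hb.eqv (actL hc) (act_ev c) _
    change h.ε⁻¹ • (h.rY (h.ε • act c η + P.ev) - P.ev) + (R0 h (σ', act c η) - piH _ (act c η)) =
      act c (h.ε⁻¹ • (h.rY (h.ε • η + P.ev) - P.ev) + (R0 h (σ, η) - piH _ η))
    rw [ev0 h σ σ' c η r, e, k, piH_act, act_add, act_sub, act_smul, act_sub, act_ev]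
  · refine (norm_add_le _ _).trans (add_le_add ?_ (h.hR.bd _ _))
    rw [norm_smul, Real.norm_of_nonneg (inv_pos.2 e0).le]
    refine mul_le_mul_of_nonneg_left ((norm_sub_le _ _).trans ?_) (inv_pos.2 e0).le
    rw [norm_ev]; linarith [h.hb.bd (h.ε • z.2 + P.ev)]
  · rintro ⟨σ, η⟩ a b
    rcases le_total ‖η‖ 30 with c | c
    · rw [key σ η c]
      rw [up, Fh_in h _ (sm30 h c)] at a b ⊢
      exact h.hR.lt _ _ a b
    · refine (Fh_le h _ _).trans_lt ?_
      rw [up, Fh_out h _ (by linarith), boY_eq] at a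
      rw [Rh_out h σ c, boY_bm, up, Fh_out h _ (by linarith), boY_eq]
      exact mul_lt_mul_of_pos_left (h.hb.lt _ ((mul_pos_iff_of_pos_left (inv_pos.2 e0)).1 a))
        (inv_pos.2 e0)
  · rintro ⟨σ, η⟩
    rcases le_total ‖η‖ 30 with c | c
    · have u := (le_abs_self _).trans ((abs_u1_le η).trans c)
      rw [key σ η c]
      by_cases a : (lb h.s σ).2 = 0
      · have k := h.far _ _ (n1 σ) (n2 σ) (neg_of _ a).le
        refine (h.hL.le _ _).trans ?_
        rw [h.hR.out (lb h.s σ) _ (.inl k), u1_piH]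
        linarith [h.hp.le _ u]
      · linarith [h.hR.inn _ η a u]
    · refine (Fh_le h _ _).trans ?_
      rw [Rh_out h σ c, boY_bm, inv_mul_le_iff₀ e0]
      linarith [h.hb.inn (h.ε • η + P.ev), mul_pos e0 w0]
  · exact (lo h z.1).sd (lb_cont _) (U := {y | Fh h ((lb h.s z.1).1, y) < 0})
      (isOpen_lt ((lv h).sm.continuous.comp (by fun_prop)) continuous_const)
      (fun y k => id (z.1, y) k.le)
      (cl_of (lv h).sm (z := ((lb h.s z.1).1, z.2)) a fun e => (lv h).reg _ _ e.ge (e.trans_le w0.le))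

end Crest.Agent.N218.Pc

end
end

-- ▼ part N218/P/Pc0
section

/-!
# Row 218 (helper77): kit for the first step of PIECE (lifts, descent, the upstairs family)
-/

set_option autoImplicit false
set_option linter.unusedSectionVars false
open Set Topology
open scoped RealInnerProductSpace ComplexConjugate

noncomputable section

namespace Crest.Agent.N218.P.P1
open Pm Sh A Sk

/-- upstairs -/
abbrev SS := S3 × S3

theorem nrm (a : S3) : ‖(a : V)‖ = 1 := by simp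
theorem nrm2 (a : S2) : ‖(a : E 3)‖ = 1 := by simp

/-- `y` lies over `x` -/
def Lf (x : X22) (y : SS) : Prop := (x.1 : E 3) = Hf y.1 ∧ (x.2 : E 3) = Hf y.2

theorem lab_ct (s : ℝ) : Continuous fun y : SS => lab s y.1 y.2 := by
  unfold lab; fun_prop

theorem le_of_sq_le_sq₀' {E : Type} [NormedAddCommGroup E] {a b : E} (h : ‖a‖ ^ 2 ≤ ‖b‖ ^ 2) :
    ‖a‖ ≤ ‖b‖ := (sq_le_sq₀ (norm_nonneg _) (norm_nonneg _)).1 h

theorem piH_lip {w A : ℝ} {p : ℝ → ℝ} (h : Pp w A p) (y y' : Y) :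
    ‖piH p y - piH p y'‖ ≤ ‖y - y'‖ := by
  refine le_of_sq_le_sq₀' ?_
  have a := norm_sq_Y (piH p y - piH p y')
  have b := norm_sq_Y (y - y')
  have c := sq_le_sq.2 (h.lip (u1 y) (u1 y'))
  have e1 : pv (piH p y - piH p y') = pv (y - y') := V_ext (by simp [piH, ev]) (by simp [piH, ev])
  have e2 : pw (piH p y - piH p y') = pw (y - y') := V_ext (by simp [piH, ev]) (by simp [piH, ev])
  have e3 : u2 (piH p y - piH p y') = u2 (y - y') := by simp [piH, ev, u2]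
  rw [e1, e2, e3, u1_sub, u1_piH, u1_piH] at a
  rw [u1_sub] at b
  linarith

theorem piH_zero {w A : ℝ} {p : ℝ → ℝ} (h : Pp w A p) : piH p 0 = 0 := by
  have : u1 0 = 0 := rfl
  simp [piH, this, h.id 0 le_rfl]

variable {Φ : Fam} {Λ : ℝ} (h : Shape Φ Λ)

/-- the rescaled body retraction -/
def rYs (η : Y) : Y := h.ε⁻¹ • (h.rY (h.ε • η + ev) - ev)

theorem rYs_lip (y y' : Y) : ‖rYs h y - rYs h y'‖ ≤ ‖y - y'‖ := by
  have e := h.ε0
  have a := h.hb.one (h.ε • y + ev) (h.ε • y' + ev)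
  rw [add_sub_add_right_eq_sub, ← smul_sub, norm_smul, Real.norm_of_nonneg e.le] at a
  rw [rYs, rYs, ← smul_sub, sub_sub_sub_cancel_right, norm_smul,
    Real.norm_of_nonneg (inv_pos.2 e).le, inv_mul_le_iff₀ e]
  exact a


theorem rYs_eq {η : Y} (hη : h.ε * ‖η‖ ≤ 19) : rYs h η = piH (pl h.ε h.p) η := by
  have e := h.ε0
  have n : ‖h.ε • η + ev‖ ≤ 20 := (norm_add_le _ _).trans (by
    rw [norm_smul, Real.norm_of_nonneg e.le, norm_ev]; linarith)
  have u : ⟪ev, h.ε • η + ev⟫ - 1 = h.ε * u1 η := by rw [inner_ev, u1_add, u1_smul, u1_ev]; ring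
  rw [rYs, h.hb.flat _ n, u, piH, pl, add_sub_right_comm, add_sub_cancel_right, smul_sub, smul_smul,
    smul_smul, inv_mul_cancel₀ e.ne', one_smul]
  congr 2
  field_simp


theorem C0 : 0 ≤ h.C := (norm_nonneg _).trans (h.hR.bd 0 0)

theorem R_off {x : X22} {y : SS} (l : Lf x y) (a : ¬0 < ⟪(x.1 : E 3), (x.2 : E 3)⟫) (η : Y) :
    h.R (lab h.s y.1 y.2, η) = piH (pl h.ε h.p) η :=
  h.hR.out _ _ (Or.inl (h.far _ _ (nrm _) (nrm _) (l.1 ▸ l.2 ▸ not_lt.1 a)))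

theorem nX_mem {x : X22} (a : 0 < ⟪(x.1 : E 3), (x.2 : E 3)⟫) : nX x ∈ N0 :=
  ⟨nrm2 _, by
    simp only [nX, inner_sub_right, inner_smul_right, real_inner_self_eq_norm_sq, nrm2]
    rw [inv_mul_cancel₀ a.ne']; norm_num⟩

theorem ov_hp {x : X22} {y : SS} (l : Lf x y) (a : 0 < ⟪(x.1 : E 3), (x.2 : E 3)⟫) :
    Ov (nX x) y.1 y.2 := by
  refine ⟨nrm _, nrm _, l.1.symm, ?_⟩
  simp only [nX, add_sub_cancel]
  rw [norm_smul, nrm2, mul_one, Real.norm_of_nonneg (inv_pos.2 a).le, ← l.2]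

theorem al_hp {x : X22} {y : SS} (l : Lf x y) (a : 0 < ⟪(x.1 : E 3), (x.2 : E 3)⟫) :
    1 / 4 ≤ ‖(lab h.s y.1 y.2).2‖ := (h.al _ (nX_mem a) _ _ (ov_hp l a)).1

theorem ne_hp {x : X22} {y : SS} (l : Lf x y) (a : 0 < ⟪(x.1 : E 3), (x.2 : E 3)⟫) :
    (lab h.s y.1 y.2).2 ≠ 0 := fun e => by
  have := al_hp h l a
  rw [e] at this; norm_num at this

theorem rX_on {x : X22} {y : SS} (l : Lf x y) (a : 0 < ⟪(x.1 : E 3), (x.2 : E 3)⟫) (η : Y) :
    h.rX (x, η) = h.σ' (lab h.s y.1 y.2).2 (h.R (lab h.s y.1 y.2, h.σ (lab h.s y.1 y.2).2 η)) := by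
  simp only [Shape.rX, gX, a, if_true]
  rw [h.gv _ (nX_mem a) _ _ _ (ov_hp l a), add_sub_cancel]

theorem rX_off {x : X22} (a : ¬0 < ⟪(x.1 : E 3), (x.2 : E 3)⟫) (η : Y) :
    h.rX (x, η) = piH (pl h.ε h.p) η := by
  simp only [Shape.rX, gX, a, if_false, add_zero]

theorem rX_ct : Continuous h.rX := by
  have r0 := h.S.r0
  set t : ℝ := (1 + h.S.r / 2)⁻¹ with ht
  have t0 : 0 < t := by positivity
  have key : ∀ (x : X22) (η : Y) (u : ℝ), 0 < u → u ≤ t →
      h.g (((x.1 : E 3), u⁻¹ • (x.2 : E 3) - x.1), η) = 0 := fun x η u u0 ut => by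
    refine h.g0 _ _ (Or.inl ?_)
    have a := norm_sub_norm_le (u⁻¹ • (x.2 : E 3)) (x.1 : E 3)
    rw [norm_smul, nrm2, nrm2, mul_one, Real.norm_of_nonneg (inv_pos.2 u0).le] at a
    have : 1 + h.S.r / 2 ≤ u⁻¹ := by rw [← inv_inv (1 + h.S.r / 2)]; exact inv_anti₀ u0 ut
    linarith
  have e : gX h.g = fun z : X22 × Y => h.g (((z.1.1 : E 3),
      (max ⟪(z.1.1 : E 3), (z.1.2 : E 3)⟫ t)⁻¹ • (z.1.2 : E 3) - z.1.1), z.2) := by
    funext z
    rcases le_total ⟪(z.1.1 : E 3), (z.1.2 : E 3)⟫ t with a | a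
    · rw [max_eq_right a, key _ _ _ t0 le_rfl, gX]
      split_ifs with b
      · exact key _ _ _ b a
      · rfl
    · rw [max_eq_left a, gX, if_pos (t0.trans_le a)]; rfl
  have g := h.gs.continuous
  have m : Continuous fun z : X22 × Y => (max ⟪(z.1.1 : E 3), (z.1.2 : E 3)⟫ t)⁻¹ :=
    Continuous.inv₀ (by fun_prop) fun z => (t0.trans_le (le_max_right _ _)).ne'
  have c : Continuous (gX h.g) := by
    rw [e]; exact g.comp (by fun_prop)
  exact ((piH_smooth' h.hp.sm).continuous.comp continuous_snd).add c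

end Crest.Agent.N218.P.P1

end
end

-- ▼ part N218/Pc/Pc1
section

/-!
# Row 218, block PIECE (helper77): from the frames to the ambient bundle, and the body
-/

set_option autoImplicit false
set_option linter.unusedSectionVars false
open Set Topology
open scoped RealInnerProductSpace ComplexConjugate

noncomputable section

namespace Crest.Agent.N218.Pc
open P Sk Pm Sw P.P1

namespace Q1

section gen
variable {X : Type} [TopologicalSpace X] {k : ℕ} {E : Type} [NormedAddCommGroup E] [NormedSpace ℝ E]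

theorem le_mn {s : ℝ} (s0 : 0 ≤ s) (u : Pm.V k E) : ‖u‖ ≤ ‖u + s • mn u‖ := by
  have e : (1 + s) • u = (1 + s / 2) • (u + s • mn u) + (s / 2) • tL k E (u + s • mn u) := by
    rw [map_add, map_smul, tL_mn, mn_eq]; module
  have a := norm_add_le ((1 + s / 2) • (u + s • mn u)) ((s / 2) • tL k E (u + s • mn u))
  rw [← e, norm_smul, norm_smul, norm_smul, norm_tL, Real.norm_of_nonneg (by positivity),
    Real.norm_of_nonneg (by positivity), Real.norm_of_nonneg (by positivity)] at a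
  nlinarith [norm_nonneg u]

theorem half_zero {κ : E → E} (hκ : ∀ e, ‖κ e‖ ≤ 1 / 2 * ‖e‖) {s : ℝ} (s0 : 0 ≤ s) {u : Pm.V k E}
    (h : Zr κ s u) : u = 0 := by
  have a := le_mn s0 u
  have b : ‖u + s • mn u‖ ≤ 1 / 2 * ‖u‖ := (pi_norm_le_iff_of_nonneg (by positivity)).2 fun i => by
    have : (u + s • mn u) i = κ (u (i - 1)) := by
      rw [← sub_eq_zero, ← h i]; simp only [Pi.add_apply, Pi.smul_apply]; abel
    rw [this]
    exact (hκ _).trans (by linarith [norm_le_pi_norm u (i - 1)])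
  exact norm_eq_zero.1 (by linarith [norm_nonneg u])

theorem germN {f f' : X × E → E} (hf : Continuous f) (h' : (Ec k univ f').Ok) {O : Set (X × E)}
    (hO : IsOpen O) (z : ∀ w ∈ (Ec k univ f).Z, ∀ i, (w.1.1, w.2 i) ∈ O)
    (z' : ∀ w ∈ (Ec k univ f').Z, ∀ i, (w.1.1, w.2 i) ∈ O) (e : ∀ p ∈ O, f p = f' p) :
    (Ec k univ f).Ok ∧ Pb.Eqv (Ec k univ f) (Ec k univ f') := by
  have eh : ∀ w : (X × ℝ) × Pm.V k E, (∀ i, (w.1.1, w.2 i) ∈ O) →
      (Ec k univ f).h w = (Ec k univ f').h w := fun w hw => funext fun i => by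
    rw [h_apply, h_apply, e _ (hw _)]
  have h : (Ec k univ f).Ok := by
    refine ok_of hf ?_
    suffices e : (Ec k univ f).Z = (Ec k univ f').Z from e ▸ h'.cp
    exact Set.ext fun w => ⟨fun hw => ⟨mem_O.2 (mem_O.1 hw.1), (eh w (z w hw)).symm.trans
      hw.2⟩, fun hw => ⟨mem_O.2 (mem_O.1 hw.1), (eh w (z' w hw)).trans hw.2⟩⟩
  refine ⟨h, h.eqv_germ h' (N := {w | ∀ i, (w.1.1, w.2 i) ∈ O}) ?_
    (fun w m i => m _) z z' fun w m => ⟨mem_O.trans mem_O.symm, fun _ => eh w m⟩⟩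
  simp only [ofPred_forall]
  exact isOpen_iInter_of_finite fun i => hO.preimage (by fun_prop)

theorem cm_le (e : E) : ‖cm e‖ ≤ 1 / 2 * ‖e‖ := by
  have a : (1 : ℝ) ≤ max 1 ‖e‖ := le_max_left _ _
  rw [cm, norm_smul, Real.norm_of_nonneg (by positivity)]
  refine mul_le_mul_of_nonneg_right ?_ (norm_nonneg _)
  rw [one_div]
  exact inv_anti₀ two_pos (by linarith)

theorem cm_eq {e : E} (h : ‖e‖ ≤ 1) : cm e = (1 / 2 : ℝ) • e := by
  rw [cm, max_eq_left h]; norm_num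
theorem loc' {f r : E → E} {C s : ℝ} (s0 : 0 < s) (C0 : 0 ≤ C)
    (h0 : ∀ y y', ‖r y - r y'‖ ≤ ‖y - y'‖) (hr : ∀ y, ‖f y - r y‖ ≤ C) (r0 : r 0 = 0)
    (far : ∀ y, 30 ≤ ‖y‖ → f y = r y) {y : Pm.V k E} (q : Zr f s y) (m : mn y ≠ 0) (i : Ix k) :
    ‖y i‖ ≤ 30 + 2 * C * 2 ^ (k + 1) := by
  obtain ⟨c, hc, b⟩ := D3.loc (Sk.tau_sq (k := k)) (σ := Equiv.addRight (1 : Ix k))
    (fun i => add_right_comm _ _ _) (q := 2 ^ (k + 1))
    (fun i j => ⟨(j - i).val, (ZMod.val_lt _).le, by simp⟩) s0 C0 h0 hr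
    ((Sk.eq_iff (g := fun i => s • mn y i) (F := f)).1 q) m (Z := {0}) (a := 30)
    fun y e => ⟨0, rfl, r0, by rw [sub_zero]; exact le_of_not_gt fun l => e (far y l.le)⟩
  have := b i
  rw [show c = 0 from hc, sub_zero] at this
  exact_mod_cast this

theorem free {f : E → E} {s : ℝ} (s0 : 0 < s) (h0 : ∀ y y', ‖f y - f y'‖ ≤ ‖y - y'‖)
    {y : Pm.V k E} (q : Zr f s y) : mn y = 0 :=
  D3.odd_zero (Sk.tau_sq (k := k)) (σ := Equiv.addRight (1 : Ix k))
    (fun _ => add_right_comm _ _ _) s0 (r := f) h0 (fun _ => rfl)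
    ((Sk.eq_iff (g := fun i => s • mn y i) (F := f)).1 q)

end gen

variable {n : ℕ} (B : Emb n)

theorem rl_n {σ σ' : S} {c : ℂ} (r : Rl σ σ' c) : ‖c‖ = 1 := by
  obtain ⟨t, t', -, -, rfl⟩ := r
  rw [norm_mul, Circle.norm_coe, Circle.norm_coe, mul_one]

theorem rl_lb {σ σ' : S} {c : ℂ} (r : Rl σ σ' c) (s : ℝ) :
    lb s σ' = (c * (lb s σ).1, c * (lb s σ).2.1, c * (lb s σ).2.2) := by
  obtain ⟨t, t', a, b, rfl⟩ := r
  simp only [lb, lab, a, b, PiLp.smul_apply, smul_eq_mul, Prod.mk.injEq]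
  exact ⟨by ring, by ring, by ring⟩

theorem eq' {σ σ' : S} {c : ℂ} (r : Rl σ σ' c) (e : Cn n) : B.ι' σ' e = act c (B.ι' σ e) := by
  refine ext_inner_left ℝ fun v => ?_
  obtain ⟨η, rfl⟩ := (actL (rl_n r)).surjective v
  rw [actL_apply, ← B.ad, B.eq _ _ _ _ r, B.ad, inner_act (rl_n r)]

theorem lf_ (x : X22) : Lf x (B.lf x) :=
  ⟨by conv_lhs => rw [← B.hl x, B.h1]
      rfl, by conv_lhs => rw [← B.hl x, B.h2]
              rfl⟩

theorem ct_lf {Z W : Type} [TopologicalSpace Z] [TopologicalSpace W] {Φ : S × Z → W}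
    (hΦ : Continuous Φ) (e : ∀ c y y' z, Rl y y' c → Φ (y', z) = Φ (y, z)) :
    Continuous fun x : X22 × Z => Φ (B.lf x.1, x.2) := by
  have q : IsQuotientMap (Prod.map B.hp (id : Z → Z)) :=
    (B.hc.isProperMap.prodMap isProperMap_id).isClosedMap.isQuotientMap
      (B.hc.prodMap continuous_id)
      (Function.Surjective.prodMap (fun x => ⟨_, B.hl x⟩) Function.surjective_id)
  rw [q.continuous_iff]
  convert hΦ using 1
  funext x
  obtain ⟨c, t⟩ := B.rl _ _ (B.hl (B.hp x.1)).symm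
  exact e c _ _ _ t

theorem ct_lf' {W : Type} [TopologicalSpace W] {Φ : S → W}
    (hΦ : Continuous Φ) (e : ∀ c y y', Rl y y' c → Φ y' = Φ y) : Continuous fun x => Φ (B.lf x) :=
  (ct_lf B (Z := Unit) (Φ := fun z => Φ z.1) (hΦ.comp continuous_fst) fun c y y' _ r =>
    e c y y' r).comp (continuous_id.prodMk (continuous_const (y := ())))

theorem n_i' (σ : S) (e : Cn n) : ‖B.ι' σ e‖ ≤ ‖e‖ := by
  have a : ‖B.ι σ (B.ι' σ e)‖ ^ 2 = ‖B.ι' σ e‖ ^ 2 := by
    rw [← real_inner_self_eq_norm_sq, B.ad, B.li, real_inner_self_eq_norm_sq]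
  have b : ‖B.ι' σ e‖ ^ 2 ≤ ‖B.ι σ (B.ι' σ e)‖ * ‖e‖ := by
    rw [← real_inner_self_eq_norm_sq, ← B.ad]; exact real_inner_le_norm _ _
  rw [(sq_eq_sq₀ (norm_nonneg _) (norm_nonneg _)).1 a] at b
  by_contra c
  nlinarith [norm_nonneg e, not_le.1 c]

theorem n_i (σ : S) (η : Y) : ‖B.ι σ η‖ = ‖η‖ :=
  (sq_eq_sq₀ (norm_nonneg _) (norm_nonneg _)).1 (by
    rw [← real_inner_self_eq_norm_sq, B.ad, B.li, real_inner_self_eq_norm_sq])

/-- zeros downstairs come from zeros upstairs -/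
theorem dn {k : ℕ} {σ : S} {f : Y → Y} {κ : Cn n → Cn n} (hκ : ∀ e, ‖κ e‖ ≤ 1 / 2 * ‖e‖)
    (hc : ∀ e, B.ι' σ e = 0 → B.ι' σ (κ e) = 0) {s : ℝ} (s0 : 0 ≤ s) {z : Pm.V k (Cn n)}
    (q : Zr (fun e => B.ι σ (f (B.ι' σ e)) + κ (B.pp σ e)) s z) :
    (∀ i, B.pp σ (z i) = 0) ∧ Zr f s (dg k (B.ι' σ) z) ∧
      (mn z ≠ 0 → mn (dg k (B.ι' σ) z) ≠ 0) := by
  have p0 : ∀ e, B.ι' σ (B.pp σ e) = 0 := fun e => by simp [Emb.pp, B.li]
  have a : dg k (1 - (B.ι σ).comp (B.ι' σ)) z = 0 := half_zero hκ s0 fun i => by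
    have := congrArg (1 - (B.ι σ).comp (B.ι' σ) : Cn n →L[ℝ] Cn n) (q i)
    rw [map_zero] at this
    rw [← this, ← dg_mn]
    simp [B.li, Emb.pp, smul_sub]
    have := hc _ (p0 (z (i - 1)))
    simp only [Emb.pp] at this
    rw [this, map_zero]
    abel
  have b : ∀ i, B.pp σ (z i) = 0 := fun i => congrFun a i
  refine ⟨b, fun i => ?_, fun m e => m ?_⟩
  · have := congrArg (B.ι' σ) (q i)
    simp only [← dg_mn, dg_apply]
    simpa [B.li, hc _ (p0 _)] using this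
  · have : z = dg k (B.ι σ) (dg k (B.ι' σ) z) := funext fun i => sub_eq_zero.1 (b i)
    rw [this, ← dg_mn, e, map_zero]

theorem cm_c (σ : S) (e : Cn n) (h : B.ι' σ e = 0) : B.ι' σ (cm e) = 0 := by
  rw [cm, map_smul, h, smul_zero]

end Q1
open Q1

theorem sml {Φ : A.Fam} (h : Shape Φ (2 ^ 30)) : Sml h := by
  have a := h.εΛ
  have := mul_nonneg h.ε0.le (sub_nonneg.2 h.CA)
  have := mul_nonneg h.ε0.le (sub_nonneg.2 h.A30)
  rw [Sml, abs_of_nonneg (C0 h)]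
  nlinarith

theorem pc1' (hD : DSC) {k : ℕ} (hk : 16 ≤ k) (T : Pm.Th X22 QQ) {Φ : A.Fam} {Λ : ℝ}
    (h : Shape Φ Λ) {n : ℕ} (B : Emb n) (hε : h.ε * (30 + 2 * h.C * 2 ^ (k + 1) + 1) ≤ 19)
    (c0 : Continuous (R0 h)) (e0 : Ev (R0 h)) (g : Gf k (B.ds (Rh h))) :
    (Ec k univ (B.ds (R0 h))).Ok ∧ T.pa k (sp (Cn n)) (Ec k univ (B.ds (R0 h))) =
      T.pa k (sp (Cn n)) (Ec k univ (B.ds (Rh h))) := by
  have C0 := C0 h
  have e := h.ε0
  set ρ : ℝ := 30 + 2 * h.C * 2 ^ (k + 1) with hρ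
  have key : ∀ {f : S × Y → Y} {r : Y → Y}, (∀ y y', ‖r y - r y'‖ ≤ ‖y - y'‖) →
      (∀ σ y, f (σ, y) - r y = R0 h (σ, y) - piH (pl h.ε h.p) y) → r 0 = 0 →
      ∀ w ∈ (Ec k univ (B.ds f)).Z, ∀ i, ‖w.2 i‖ < ρ + 1 := by
    intro f r h0 hr r0 w hw i
    obtain ⟨m, q⟩ := mem_Z.1 hw
    obtain ⟨a, b, c⟩ := dn B (σ := B.lf w.1.1) (f := fun η => f (B.lf w.1.1, η)) (κ := cm)
      (z := w.2) cm_le (cm_c B _) (Real.exp_pos w.1.2).le q
    have := loc' (Real.exp_pos _) C0 h0 (fun y => by rw [hr]; exact h.hR.bd _ _) r0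
      (fun y l => sub_eq_zero.1 (by rw [hr]; exact sub_eq_zero.2 (h.hR.out _ _ (Or.inr l)))) b
      (c m) i
    rw [sub_eq_zero.1 (a i), n_i]
    exact this.trans_lt (by linarith)
  obtain ⟨a, b⟩ := germN (O := {p | ‖p.2‖ < ρ + 1}) (hD.ct n B _ c0 e0) g.ok
    (isOpen_lt (by fun_prop) continuous_const) (key (piH_lip h.hp) (fun _ _ => rfl) (piH_zero h.hp))
    (key (r := rYs h) (rYs_lip h) (fun _ _ => add_sub_cancel_left _ _)
      ((rYs_eq h (by simp)).trans (piH_zero h.hp))) fun p m => by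
      have : rYs h (B.ι' (B.lf p.1) p.2) = _ := rYs_eq h
        ((mul_le_mul_of_nonneg_left ((n_i' B _ _).trans (le_of_lt m)) e.le).trans hε)
      simp only [Emb.ds, Emb.am, Rh]
      rw [rYs] at this
      rw [this, add_sub_cancel]
  exact ⟨a, T.pa_eqv k (sp (Cn n)) _ _ hk b⟩

theorem pc1 (hD : DSC) : PC1 := fun T Φ h n B hs c0 e0 g => by
  refine pc1' hD (by norm_num) T h B ?_ c0 e0 g
  have C0 := C0 h
  have e := h.ε0
  have := mul_nonneg e.le C0
  rw [Sml, abs_of_nonneg C0] at hs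
  norm_num at hs ⊢
  nlinarith

theorem pc0' {k : ℕ} (hk : 16 ≤ k) (T : Pm.Th X22 QQ) {Φ : A.Fam} {Λ : ℝ}
    (h : Shape Φ Λ) {n : ℕ} (B : Emb n) (c0 : Continuous (R0 h)) (e0 : Ev (R0 h))
    (ok : (Ec k univ (B.ds (R0 h))).Ok) : (h.pc k).Ok ∧
    Pe (T.pa k (sp Y) (h.pc k)) (T.pa k (sp (Cn n)) (Ec k univ (B.ds (R0 h)))) := by
  have ic := B.ic
  have ic' := B.ic'
  have lc : Continuous fun σ : S => lb h.s σ := lab_ct h.s
  have hκ : ∀ e : Cn n, ‖(1 / 2 : ℝ) • e‖ ≤ 1 / 2 * ‖e‖ := fun e => by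
    rw [norm_smul, Real.norm_of_nonneg (by norm_num)]
  have hc : ∀ σ (e : Cn n), B.ι' σ e = 0 → B.ι' σ ((1 / 2 : ℝ) • e) = 0 := fun σ e h => by
    rw [map_smul, h, smul_zero]
  have pc : Continuous fun z : X22 × Cn n => B.pp (B.lf z.1) z.2 :=
    ct_lf B (Φ := fun z : S × Cn n => B.pp z.1 z.2) (by unfold Emb.pp; fun_prop) fun c y y' z r => by
      simp only [Emb.pp, eq' B r, B.eq _ _ _ _ r]
  let f' : X22 × Cn n → Cn n := fun z =>
    B.ι (B.lf z.1) (R0 h (B.lf z.1, B.ι' (B.lf z.1) z.2)) + (1 / 2 : ℝ) • B.pp (B.lf z.1) z.2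
  have fc : Continuous f' := (ct_lf B (Φ := fun z : S × Cn n => B.ι z.1 (R0 h (z.1, B.ι' z.1 z.2)))
    (by fun_prop) fun c y y' z r => by
      simp only [eq' B r, e0 _ _ _ _ r, B.eq _ _ _ _ r]).add (pc.const_smul (1 / 2 : ℝ))
  obtain ⟨a, b⟩ := germN (k := k) (O := {p | ‖B.pp (B.lf p.1) p.2‖ < 1}) fc ok
    (isOpen_lt pc.norm continuous_const)
    (fun w hw i => by
      have := (dn B (σ := B.lf w.1.1) (f := fun η => R0 h (B.lf w.1.1, η)) (z := w.2)
        (κ := fun e => (1 / 2 : ℝ) • e) hκ (hc _) (Real.exp_pos w.1.2).le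
        (mem_Z.1 hw).2).1 i
      simp [this])
    (fun w hw i => by
      have := (dn B (σ := B.lf w.1.1) (f := fun η => R0 h (B.lf w.1.1, η)) (κ := cm) (z := w.2)
        cm_le (cm_c B _) (Real.exp_pos w.1.2).le
        (mem_Z.1 hw).2).1 i
      simp [this])
    fun p m => by simp only [f', Emb.ds, Emb.am, cm_eq (le_of_lt m)]
  rw [← T.pa_eqv k (sp (Cn n)) _ _ hk b]
  let ch : S → ℝ := fun σ => cl (8 * ‖(lb h.s σ).2‖ - 1)
  have chc : Continuous ch := by unfold ch; fun_prop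
  have s'c : Continuous fun σ : S => ch σ • h.σ' (lb h.s σ).2 := by
    refine continuous_iff_continuousAt.2 fun σ => ?_
    by_cases e : (lb h.s σ).2 = 0
    · refine (continuousAt_const (y := 0)).congr ?_
      have : ∀ᶠ τ in 𝓝 σ, ‖(lb h.s τ).2‖ < 1 / 8 :=
        lc.snd.norm.continuousAt.eventually_lt continuousAt_const (by rw [e]; norm_num)
      filter_upwards [this] with τ m
      rw [show ch τ = 0 from cl_of_le (by linarith)]
      exact (zero_smul ℝ (h.σ' (lb h.s τ).2)).symm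
    · exact chc.continuousAt.smul (ContinuousAt.comp (f := fun σ : S => (lb h.s σ).2)
        (h.hF.sm'.continuousOn.continuousAt (isOpen_ne.mem_nhds e)) lc.snd.continuousAt)
  have sc := h.hF.sm.continuous
  refine sw T hk (rX_ct h) (a := fun x => (B.ι (B.lf x)).comp (h.σ (lb h.s (B.lf x)).2))
    (b := fun x => (ch (B.lf x) • h.σ' (lb h.s (B.lf x)).2).comp (B.ι' (B.lf x)))
    (ct_lf' B (Φ := fun σ => (B.ι σ).comp (h.σ (lb h.s σ).2)) (ic.clm_comp (sc.comp lc.snd)) ?_)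
    (ct_lf' B (Φ := fun σ => (ch σ • h.σ' (lb h.s σ).2).comp (B.ι' σ)) (s'c.clm_comp ic') ?_)
    (U := {x | 0 < ⟪(x.1 : Sh.E 3), (x.2 : Sh.E 3)⟫}) (isOpen_lt continuous_const (by fun_prop))
    (c := 1 / 2) (by norm_num) (by norm_num) ?_ ?_ a ?_ ?_
  · intro c y y' r
    ext1 η
    simp only [ContinuousLinearMap.comp_apply, rl_lb r]
    rw [h.hF.eqv _ _ _ _ (rl_n r), B.eq _ _ _ _ r]
  · intro c y y' r
    ext1 e
    have x : ch y' = ch y := by
      simp only [ch, rl_lb r, Prod.norm_def, norm_mul, rl_n r, one_mul]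
    simp only [ContinuousLinearMap.comp_apply, smul_apply, x, eq' B r]
    by_cases z : (lb h.s y).2 = 0
    · rw [show ch y = 0 from cl_of_le (by rw [z]; norm_num), zero_smul, zero_smul]
    · rw [rl_lb r]
      exact congrArg _ (h.hF.eqv' (a := (lb h.s y).2.1) (b := (lb h.s y).2.2) (rl_n r) z _)
  · intro x u y
    have x1 : ch (B.lf x) = 1 := cl_of_ge (by
      have : 1 / 4 ≤ ‖(lb h.s (B.lf x)).2‖ := al_hp h (lf_ B x) u
      linarith)
    simp only [ContinuousLinearMap.comp_apply, x1, one_smul, B.li]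
    exact h.hF.li _ _ (ne_hp h (lf_ B x) u)
  · intro x u z
    have x1 : ch (B.lf x) = 1 := cl_of_ge (by
      have : 1 / 4 ≤ ‖(lb h.s (B.lf x)).2‖ := al_hp h (lf_ B x) u
      linarith)
    have ne : (lb h.s (B.lf x)).2 ≠ 0 := ne_hp h (lf_ B x) u
    simp only [ContinuousLinearMap.comp_apply, x1, one_smul]
    rw [rX_on h (lf_ B x) u]
    change _ = B.ι _ (h.σ _ (h.σ' (lb h.s (B.lf x)).2 (h.R (lb h.s (B.lf x),
      h.σ (lb h.s (B.lf x)).2 _)))) + _
    simp only [h.hF.ri _ _ ne]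
    rfl
  · intro w hw
    by_contra u
    exact no_zero hw fun y y' => by rw [rX_off h u, rX_off h u]; exact piH_lip h.hp y y'
  · intro w hw
    by_contra u
    obtain ⟨m, q⟩ := mem_Z.1 hw
    obtain ⟨-, b, c⟩ := dn B (σ := B.lf w.1.1) (f := fun η => R0 h (B.lf w.1.1, η)) (z := w.2)
      (κ := fun e => (1 / 2 : ℝ) • e) hκ (hc _) (Real.exp_pos w.1.2).le q
    refine c m (free (Real.exp_pos _) (fun y y' => ?_) b)
    have : ∀ y, R0 h (B.lf w.1.1, y) = piH (pl h.ε h.p) y := R_off h (lf_ B _) u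
    rw [this, this]; exact piH_lip h.hp y y'

theorem pc0 : PC0 := fun T _ h _ B c0 e0 ok => (pc0' (by norm_num) T h B c0 e0 ok).2

end Crest.Agent.N218.Pc

end
end

-- ▼ part N218/Pc/Llk
section

/-! Row 218, PIECE, leaf LLK (helper3): facts on the Lyapunov function. -/

set_option autoImplicit false
set_option linter.unusedVariables false
open Set Real Filter Topology
open scoped ContDiff RealInnerProductSpace

noncomputable section

namespace Crest.Agent.N218.Pc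
open P Sk A.Rs Ll

namespace Lq

theorem qV_eq (y : Y) : qV y = pV y := (pV_eq y).symm
theorem qW_eq (y : Y) : qW y = pW y := (pW_eq y).symm

/-- uniform descent of short gradient steps -/
theorem desc {X E : Type} [NormedAddCommGroup X] [NormedSpace ℝ X] [FiniteDimensional ℝ X]
    [NormedAddCommGroup E] [InnerProductSpace ℝ E] [FiniteDimensional ℝ E] {ρ : X × E → ℝ}
    (h : ContDiff ℝ ∞ ρ) (s R : ℝ) {δ : ℝ} (δ0 : 0 < δ) (δ1 : δ ≤ 1) :
    ∃ ε₀ > 0, ∀ ε, 0 ≤ ε → ε ≤ ε₀ → ∀ ζ y, ‖ζ‖ ≤ s → ‖y‖ ≤ R → ‖ε • vgr ρ (ζ, y)‖ ≤ δ ∧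
      ρ (ζ, y - ε • vgr ρ (ζ, y)) ≤ ρ (ζ, y) - ε / 2 * ‖vgr ρ (ζ, y)‖ ^ 2 := by
  have g := vgr_smooth h
  have K := (isCompact_closedBall (0 : X) s).prod (isCompact_closedBall (0 : E) (R + 1))
  obtain ⟨C, hC⟩ := K.exists_bound_of_continuousOn (g.continuous_fderiv (by simp)).continuousOn
  obtain ⟨D, hD⟩ := K.exists_bound_of_continuousOn g.continuous.continuousOn
  have p1 : 0 < max 1 C := one_pos.trans_le (le_max_left _ _)
  have p2 : 0 < max 1 D := one_pos.trans_le (le_max_left _ _)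
  refine ⟨min (max 1 C)⁻¹ (δ / max 1 D), by positivity, fun ε e0 e1 ζ y hζ hy => ?_⟩
  have m : ∀ y' : E, ‖y'‖ ≤ R + 1 → (ζ, y') ∈ Metric.closedBall (0 : X) s ×ˢ
      Metric.closedBall (0 : E) (R + 1) := fun y' a =>
    ⟨mem_closedBall_zero_iff.2 hζ, mem_closedBall_zero_iff.2 a⟩
  have a : ‖ε • vgr ρ (ζ, y)‖ ≤ δ := by
    rw [norm_smul, Real.norm_of_nonneg e0]
    have b := (le_div_iff₀ p2).1 (e1.trans (min_le_right _ _))
    exact (mul_le_mul_of_nonneg_left ((hD _ (m y (by linarith))).trans (le_max_right _ _))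
      e0).trans b
  refine ⟨a, ?_⟩
  have t := N218.C.taylor_le (has_slice h ζ) (L := max 1 C) (z := y) (v := -(ε • vgr ρ (ζ, y)))
    fun t ht => by
      have n : ‖t • -(ε • vgr ρ (ζ, y))‖ = t * ‖-(ε • vgr ρ (ζ, y))‖ := by
        rw [norm_smul, Real.norm_of_nonneg ht.1]
      have := ((convex_closedBall (0 : X) s).prod
        (convex_closedBall (0 : E) (R + 1))).norm_image_sub_le_of_norm_fderiv_le (𝕜 := ℝ)
        (fun x _ => g.differentiable (by simp) x) (fun x hx => (hC x hx).trans (le_max_right 1 C))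
        (m y (by linarith)) (m (y + t • -(ε • vgr ρ (ζ, y))) ((norm_add_le _ _).trans (by
          rw [n, norm_neg]; nlinarith [ht.2, norm_nonneg (ε • vgr ρ (ζ, y))])))
      rw [← map_sub, innerSL_apply_norm, ← n]
      simpa using this
  rw [← sub_eq_add_neg, innerSL_apply_apply, inner_neg_right, real_inner_smul_right,
    real_inner_self_eq_norm_sq, norm_neg, norm_smul, Real.norm_of_nonneg e0] at t
  have b : ε * max 1 C ≤ 1 := by
    have := e1.trans (min_le_left _ _)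
    rwa [← one_div, le_div_iff₀ p1] at this
  nlinarith [mul_nonneg e0 (sq_nonneg ‖vgr ρ (ζ, y)‖)]

variable {M : ℂ × P.V → P.V}

theorem LL'_eq (z : ℂ × Y) : LL' M z = L0 M z - 1 / 100 := by
  simp only [LL', L0, ta_eq]; ring

theorem LL'_sm (hM : Mz M) : ContDiff ℝ ∞ (LL' M) :=
  (funext LL'_eq : LL' M = _) ▸ (L0_sm hM).sub contDiff_const

theorem vg_of {ρ : ℂ × Y → ℝ} (h : ContDiff ℝ ∞ ρ) {z : ℂ × Y} {v : Y}
    (d : HasFDerivAt (fun y => ρ (z.1, y)) (innerSL ℝ v) z.2) : vgr ρ z = v :=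
  ext_inner_right ℝ fun x => ContinuousLinearMap.ext_iff.1 ((has_slice h z.1 z.2).unique d) x

theorem vg' (hM : Mz M) (z : ℂ × Y) : vgr (LL' M) z = gr M z :=
  vg_of (LL'_sm hM) (((gr_d hM z.1 z.2).sub_const (1 / 100)).congr_of_eventuallyEq
    (.of_forall fun y => LL'_eq _))

theorem bd (hM : Mz M) (z : ℂ × Y) (h : LL M z ≤ 1 / 100) : ‖z.2‖ ≤ 3 := by
  have a := L0_ge hM z.1 z.2
  have b := Ee_ge (ta z.2 - 4)
  have c := Ee_nn (ta z.2 - 4)
  have d := norm_sq_Y z.2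
  simp only [L0] at a
  refine (abs_le_of_sq_le_sq' ?_ (by norm_num)).2
  have e : ta z.2 ≤ 5 := by nlinarith [sq_nonneg (u1 z.2), sq_nonneg (u2 z.2)]
  unfold ta at *
  linarith

theorem cr (hM : Mz M) (z : ℂ × Y) (h : LL M z ≤ 1 / 100) (e : vgr (LL M) z = 0) : z.2 = 0 ∨
    (LL M z ≤ -(9 / 1000) ∧ qW z.2 = z.2 ∧ st (10 * (‖pw z.2‖ ^ 2 - 4)) = 1 / 1000000) := by
  obtain ⟨ζ, y⟩ := z
  have gm := Pa.gm hM ζ (c := 4) (by norm_num) le_rfl fun _ => rfl
  have d := has_slice (LL_sm hM) ζ y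
  rw [e, map_zero] at d
  have d2 : HasFDerivAt (G (fun v => M (ζ, v)) 4 0) (0 : _ →L[ℝ] ℝ) (co y) := by
    have := (show HasFDerivAt (fun y => LL M (ζ, y)) (0 : _ →L[ℝ] ℝ) (coL.symm (co y)) by
      rwa [coL_symm, oc_co]).comp (co y) coL.symm.hasFDerivAt
    rw [ContinuousLinearMap.zero_comp] at this
    exact this.congr_of_eventuallyEq (.of_forall fun z => by simp [LL, co_oc])
  rcases crit sm _ 4 0 (co y) gm d2.fderiv h with c | c
  · exact Or.inl (coL.injective (by rw [map_zero, coL_apply, c, neg_zero]; rfl))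
  · obtain ⟨a, b, b', f⟩ := c.2 rfl
    have a : pv y = 0 := a
    refine Or.inr ⟨c.1, ?_, ?_⟩
    · rw [qW_eq]
      exact Y_ext' ((pv_pW y).trans a.symm) (pw_pW y) ((u_pW y).1.trans (Eq.symm b))
        ((u_pW y).2.trans (Eq.symm (b'.trans (zero_mul _))))
    · rw [← f, ta_eq, ta, a]; simp

theorem LL_zero (ζ : ℂ) : LL M (ζ, 0) = -(1 / 100) := by
  have t : ta 0 = 0 := by simp [ta, ← pvL_apply, ← pwL_apply]
  have a := L0_lo (M := M) ζ (y := 0) (by rw [t]; norm_num)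
  rw [L0_eq (by rw [t]; norm_num)] at a
  simp only [← pvL_apply, ← pwL_apply, ← u1L_apply, ← u2L_apply, map_zero, norm_zero] at a
  linarith

theorem lb_bd (s : ℝ) : ∃ R, ∀ σ : S, ‖(lb s σ).1‖ ≤ R := by
  have : Continuous fun σ : S => (lb s σ).1 := by
    simp only [lb, lab]; fun_prop
  obtain ⟨R, h⟩ := isCompact_univ.exists_bound_of_continuousOn this.continuousOn
  exact ⟨R, fun σ => h σ trivial⟩

end Lq
open Lq

theorem llk : LLK := fun M hM =>
  { lv := ⟨LL_sm hM, fun c ζ η hc => LL_act hM hc ζ η, fun ζ η h0 h1 => ⟨vgr (LL M) (ζ, η), fun e => by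
        rw [← inner_vgr, inner_self_eq_zero] at e
        rcases cr hM _ h1 e with c | c
        · rw [show η = 0 from c, LL_zero] at h0; norm_num at h0
        · linarith [c.1]⟩, 3, fun ζ η => bd hM (ζ, η)⟩
    sm' := LL'_sm hM
    inv' := fun c ζ η hc => by rw [LL'_eq, LL'_eq, L0_act hM hc]
    bd := bd hM
    hi := fun z h => by
      rw [LL'_eq, L0_hi z.1 h, qW_eq, sq_rest, ta_eq, ta]; ring
    lo := fun z h => by
      have : z.2 - pV z.2 = dg 0 1 1 z.2 := by simp [dg_apply, sub_eq_add_neg]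
      rw [LL'_eq, L0_lo z.1 h, qV_eq, this, sq_dg, ta_eq, ta]; ring
    ge := fun z => by rw [LL'_eq, ta_eq]; linarith [L0_ge hM z.1 z.2]
    ghi := fun z h => by
      rw [vg' hM, gr_hi hM z.1 h, dg_apply, qV_eq, qW_eq]; module
    glo := fun z h => by
      rw [vg' hM, gr_lo hM z.1 h, dg_apply, qV_eq, qW_eq]; module
    gr := fun z => by
      have t : HasFDerivAt ta (innerSL ℝ (dg 2 2 0 z.2)) z.2 :=
        (quad_d 2 2 0 z.2).congr_of_eventuallyEq (.of_forall fun y => by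
          simp only [quad_eq, ta]; ring)
      have d := (has_slice (LL'_sm hM) z.1 z.2).add
        ((Ee_d (ta z.2 - 4)).comp_hasFDerivAt (h₂ := Ee) z.2 (t.sub_const 4))
      refine vg_of (LL_sm hM) ((d.congr_fderiv ?_).congr_of_eventuallyEq (.of_forall fun y => ?_))
      · rw [map_add, ← map_smul, dg_apply, qV_eq, qW_eq, ta_eq]
        congr 2; module
      · simp [LL', ta_eq]
    cr := cr hM
    ly := fun s => by
      obtain ⟨R, hR⟩ := lb_bd s
      obtain ⟨a, a0, ha⟩ := desc (LL_sm hM) R 10 (δ := 1 / 100) (by norm_num) (by norm_num)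
      obtain ⟨b, b0, hb⟩ := desc (LL'_sm hM) R 10 (δ := 1 / 100) (by norm_num) (by norm_num)
      refine ⟨min a b, lt_min a0 b0, fun ε e0 e1 z hz => ?_⟩
      obtain ⟨c, c'⟩ := ha ε e0 (e1.trans (min_le_left _ _)) _ _ (hR z.1) hz
      obtain ⟨d, d'⟩ := hb ε e0 (e1.trans (min_le_right _ _)) _ _ (hR z.1) hz
      refine ⟨?_, ?_, c', d'⟩
      · rw [Es, sub_sub_cancel_left, norm_neg]; exact c
      · rw [Es, sub_sub_cancel_left, norm_neg]; exact d }

end Crest.Agent.N218.Pc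

end
end

-- ▼ part N218/Pc/Tlf

/-! # Row 218 (helper26): the tail of the map with the rim is radial -/

set_option autoImplicit false
open Set Topology
open scoped ContDiff RealInnerProductSpace

noncomputable section

namespace Crest.Agent.N218.Pc
open P Sk

namespace Tl

variable {τ ρ ε : ℝ}

theorem t_mem (h : st (10 * τ) = 2 / 1000000) : 0 < τ ∧ τ < 1 / 10 := by
  constructor <;> by_contra! k
  · rw [st_z (by linarith)] at h; norm_num at h
  · rw [st_o (by linarith)] at h; norm_num at h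

theorem rr_sq (h : 0 < τ) : rr τ ^ 2 = 4 + τ := Real.sq_sqrt (by linarith)
theorem two_lt (h : 0 < τ) : 2 < rr τ := Real.lt_sqrt_of_sq_lt (by linarith)
theorem rr_le (h : τ < 1 / 10) : rr τ ≤ 3 := Real.sqrt_le_iff.2 ⟨by norm_num, by linarith⟩

theorem mx_pos (h : 0 < τ) (ρ : ℝ) : 0 < max ρ (rr τ) :=
  lt_max_of_lt_right (by linarith [two_lt h])
theorem cf_pos (h : 0 < τ) (ρ : ℝ) : 0 < cf τ ρ := div_pos (by linarith [two_lt h]) (mx_pos h ρ)
theorem cf_le (h : 0 < τ) (ρ : ℝ) : cf τ ρ ≤ 1 := (div_le_one (mx_pos h ρ)).2 (le_max_right _ _)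
theorem cf_one (h : 0 < τ) (e : ρ ≤ rr τ) : cf τ ρ = 1 := by
  rw [cf, max_eq_right e, div_self (by linarith [two_lt h])]
theorem cf_mul (h : 0 < τ) (ρ : ℝ) : cf τ ρ * ρ = min ρ (rr τ) := by
  rcases le_total ρ (rr τ) with e | e
  · rw [cf_one h e, min_eq_left e, one_mul]
  · rw [cf, max_eq_left e, min_eq_right e, div_mul_cancel₀ _ (by linarith [two_lt h])]
theorem cf_ct (h : 0 < τ) : Continuous (cf τ) :=
  continuous_const.div (by fun_prop) fun ρ => (mx_pos h ρ).ne'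
theorem min_sq (h : 0 < τ) (e : 0 ≤ ρ) : min ρ (rr τ) ^ 2 - 4 ≤ τ := by
  have := pow_le_pow_left₀ (le_min e (by linarith [two_lt h])) (min_le_right ρ (rr τ)) 2
  linarith [rr_sq h]
theorem st_min (h : st (10 * τ) = 2 / 1000000) (e : 0 ≤ ρ) :
    st (10 * (min ρ (rr τ) ^ 2 - 4)) ≤ 2 / 1000000 :=
  h ▸ Real.smoothTransition.monotone (by linarith [min_sq (t_mem h).1 e])

theorem lip : ∃ K : ℝ, 0 < K ∧ ∀ x ∈ Icc (0 : ℝ) 3, ∀ y ∈ Icc (0 : ℝ) 3, x ≤ y →
    y * st (10 * (y ^ 2 - 4)) - x * st (10 * (x ^ 2 - 4)) ≤ K * (y - x) := by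
  have c : ContDiff ℝ 1 fun x : ℝ => x * st (10 * (x ^ 2 - 4)) :=
    contDiff_id.mul (Real.smoothTransition.contDiff.comp (by fun_prop))
  obtain ⟨K, hK⟩ := (c.locallyLipschitz.locallyLipschitzOn (s := Icc (0 : ℝ) 3)
    ).exists_lipschitzOnWith_of_compact isCompact_Icc
  refine ⟨K + 1, by positivity, fun x hx y hy e => ?_⟩
  have := hK.dist_le_mul y hy x hx
  rw [Real.dist_eq, Real.dist_eq, abs_of_nonneg (sub_nonneg.2 e)] at this
  nlinarith [le_abs_self (y * st (10 * (y ^ 2 - 4)) - x * st (10 * (x ^ 2 - 4)))]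

theorem mm_mul (h : 0 < τ) (ε ρ : ℝ) : mm ε τ ρ * ρ = (1 + ε / 500) * min ρ (rr τ) -
    2000 * ε * (min ρ (rr τ) * st (10 * (min ρ (rr τ) ^ 2 - 4))) := by
  rw [mm, mul_right_comm, cf_mul h]; ring

theorem mm_ok (h : st (10 * τ) = 2 / 1000000) : ∃ ε₀ > 0, ∀ ε, 0 < ε → ε ≤ ε₀ →
    Mm (1 + ε / 500) (mm ε τ) := by
  obtain ⟨K, K0, hK⟩ := lip
  obtain ⟨t0, t1⟩ := t_mem h
  have r2 := two_lt t0
  have r3 := rr_le t1
  refine ⟨min 1 (1 / (2000 * K)), by positivity, fun ε e0 e1 => ?_⟩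
  have a := e1.trans (min_le_left _ _)
  have b := (le_div_iff₀ (by positivity)).1 (e1.trans (min_le_right _ _))
  have m : ∀ ρ, 0 ≤ ρ → min ρ (rr τ) ∈ Icc (0 : ℝ) 3 := fun ρ k =>
    ⟨le_min k (by linarith), (min_le_right _ _).trans r3⟩
  refine ⟨by linarith, (cf_ct t0).mul (continuous_const.sub (continuous_const.mul
    (Real.smoothTransition.continuous.comp (by fun_prop)))), fun ρ k k' => ?_, fun ρ k => ?_,
    fun x hx y hy e => ?_, ⟨6, fun ρ k => ?_⟩, rr τ,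
    fun t => 1 + ε / 500 - 2000 * ε * st (10 * (t - 4)), contDiff_const.sub (contDiff_const.mul
      (Real.smoothTransition.contDiff.comp (by fun_prop))), fun ρ _ k => ?_, by linarith,
    fun ρ k => ?_⟩
  · rw [mm, cf_one t0 (by linarith), min_eq_left (by linarith), st_z (by nlinarith)]; ring
  · exact mul_nonneg (cf_pos t0 ρ).le (by nlinarith [st_min h k])
  · have u := min_le_min_right (rr τ) e
    have := mul_le_mul_of_nonneg_left (hK _ (m x hx) _ (m y hy) u) (by positivity : 0 ≤ 2000 * ε)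
    simp only [mm_mul t0]
    nlinarith
  · have := mul_nonneg (by positivity : 0 ≤ 2000 * ε)
      (mul_nonneg (m ρ k).1 (st_nn (10 * (min ρ (rr τ) ^ 2 - 4))))
    rw [mm_mul t0]
    nlinarith [(m ρ k).1, (m ρ k).2]
  · rw [mm, cf_one t0 k.le, min_eq_left k.le, one_mul]
  · rw [mm, min_eq_right k, rr_sq t0, add_sub_cancel_left, h]
    nlinarith [cf_le t0 ρ, cf_pos t0 ρ]

theorem qW_w (c : ℝ) (η : Y) : qW (c • qW η) = c • qW η :=
  Y_ext (by simp [qW]) (by simp [qW]) (by simp [qW]) (by simp [qW]) (by simp [qW])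
theorem qV_w (c : ℝ) (η : Y) : qV (c • qW η) = 0 :=
  Y_ext (by simp [qV, qW]) (by simp [qV, qW]) (by simp [qV]) (by simp [qV]) (by simp [qV])
theorem tau_w (c : ℝ) (η : Y) : tau (co (c • qW η)) = (c * ‖pw η‖) ^ 2 := by
  have a : pv (c • qW η) = 0 := V_ext (by simp [pv, qW]) (by simp [pv, qW])
  have b : pw (c • qW η) = c • pw η := V_ext (by simp [pw, qW]) (by simp [pw, qW])
  simp [tau, co, a, b, norm_smul, mul_pow]

theorem vp_hi {η : Y} (e : 19 / 10 ≤ ‖pw η‖) : vp τ 1 η = cf τ ‖pw η‖ • qW η := by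
  rw [vp, chi, Pm.cl_of_ge (by linarith)]; module

theorem es_w {M : ℂ × P.V → P.V} (hL : Lk M) (s ε : ℝ) (σ : S) {y : Y} (w : qW y = y)
    (v : qV y = 0) (t3 : 3 < tau (co y)) : Es (LL M) s ε (σ, y) =
      (1 + ε / 500 - 2000 * ε * st (10 * (tau (co y) - 4))) • y := by
  have a := hL.gr ((lb s σ).1, y)
  have b := hL.ghi ((lb s σ).1, y) t3
  dsimp only at a b
  rw [b, w, v] at a
  change y - ε • A.Rs.vgr (LL M) ((lb s σ).1, y) = _
  rw [a]
  module

theorem ll_w {M : ℂ × P.V → P.V} (hL : Lk M) (h : st (10 * τ) = 2 / 1000000) (ζ : ℂ) {y : Y}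
    (w : qW y = y) (t3 : 3 < tau (co y)) (t4 : tau (co y) - 4 ≤ τ) : LL M (ζ, y) ≤ 0 := by
  obtain ⟨t0, t1⟩ := t_mem h
  have a : LL M (ζ, y) - Ee (tau (co y) - 4) = ‖y - qW y‖ ^ 2 - tau (co y) / 1000 - 1 / 100 :=
    hL.hi (ζ, y) t3.le
  have b := (Ee_mono t4).trans (Ee_le t0.le)
  rw [w, sub_self, norm_zero] at a
  rw [h] at b
  linarith

theorem f1_hi {M : ℂ × P.V → P.V} {s : ℝ} {r : S × Y → Y} (hL : Lk M)
    (h : st (10 * τ) = 2 / 1000000) (hr : Rr M s r) (ε : ℝ) (z : S × Y) (e : 19 / 10 ≤ ‖pw z.2‖) :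
    f1 M s ε τ r z = mm ε τ ‖pw z.2‖ • qW z.2 := by
  have t0 := (t_mem h).1
  have t := tau_w (cf τ ‖pw z.2‖) z.2
  rw [cf_mul t0] at t
  have m : 19 / 10 ≤ min ‖pw z.2‖ (rr τ) := le_min e (by linarith [two_lt t0])
  have t3 : 3 < tau (co (cf τ ‖pw z.2‖ • qW z.2)) := by rw [t]; nlinarith
  have l := ll_w hL h (lb s z.1).1 (qW_w _ _) t3 (by rw [t]; exact min_sq t0 (norm_nonneg _))
  rw [f1, vp_hi e, hr.id (z.1, _) l, es_w hL s ε _ (qW_w _ _) (qV_w _ _) t3, t, smul_smul, mul_comm]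
  rfl

end Tl

theorem tlf : TLF := fun _ _ _ _ hL h hr =>
  (Tl.mm_ok h).imp fun _ a => ⟨a.1, fun ε b c => ⟨a.2 ε b c, Tl.f1_hi hL h hr ε⟩⟩

end Crest.Agent.N218.Pc

end
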